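import Mathlib

/-!
One-dimensional multi-scale crossing lemma (abstract part of R149).
-/

set_option autoImplicit false
open Set Filter Topology

namespace Crest.Agent.R149.Abs

/-- The system of inequalities satisfied by the two-phase values `X k`, `Y k`. -/
structure Sys (b1 b2 h0 C0 : ℝ) (X Y : ℕ → ℝ → ℝ) (ε δ : ℕ → ℝ) : Prop where
  hb : b1 < b2
  hh0 : 0 < h0
  hC0 : 0 < C0
  hX : ∀ k, ConvexOn ℝ (Icc b1 b2) (X k)
  hY : ∀ k, ConvexOn ℝ (Icc b1 b2) (Y k)
  hXb : ∀ k, ∀ β ∈ Icc b1 b2, |X k β| ≤ C0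
  hYb : ∀ k, ∀ β ∈ Icc b1 b2, |Y k β| ≤ C0
  h2X : ∀ k, ∀ β ∈ Icc b1 b2, X k β - ε (k+1) ≤ X (k+1) β
  h2Y : ∀ k, ∀ β ∈ Icc b1 b2, Y k β - ε (k+1) ≤ Y (k+1) β
  h3X : ∀ k, ∀ β ∈ Icc b1 b2, X (k+1) β ≤ max (X k β) (Y k β - δ (k+1)) + ε (k+1)
  h3Y : ∀ k, ∀ β ∈ Icc b1 b2, Y (k+1) β ≤ max (Y k β) (X k β - δ (k+1)) + ε (k+1)
  hε : ∀ k, 0 ≤ ε k
  hδ : ∀ k, 0 < δ k
  hδ2 : ∀ k, δ (k+1) ≤ δ k / 2
  hεδ : ∀ k, ε (k+1) ≤ δ (k+1) / 8
  hδ1 : δ 1 ≤ 16 * C0
  hleft : ∀ β ∈ Icc b1 b2, β ≤ b1 + h0 → Y 0 β - X 0 β ≤ - ((3/4) * δ 0)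
  hright : ∀ β ∈ Icc b1 b2, b2 - h0 ≤ β → (3/4) * δ 0 ≤ Y 0 β - X 0 β

variable {b1 b2 h0 C0 : ℝ} {X Y : ℕ → ℝ → ℝ} {ε δ : ℕ → ℝ}

lemma convex_reflect {a b : ℝ} {f : ℝ → ℝ} (hf : ConvexOn ℝ (Icc a b) f) :
    ConvexOn ℝ (Icc (-b) (-a)) (fun x => f (-x)) := by
  refine ⟨convex_Icc _ _, ?_⟩
  intro x hx y hy s t hs ht hst
  have h := hf.2 (x := -x) (by constructor <;> linarith [hx.1, hx.2])
    (y := -y) (by constructor <;> linarith [hy.1, hy.2]) hs ht hst
  simp only [smul_eq_mul] at h ⊢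
  have e : -(s * x + t * y) = s * -x + t * -y := by ring
  rw [e]
  exact h

lemma Sys.reflect (S : Sys b1 b2 h0 C0 X Y ε δ) :
    Sys (-b2) (-b1) h0 C0 (fun k β => Y k (-β)) (fun k β => X k (-β)) ε δ where
  hb := by linarith [S.hb]
  hh0 := S.hh0
  hC0 := S.hC0
  hX := fun k => convex_reflect (S.hY k)
  hY := fun k => convex_reflect (S.hX k)
  hXb := fun k β hβ => S.hYb k _ (by constructor <;> linarith [hβ.1, hβ.2])
  hYb := fun k β hβ => S.hXb k _ (by constructor <;> linarith [hβ.1, hβ.2])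
  h2X := fun k β hβ => S.h2Y k _ (by constructor <;> linarith [hβ.1, hβ.2])
  h2Y := fun k β hβ => S.h2X k _ (by constructor <;> linarith [hβ.1, hβ.2])
  h3X := fun k β hβ => S.h3Y k _ (by constructor <;> linarith [hβ.1, hβ.2])
  h3Y := fun k β hβ => S.h3X k _ (by constructor <;> linarith [hβ.1, hβ.2])
  hε := S.hε
  hδ := S.hδ
  hδ2 := S.hδ2
  hεδ := S.hεδ
  hδ1 := S.hδ1
  hleft := fun β hβ h => by
    have := S.hright (-β) (by constructor <;> linarith [hβ.1, hβ.2]) (by linarith)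
    linarith
  hright := fun β hβ h => by
    have := S.hleft (-β) (by constructor <;> linarith [hβ.1, hβ.2]) (by linarith)
    linarith

lemma Sys.D_lower (S : Sys b1 b2 h0 C0 X Y ε δ) (k : ℕ) {β : ℝ} (hβ : β ∈ Icc b1 b2) :
    min (Y k β - X k β) (δ (k+1)) - 2 * ε (k+1) ≤ Y (k+1) β - X (k+1) β := by
  have h1 := S.h2Y k β hβ
  have h2 := S.h3X k β hβ
  rcases le_total (X k β) (Y k β - δ (k+1)) with h | h
  · rw [max_eq_right h] at h2
    have : min (Y k β - X k β) (δ (k+1)) ≤ δ (k+1) := min_le_right _ _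
    linarith
  · rw [max_eq_left h] at h2
    have : min (Y k β - X k β) (δ (k+1)) ≤ Y k β - X k β := min_le_left _ _
    linarith

lemma Sys.invR (S : Sys b1 b2 h0 C0 X Y ε δ) (k : ℕ) :
    ∀ β ∈ Icc b1 b2, b2 - h0 ≤ β → (3/4) * δ k ≤ Y k β - X k β := by
  induction k with
  | zero => exact S.hright
  | succ k ih =>
    intro β hβ hβ'
    have h := S.D_lower k hβ
    have h1 := ih β hβ hβ'
    have h2 := S.hδ2 k
    have h3 := S.hδ (k+1)
    have h4 := S.hεδ k
    have h5 : δ (k+1) ≤ min (Y k β - X k β) (δ (k+1)) := le_min (by linarith) le_rfl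
    linarith

lemma Sys.invL (S : Sys b1 b2 h0 C0 X Y ε δ) (k : ℕ) :
    ∀ β ∈ Icc b1 b2, β ≤ b1 + h0 → Y k β - X k β ≤ - ((3/4) * δ k) := by
  intro β hβ hβ'
  have := S.reflect.invR k (-β) (by constructor <;> linarith [hβ.1, hβ.2]) (by linarith)
  simp only [neg_neg] at this
  linarith

lemma Sys.δ_le (S : Sys b1 b2 h0 C0 X Y ε δ) (k : ℕ) : δ (k+1) ≤ 16 * C0 := by
  induction k with
  | zero => exact S.hδ1
  | succ k ih => have := S.hδ2 (k+1); have := S.hδ (k+1); linarith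

/-- secant inequality: for convex `f` bounded by `C` the increment to the right is controlled. -/
lemma incr_le {b1 b2 C : ℝ} {f : ℝ → ℝ} (hf : ConvexOn ℝ (Icc b1 b2) f)
    (hC : ∀ β ∈ Icc b1 b2, |f β| ≤ C) {β r d : ℝ} (hβ : b1 ≤ β) (hr : 0 < r) (hd : 0 < d)
    (h : β + r + d ≤ b2) : f (β + r) - f β ≤ r * (2 * C / d) := by
  have hb : b1 ≤ b2 := by linarith
  have hC0 : 0 ≤ C := le_trans (abs_nonneg _) (hC β ⟨hβ, by linarith⟩)
  have h1 := hf.slope_mono_adjacent (x := β) (y := β + r) (z := b2) ⟨hβ, by linarith⟩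
    ⟨hb, le_rfl⟩ (by linarith) (by linarith)
  have e1 : β + r - β = r := by ring
  rw [e1] at h1
  have h2 : f b2 - f (β + r) ≤ 2 * C := by
    have a := abs_le.1 (hC b2 ⟨hb, le_rfl⟩)
    have b := abs_le.1 (hC (β + r) ⟨by linarith, by linarith⟩)
    linarith [a.2, b.1]
  have h3 : (f b2 - f (β + r)) / (b2 - (β + r)) ≤ 2 * C / d := by
    have hpos : 0 < b2 - (β + r) := by linarith
    rw [div_le_div_iff₀ hpos hd]
    have : (f b2 - f (β + r)) * d ≤ 2 * C * d := mul_le_mul_of_nonneg_right h2 hd.le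
    have : 2 * C * d ≤ 2 * C * (b2 - (β + r)) := mul_le_mul_of_nonneg_left (by linarith) (by linarith)
    linarith
  have h4 := le_trans h1 h3
  rw [div_le_iff₀ hr] at h4
  linarith [h4, mul_comm (2 * C / d) r]

lemma incr_ge {b1 b2 C : ℝ} {f : ℝ → ℝ} (hf : ConvexOn ℝ (Icc b1 b2) f)
    (hC : ∀ β ∈ Icc b1 b2, |f β| ≤ C) {β r d : ℝ} (hr : 0 < r) (hd : 0 < d)
    (h : β + r ≤ b2) (h' : b1 + d ≤ β) : - (r * (2 * C / d)) ≤ f (β + r) - f β := by
  have key := incr_le (b1 := -b2) (b2 := -b1) (C := C) (f := fun x => f (-x)) (convex_reflect hf)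
    (fun β hβ => hC _ (by constructor <;> linarith [hβ.1, hβ.2]))
    (β := -(β + r)) (r := r) (d := d) (by linarith) hr hd (by linarith)
  have e : -(-(β + r) + r) = β := by ring
  simp only [neg_neg, e] at key
  linarith

/-- propagation of the upper slope bound for `X`. -/
lemma Sys.slopeX (S : Sys b1 b2 h0 C0 X Y ε δ) (x0 g : ℝ) (hg : 0 ≤ g)
    (hh : 2 * h0 ≤ b2 - b1)
    (hε2 : ∀ k, 64 * C0 * ε (k+1) ≤ h0 * δ (k+1) * (g / 2^(k+1)))
    (hSX : ∀ β ∈ Icc b1 b2, ∀ β' ∈ Icc b1 b2, β < β' → Y 0 β' - X 0 β' ≤ δ 1 →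
      X 0 β' - X 0 β ≤ x0 * (β' - β)) (k : ℕ) :
    ∀ β ∈ Icc b1 b2, ∀ β' ∈ Icc b1 b2, β < β' → Y k β' - X k β' ≤ δ (k+1) →
      X k β' - X k β ≤ (x0 + g * (1 - 1/2^k)) * (β' - β) := by
  induction k with
  | zero =>
    intro β hβ β' hβ' hlt hD
    have := hSX β hβ β' hβ' hlt hD
    simpa using this
  | succ k ih =>
    intro β hβ β' hβ' hlt hD
    have hh0 := S.hh0
    have hC0 := S.hC0
    have hδp := S.hδ (k+1)
    set r := h0 * δ (k+1) / (32 * C0) with hr
    have hrpos : 0 < r := by rw [hr]; positivity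
    have hrle : r ≤ h0 / 2 := by
      rw [hr, div_le_iff₀ (by positivity)]
      have := S.δ_le k
      nlinarith
    -- lower bound of D_{k+1} by D_k
    have hDl := S.D_lower k hβ'
    have hδ2 := S.hδ2 (k+1)
    have hεδ := S.hεδ k
    have hDk : Y k β' - X k β' ≤ (3/4) * δ (k+1) := by
      by_contra hcon
      push Not at hcon
      have : (3/4) * δ (k+1) < min (Y k β' - X k β') (δ (k+1)) := lt_min hcon (by linarith)
      linarith
    have hβ'lt : β' < b2 - h0 := by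
      by_contra hcon
      push Not at hcon
      have h1 := S.invR (k+1) β' hβ' hcon
      have h2 := S.invR k β' hβ' hcon
      have h3 := S.hδ2 k
      linarith
    have hmem : β' + r ∈ Icc b1 b2 := ⟨by linarith [hβ'.1], by linarith⟩
    -- D_k at β'+r
    have hDr : Y k (β' + r) - X k (β' + r) ≤ δ (k+1) := by
      by_cases hc : β' + r ≤ b1 + h0
      · have h1 := S.invL k (β' + r) hmem hc
        have := S.hδ k
        linarith
      · push Not at hc
        have h1 := incr_le (S.hY k) (S.hYb k) (β := β') (r := r) (d := h0/2) hβ'.1 hrpos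
          (by linarith) (by linarith)
        have h2 := incr_ge (S.hX k) (S.hXb k) (β := β') (r := r) (d := h0/2) hrpos
          (by linarith) (by linarith) (by linarith)
        have e : r * (2 * C0 / (h0/2)) = δ (k+1) / 8 := by
          rw [hr]; field_simp; ring
        rw [e] at h1 h2
        linarith
    -- slope on [β', β'+r]
    have hs := ih β' hβ' (β' + r) hmem (by linarith) hDr
    have e2 : β' + r - β' = r := by ring
    rw [e2] at hs
    have hXr : X (k+1) (β' + r) ≤ X k (β' + r) + ε (k+1) := by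
      have := S.h3X k _ hmem
      have h4 : max (X k (β' + r)) (Y k (β' + r) - δ (k+1)) = X k (β' + r) :=
        max_eq_left (by linarith)
      rwa [h4] at this
    have hXl := S.h2X k β' hβ'
    have hmono := (S.hX (k+1)).slope_mono_adjacent (x := β) (y := β') (z := β' + r) hβ hmem hlt
      (by linarith)
    rw [e2] at hmono
    have h5 : (X (k+1) (β' + r) - X (k+1) β') / r ≤ x0 + g * (1 - 1/2^(k+1)) := by
      rw [div_le_iff₀ hrpos]
      have h6 : 2 * ε (k+1) ≤ (g / 2^(k+1)) * r := by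
        rw [hr]
        have := hε2 k
        rw [mul_div_assoc', le_div_iff₀ (by positivity)]
        nlinarith
      have h7 : (x0 + g * (1 - 1/2^(k+1))) * r = (x0 + g * (1 - 1/2^k)) * r + (g / 2^(k+1)) * r := by
        rw [pow_succ]; field_simp; ring
      rw [h7]
      linarith
    have h8 := le_trans hmono h5
    rwa [div_le_iff₀ (by linarith)] at h8

lemma Sys.slopeX' (S : Sys b1 b2 h0 C0 X Y ε δ) (x0 g : ℝ) (hg : 0 ≤ g)
    (hh : 2 * h0 ≤ b2 - b1)
    (hε2 : ∀ k, 64 * C0 * ε (k+1) ≤ h0 * δ (k+1) * (g / 2^(k+1)))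
    (hSX : ∀ β ∈ Icc b1 b2, ∀ β' ∈ Icc b1 b2, β < β' → Y 0 β' - X 0 β' ≤ δ 1 →
      X 0 β' - X 0 β ≤ x0 * (β' - β)) (k : ℕ) :
    ∀ β ∈ Icc b1 b2, ∀ β' ∈ Icc b1 b2, β < β' → Y k β' - X k β' ≤ δ (k+1) →
      X k β' - X k β ≤ (x0 + g) * (β' - β) := by
  intro β hβ β' hβ' hlt hD
  have h1 := S.slopeX x0 g hg hh hε2 hSX k β hβ β' hβ' hlt hD
  have h2 : x0 + g * (1 - 1/2^k) ≤ x0 + g := by
    have : (0:ℝ) ≤ 1/2^k := by positivity
    nlinarith
  have h3 := mul_le_mul_of_nonneg_right h2 (by linarith : 0 ≤ β' - β)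
  linarith

lemma Sys.slopeY' (S : Sys b1 b2 h0 C0 X Y ε δ) (y0 g : ℝ) (hg : 0 ≤ g)
    (hh : 2 * h0 ≤ b2 - b1)
    (hε2 : ∀ k, 64 * C0 * ε (k+1) ≤ h0 * δ (k+1) * (g / 2^(k+1)))
    (hSY : ∀ β ∈ Icc b1 b2, ∀ β' ∈ Icc b1 b2, β < β' → - δ 1 ≤ Y 0 β - X 0 β →
      y0 * (β' - β) ≤ Y 0 β' - Y 0 β) (k : ℕ) :
    ∀ β ∈ Icc b1 b2, ∀ β' ∈ Icc b1 b2, β < β' → - δ (k+1) ≤ Y k β - X k β →
      (y0 - g) * (β' - β) ≤ Y k β' - Y k β := by
  intro β hβ β' hβ' hlt hD
  have key := S.reflect.slopeX' (-y0) g hg (by linarith) hε2 (by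
    intro γ hγ γ' hγ' hlt' hD'
    have := hSY (-γ') (by constructor <;> linarith [hγ'.1, hγ'.2]) (-γ)
      (by constructor <;> linarith [hγ.1, hγ.2]) (by linarith) (by linarith)
    nlinarith) k (-β') (by constructor <;> linarith [hβ'.1, hβ'.2]) (-β)
      (by constructor <;> linarith [hβ.1, hβ.2]) (by linarith) (by simp only [neg_neg]; linarith)
  simp only [neg_neg] at key
  nlinarith

/-- The one-dimensional multi-scale crossing lemma. -/
theorem Sys.main (S : Sys b1 b2 h0 C0 X Y ε δ) (h : ℝ → ℝ) (η : ℕ → ℝ) (x0 y0 : ℝ)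
    (hh : 2 * h0 ≤ b2 - b1)
    (hconv : ConvexOn ℝ (Icc b1 b2) h)
    (h1 : ∀ k, ∀ β ∈ Icc b1 b2, |h β - max (X k β) (Y k β)| ≤ η k)
    (hη : Tendsto η atTop (𝓝 0))
    (hxy : x0 < y0)
    (hε2 : ∀ k, 64 * C0 * ε (k+1) ≤ h0 * δ (k+1) * ((y0 - x0) / 2^(k+3)))
    (hSX : ∀ β ∈ Icc b1 b2, ∀ β' ∈ Icc b1 b2, β < β' → Y 0 β' - X 0 β' ≤ δ 1 →
      X 0 β' - X 0 β ≤ x0 * (β' - β))
    (hSY : ∀ β ∈ Icc b1 b2, ∀ β' ∈ Icc b1 b2, β < β' → - δ 1 ≤ Y 0 β - X 0 β →
      y0 * (β' - β) ≤ Y 0 β' - Y 0 β) :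
    ∃ βc ∈ Ioo b1 b2, ∃ x y : ℝ, x < y ∧
      (∀ β ∈ Ico b1 βc, h βc - h β ≤ x * (βc - β)) ∧
      (∀ β ∈ Ioc βc b2, y * (β - βc) ≤ h β - h βc) := by
  have hb := S.hb
  have hh0 := S.hh0
  set g := (y0 - x0) / 4 with hg
  have hgpos : 0 < g := by rw [hg]; linarith
  have hε2' : ∀ k, 64 * C0 * ε (k+1) ≤ h0 * δ (k+1) * (g / 2^(k+1)) := by
    intro k
    have e : g / 2^(k+1) = (y0 - x0) / 2^(k+3) := by
      rw [hg, pow_add, pow_add]; field_simp; ring
    rw [e]; exact hε2 k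
  have sX := S.slopeX' x0 g hgpos.le hh hε2' hSX
  have sY := S.slopeY' y0 g hgpos.le hh hε2' hSY
  have hxy' : x0 + g < y0 - g := by rw [hg]; linarith
  -- upper bound of D_{k+1}
  have hDup : ∀ k, ∀ β ∈ Icc b1 b2, Y (k+1) β - X (k+1) β ≤
      max (Y k β - X k β) (-δ (k+1)) + 2 * ε (k+1) := by
    intro k β hβ
    have := S.reflect.D_lower k (β := -β) (by constructor <;> linarith [hβ.1, hβ.2])
    simp only [neg_neg] at this
    rcases le_total (Y k β - X k β) (-δ (k+1)) with hc | hc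
    · rw [max_eq_right hc]
      rw [min_eq_right (by linarith)] at this
      linarith
    · rw [max_eq_left hc]
      rw [min_eq_left (by linarith)] at this
      linarith
  -- right type / left type
  let R : Set ℝ := {β | β ∈ Icc b1 b2 ∧ ∃ k, δ k / 2 ≤ Y k β - X k β}
  let Lf : Set ℝ := {β | β ∈ Icc b1 b2 ∧ ∃ k, Y k β - X k β ≤ - (δ k / 2)}
  have persR : ∀ β ∈ Icc b1 b2, ∀ k, δ k / 2 ≤ Y k β - X k β → ∀ j, δ (k+j) / 2 ≤ Y (k+j) β - X (k+j) β := by
    intro β hβ k hk j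
    induction j with
    | zero => simpa using hk
    | succ j ih =>
      have h3 := S.D_lower (k+j) hβ
      have h4 := S.hδ2 (k+j)
      have h5 := S.hεδ (k+j)
      have h6 := S.hδ (k+j+1)
      have h7 : δ (k+j+1) ≤ min (Y (k+j) β - X (k+j) β) (δ (k+j+1)) := le_min (by linarith) le_rfl
      have e : k + (j+1) = k + j + 1 := by ring
      rw [e]; linarith
  have persL : ∀ β ∈ Icc b1 b2, ∀ k, Y k β - X k β ≤ -(δ k / 2) → ∀ j, Y (k+j) β - X (k+j) β ≤ -(δ (k+j) / 2) := by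
    intro β hβ k hk j
    induction j with
    | zero => simpa using hk
    | succ j ih =>
      have h3 := hDup (k+j) β hβ
      have h4 := S.hδ2 (k+j)
      have h5 := S.hεδ (k+j)
      have h6 := S.hδ (k+j+1)
      have h7 : max (Y (k+j) β - X (k+j) β) (-δ (k+j+1)) ≤ -δ (k+j+1) := max_le (by linarith) le_rfl
      have e : k + (j+1) = k + j + 1 := by ring
      rw [e]; linarith
  -- order: left-type points are to the left of right-type points
  have hord : ∀ β ∈ Lf, ∀ β' ∈ R, β < β' := by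
    rintro β ⟨hβ, k, hk⟩ β' ⟨hβ', k', hk'⟩
    by_contra hcon
    push Not at hcon
    have a1 := persL β hβ k hk k'
    have a2 := persR β' hβ' k' hk' k
    rw [add_comm k' k] at a2
    have hδp := S.hδ (k+k')
    rcases eq_or_lt_of_le hcon with he | hlt
    · rw [he] at a2; linarith
    · -- β' < β, β' right type, β left type
      have b1' := sX (k+k') β' hβ' β hβ hlt (by linarith [S.hδ (k+k'+1)])
      have b2' := sY (k+k') β' hβ' β hβ hlt (by linarith [S.hδ (k+k'+1)])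
      nlinarith
  -- points of neither type: at most one
  have hmid : ∀ β ∈ Icc b1 b2, ∀ β' ∈ Icc b1 b2, β < β' → β ∈ Lf ∨ β' ∈ R := by
    intro β hβ β' hβ' hlt
    by_contra hcon
    push Not at hcon
    obtain ⟨hL, hR⟩ := hcon
    have nL : ∀ k, -(δ k / 2) < Y k β - X k β := by
      intro k; by_contra hc; push Not at hc; exact hL ⟨hβ, k, hc⟩
    have nR : ∀ k, Y k β' - X k β' < δ k / 2 := by
      intro k; by_contra hc; push Not at hc; exact hR ⟨hβ', k, hc⟩
    -- for every k ≥ 1: D_{k}(β) ≥ -δ_{k+1}? use D at level k+1 versus k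
    have key : ∀ k, (y0 - g - (x0 + g)) * (β' - β) ≤ δ k := by
      intro k
      have q1 : -δ (k+1) ≤ Y k β - X k β := by
        by_contra hc
        push Not at hc
        have h3 := hDup k β hβ
        have h4 := S.hεδ k
        have h6 := S.hδ (k+1)
        have h7 : max (Y k β - X k β) (-δ (k+1)) ≤ -δ (k+1) := max_le (by linarith) le_rfl
        have := nL (k+1)
        linarith
      have q2 : Y k β' - X k β' ≤ δ (k+1) := by
        by_contra hc
        push Not at hc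
        have h3 := S.D_lower k hβ'
        have h4 := S.hεδ k
        have h6 := S.hδ (k+1)
        have h7 : δ (k+1) ≤ min (Y k β' - X k β') (δ (k+1)) := le_min (by linarith) le_rfl
        have := nR (k+1)
        linarith
      have c1 := sX k β hβ β' hβ' hlt q2
      have c2 := sY k β hβ β' hβ' hlt q1
      have c3 := nL k
      have c4 := nR k
      nlinarith
    have hδ0 : Tendsto δ atTop (𝓝 0) := by
      have hle : ∀ k, δ k ≤ δ 0 * (1/2)^k := by
        intro k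
        induction k with
        | zero => simp
        | succ k ih => have := S.hδ2 k; rw [pow_succ]; linarith
      have ht : Tendsto (fun k : ℕ => δ 0 * (1/2 : ℝ)^k) atTop (𝓝 0) := by
        have := (tendsto_pow_atTop_nhds_zero_of_lt_one (r := (1/2:ℝ)) (by norm_num) (by norm_num)).const_mul (δ 0)
        simpa using this
      exact squeeze_zero (fun k => (S.hδ k).le) hle ht
    have := ge_of_tendsto' hδ0 key
    have : 0 < (y0 - g - (x0 + g)) * (β' - β) := mul_pos (by linarith) (by linarith)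
    linarith
  -- slope inequalities for h
  have hRslope : ∀ β ∈ R, ∀ β' ∈ Icc b1 b2, β < β' → (y0 - g) * (β' - β) ≤ h β' - h β := by
    rintro β ⟨hβ, k, hk⟩ β' hβ' hlt
    have hall : ∀ j, (y0 - g) * (β' - β) - 2 * η (k+j) ≤ h β' - h β := by
      intro j
      have a := persR β hβ k hk j
      have hδp := S.hδ (k+j)
      have c2 := sY (k+j) β hβ β' hβ' hlt (by linarith [S.hδ (k+j+1)])
      have d1 := abs_le.1 (h1 (k+j) β hβ)
      have d2 := abs_le.1 (h1 (k+j) β' hβ')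
      have e1 : max (X (k+j) β) (Y (k+j) β) = Y (k+j) β := max_eq_right (by linarith)
      have e2 : Y (k+j) β' ≤ max (X (k+j) β') (Y (k+j) β') := le_max_right _ _
      rw [e1] at d1
      linarith [d1.2, d2.1]
    have ht : Tendsto (fun j => (y0 - g) * (β' - β) - 2 * η (k+j)) atTop (𝓝 ((y0 - g) * (β' - β) - 2 * 0)) := by
      apply Tendsto.sub tendsto_const_nhds
      apply Tendsto.const_mul
      have : Tendsto (fun j => η (j + k)) atTop (𝓝 0) := (tendsto_add_atTop_iff_nat k).2 hη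
      simpa [add_comm] using this
    have := le_of_tendsto' ht hall
    linarith
  have hLslope : ∀ β' ∈ Lf, ∀ β ∈ Icc b1 b2, β < β' → h β' - h β ≤ (x0 + g) * (β' - β) := by
    rintro β' ⟨hβ', k, hk⟩ β hβ hlt
    have hall : ∀ j, h β' - h β ≤ (x0 + g) * (β' - β) + 2 * η (k+j) := by
      intro j
      have a := persL β' hβ' k hk j
      have hδp := S.hδ (k+j)
      have c2 := sX (k+j) β hβ β' hβ' hlt (by linarith [S.hδ (k+j+1)])
      have d1 := abs_le.1 (h1 (k+j) β hβ)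
      have d2 := abs_le.1 (h1 (k+j) β' hβ')
      have e1 : max (X (k+j) β') (Y (k+j) β') = X (k+j) β' := max_eq_left (by linarith)
      have e2 : X (k+j) β ≤ max (X (k+j) β) (Y (k+j) β) := le_max_left _ _
      rw [e1] at d2
      linarith [d1.1, d2.2]
    have ht : Tendsto (fun j => (x0 + g) * (β' - β) + 2 * η (k+j)) atTop (𝓝 ((x0 + g) * (β' - β) + 2 * 0)) := by
      apply Tendsto.add tendsto_const_nhds
      apply Tendsto.const_mul
      have : Tendsto (fun j => η (j + k)) atTop (𝓝 0) := (tendsto_add_atTop_iff_nat k).2 hη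
      simpa [add_comm] using this
    have := ge_of_tendsto' ht hall
    linarith
  -- the critical point
  have hb1L : b1 + h0 ∈ Lf := ⟨⟨by linarith, by linarith⟩, 0, by
    have := S.hleft (b1 + h0) ⟨by linarith, by linarith⟩ le_rfl
    linarith [S.hδ 0]⟩
  have hb2R : b2 - h0 ∈ R := ⟨⟨by linarith, by linarith⟩, 0, by
    have := S.hright (b2 - h0) ⟨by linarith, by linarith⟩ le_rfl
    linarith [S.hδ 0]⟩
  set βc := sSup Lf with hβc
  have hbdd : BddAbove Lf := ⟨b2 - h0, fun β hβ => (hord β hβ _ hb2R).le⟩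
  have hc1 : b1 + h0 ≤ βc := le_csSup hbdd hb1L
  have hc2 : βc ≤ b2 - h0 := csSup_le ⟨_, hb1L⟩ (fun β hβ => (hord β hβ _ hb2R).le)
  have hcmem : βc ∈ Icc b1 b2 := ⟨by linarith, by linarith⟩
  have hLdown : ∀ β ∈ Icc b1 b2, β < βc → β ∈ Lf := by
    intro β hβ hlt
    obtain ⟨γ, hγ, hγ'⟩ := exists_lt_of_lt_csSup ⟨_, hb1L⟩ hlt
    rcases hmid β hβ γ hγ.1 hγ' with h' | h'
    · exact h'
    · exact absurd (hord γ hγ γ h') (lt_irrefl _)
  have hRup : ∀ β ∈ Icc b1 b2, βc < β → β ∈ R := by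
    intro β hβ hlt
    set γ := (βc + β) / 2 with hγ
    have hγm : γ ∈ Icc b1 b2 := ⟨by linarith, by linarith [hβ.2]⟩
    rcases hmid γ hγm β hβ (by linarith) with h' | h'
    · have := le_csSup hbdd h'
      linarith
    · exact h'
  -- continuity of h at βc
  have hcont : ContinuousAt h βc := by
    have := hconv.continuousOn_interior
    rw [interior_Icc] at this
    exact this.continuousAt (Ioo_mem_nhds (by linarith) (by linarith))
  refine ⟨βc, ⟨by linarith, by linarith⟩, x0 + g, y0 - g, hxy', ?_, ?_⟩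
  · intro β hβ
    -- points γ in (β, βc) tend to βc
    have hev : ∀ᶠ γ in 𝓝[<] βc, h γ - h β ≤ (x0 + g) * (γ - β) := by
      have : Ioo β βc ∈ 𝓝[<] βc := Ioo_mem_nhdsLT hβ.2
      filter_upwards [this] with γ hγ
      have hγm : γ ∈ Icc b1 b2 := ⟨by linarith [hβ.1, hγ.1], by linarith [hγ.2]⟩
      exact hLslope γ (hLdown γ hγm hγ.2) β ⟨hβ.1, by linarith [hβ.2]⟩ hγ.1
    have t1 : Tendsto (fun γ => h γ - h β) (𝓝[<] βc) (𝓝 (h βc - h β)) :=
      (hcont.tendsto.mono_left nhdsWithin_le_nhds).sub tendsto_const_nhds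
    have t2 : Tendsto (fun γ => (x0 + g) * (γ - β)) (𝓝[<] βc) (𝓝 ((x0 + g) * (βc - β))) := by
      apply Tendsto.const_mul
      exact (tendsto_id.mono_left nhdsWithin_le_nhds).sub tendsto_const_nhds
    exact le_of_tendsto_of_tendsto t1 t2 hev
  · intro β hβ
    have hev : ∀ᶠ γ in 𝓝[>] βc, (y0 - g) * (β - γ) ≤ h β - h γ := by
      have : Ioo βc β ∈ 𝓝[>] βc := Ioo_mem_nhdsGT hβ.1
      filter_upwards [this] with γ hγ
      have hγm : γ ∈ Icc b1 b2 := ⟨by linarith [hγ.1], by linarith [hγ.2, hβ.2]⟩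
      exact hRslope γ (hRup γ hγm hγ.1) β ⟨by linarith [hβ.1], hβ.2⟩ hγ.2
    have t1 : Tendsto (fun γ => h β - h γ) (𝓝[>] βc) (𝓝 (h β - h βc)) :=
      tendsto_const_nhds.sub (hcont.tendsto.mono_left nhdsWithin_le_nhds)
    have t2 : Tendsto (fun γ => (y0 - g) * (β - γ)) (𝓝[>] βc) (𝓝 ((y0 - g) * (β - βc))) := by
      apply Tendsto.const_mul
      exact tendsto_const_nhds.sub (tendsto_id.mono_left nhdsWithin_le_nhds)
    exact le_of_tendsto_of_tendsto t2 t1 hev

end Crest.Agent.R149.Abs
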