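import Crest.Agent.R149.Kink

/-!
# Row 149: one step of the multi-scale recursion (`StepStmt`).
-/

set_option autoImplicit false

open MeasureTheory Crest.ProbabilityR.Continuum Filter Topology
open scoped ENNReal

namespace Crest.Agent.R149

namespace StepAux

/-- The density component of an `ε`-subgradient of a nondecreasing function is nonnegative. -/
lemma rho_nonneg {P : ℝ → ℝ → ℝ} {ε β h e ρ : ℝ} (hβ : 0 < β) (hε : 0 ≤ ε)
    (hmono : ∀ β h h', 0 < β → h ≤ h' → P β h ≤ P β h') (hs : ESub P ε β h e ρ) : 0 ≤ ρ := by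
  by_contra hneg
  have hρ : ρ < 0 := lt_of_not_ge hneg
  have h1 := hs β (h + (ε + 1) / ρ) hβ
  have h2 : (ε + 1) / ρ ≤ 0 := div_nonpos_of_nonneg_of_nonpos (by linarith) hρ.le
  have h3 := hmono β (h + (ε + 1) / ρ) h hβ (by linarith)
  have h4 : ρ * (h + (ε + 1) / ρ - h) = ε + 1 := by
    have hρ' : ρ ≠ 0 := hρ.ne
    rw [add_sub_cancel_left, mul_div_cancel₀ _ hρ']
  rw [h4] at h1
  linarith

/-- Testing the maximality of `m⋆` against the density `ρ`. -/
lemma test {P : ℝ → ℝ → ℝ} {a β h ms mm δ ρ : ℝ}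
    (hmax : ∀ m, 0 ≤ m → m ≤ mm → P β (h + β * a * m) - β * a * m ^ 2 / 2 ≤
      P β (h + β * a * ms) - β * a * ms ^ 2 / 2)
    (h0 : 0 ≤ ρ) (h1 : ρ ≤ mm)
    (hs : P β (h + β * a * ms) - δ + ρ * (β * a * (ρ - ms)) ≤ P β (h + β * a * ρ)) :
    β * a * (ρ - ms) ^ 2 / 2 ≤ δ := by
  have := hmax ρ h0 h1
  nlinarith

end StepAux

open StepAux

set_option maxHeartbeats 1000000 in
theorem step : StepStmt := by
  intro P P' E D a ε ε' η g mm r b1 b2 H Eb hconv hmono ha hε hε' hη hg hr hb1 hbb hb2 hDmm hDD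
    hEE h4η h4s hsm hsub hlow hup β h hβ1 hβ2 hh
  have hβ : 0 < β := by linarith
  have hb1a : 0 < b1 * a := mul_pos hb1 ha
  have hβa : 0 < β * a := mul_pos hβ ha
  have hb1β : b1 * a ≤ β * a := mul_le_mul_of_nonneg_right (by linarith) ha.le
  -- `ρ` bounds from the centres
  have hρmm : ∀ (ρ : ℝ) (i : Fin 3), |ρ - D i| ≤ η → ρ ≤ mm := by
    intro ρ i hi
    have := (abs_le.1 hi).2
    have := hDmm i
    linarith
  have hmm : 0 < mm := by
    rcases le_or_gt 0 mm with hm | hm
    · obtain ⟨i, e, ρ, he, hρ, hs⟩ := hsub β h (by linarith) (by linarith) (by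
        have : 0 ≤ 2 * a * mm := by positivity
        linarith)
      have h0 := rho_nonneg hβ hε hmono hs
      have h1 := (abs_le.1 hρ).2
      have h2 := hDmm i
      linarith
    · exfalso
      obtain ⟨i, e, ρ, he, hρ, hs⟩ := hsub β (H + 2 * a * mm) (by linarith) (by linarith) le_rfl
      have h0 := rho_nonneg hβ hε hmono hs
      have := hρmm ρ i hρ
      linarith
  -- maximiser
  have hcont : ContinuousOn (fun m : ℝ => P β (h + β * a * m) - β * a * m ^ 2 / 2)
      (Set.Icc 0 mm) := by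
    have hopen : IsOpen {x : ℝ × ℝ | 0 < x.1} := isOpen_lt continuous_const continuous_fst
    have hc := hconv.continuousOn hopen
    have h1 : Continuous (fun m : ℝ => ((β, h + β * a * m) : ℝ × ℝ)) := by fun_prop
    have h2 : ContinuousOn (fun m : ℝ => P β (h + β * a * m)) Set.univ :=
      hc.comp h1.continuousOn (fun m _ => hβ)
    have h3 : Continuous (fun m : ℝ => P β (h + β * a * m)) := continuousOn_univ.1 h2
    exact (h3.sub (by fun_prop)).continuousOn
  obtain ⟨ms, hms, hmax'⟩ := isCompact_Icc.exists_isMaxOn (Set.nonempty_Icc.2 hmm.le) hcont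
  have hms0 : 0 ≤ ms := hms.1
  have hmax : ∀ m, 0 ≤ m → m ≤ mm → P β (h + β * a * m) - β * a * m ^ 2 / 2 ≤
      P β (h + β * a * ms) - β * a * ms ^ 2 / 2 := fun m h0 h1 => hmax' ⟨h0, h1⟩
  set hst : ℝ := h + β * a * ms with hhst
  have hstH : hst ≤ H + 2 * a * mm := by
    have h1 : β * a * ms ≤ 2 * a * mm := by
      have : β * a ≤ 2 * a := mul_le_mul_of_nonneg_right (by linarith) ha.le
      exact mul_le_mul this hms.2 hms0 (by positivity)
    linarith
  have eqρ : ∀ ρ : ℝ, ρ * (h + β * a * ρ - hst) = ρ * (β * a * (ρ - ms)) := by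
    intro ρ; rw [hhst]; ring
  -- (1) approximate subgradient at x⋆
  obtain ⟨i, e₀, ρ₀, he₀, hρ₀, hs₀⟩ := hsub β hst (by linarith) (by linarith) hstH
  have hρ₀0 := rho_nonneg hβ hε hmono hs₀
  have t₀ : β * a * (ρ₀ - ms) ^ 2 / 2 ≤ ε := by
    refine test hmax hρ₀0 (hρmm _ _ hρ₀) ?_
    have := hs₀ β (h + β * a * ρ₀) hβ
    rw [eqρ] at this
    linarith
  have t₁ : |ρ₀ - ms| ≤ Real.sqrt (2 * ε / (b1 * a)) := by
    refine Real.abs_le_sqrt ?_
    rw [le_div_iff₀ hb1a]
    have := mul_le_mul_of_nonneg_right hb1β (sq_nonneg (ρ₀ - ms))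
    nlinarith
  have hmsD : |ms - D i| ≤ η + Real.sqrt (2 * ε / (b1 * a)) := by
    calc |ms - D i| = |(ρ₀ - D i) - (ρ₀ - ms)| := by ring_nf
      _ ≤ |ρ₀ - D i| + |ρ₀ - ms| := abs_sub _ _
      _ ≤ _ := by linarith
  have hmsD2 : |ms - D i| ≤ g / 2 := by linarith
  have hmslt : ms < mm := by
    have := (abs_le.1 hmsD2).2
    have := hDmm i
    linarith
  -- (2) exact subgradient at x⋆
  obtain ⟨e, ρ, hex⟩ := subgrad P hconv β hst hβ
  have hex0 : ESub P 0 β hst e ρ := by
    intro β' h' hβ'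
    have := hex β' h' hβ'
    linarith
  have hρ0 : 0 ≤ ρ := rho_nonneg hβ le_rfl hmono hex0
  have hq : ∀ m, 0 ≤ m → m ≤ mm → ρ * (m - ms) ≤ (m ^ 2 - ms ^ 2) / 2 := by
    intro m h0 h1
    have h2 := hmax m h0 h1
    have h3 := hex β (h + β * a * m) hβ
    have h4 : h + β * a * m - hst = β * a * (m - ms) := by rw [hhst]; ring
    rw [h4] at h3
    have h5 : β * a * (ρ * (m - ms)) ≤ β * a * ((m ^ 2 - ms ^ 2) / 2) := by nlinarith
    exact le_of_mul_le_mul_left h5 hβa
  have hρle : ρ ≤ ms := by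
    by_contra hlt
    have hlt' : ms < ρ := lt_of_not_ge hlt
    -- take m between ms and min(mm, ρ) s.t. (m+ms)/2 < ρ
    set m := min mm ρ with hm
    have hm1 : ms < m := lt_min hmslt hlt'
    have h2 := hq m (by linarith) (min_le_left _ _)
    have h3 : m ≤ ρ := min_le_right _ _
    have h4 : (m - ms) * (2 * ρ - (m + ms)) ≤ 0 := by nlinarith
    have h5 : 0 < (m - ms) * (2 * ρ - (m + ms)) := mul_pos (by linarith) (by linarith)
    linarith
  have hρge : ms ≤ ρ := by
    by_contra hlt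
    have hlt' : ρ < ms := lt_of_not_ge hlt
    have h2 := hq ρ hρ0 (by linarith)
    nlinarith [mul_pos (sub_pos.2 hlt') (sub_pos.2 hlt')]
  have hρms : ρ = ms := le_antisymm hρle hρge
  -- common part of (3)
  have hsame : ∀ (j : Fin 3) (e' ρ' δ' : ℝ), |e' - E j| ≤ η → |ρ' - D j| ≤ η → 0 ≤ ρ' →
      δ' ≤ |e₀ - e'| * r →
      P β hst - (2 * ε + δ') + ρ' * (β * a * (ρ' - ms)) ≤ P β (h + β * a * ρ') → j = i := by
    intro j e' ρ' δ' he' hρ' hρ'0 hδ' hP
    by_contra hne
    have t2 := test hmax hρ'0 (hρmm _ _ hρ') hP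
    have hE1 : |e₀ - e'| ≤ Eb := by
      calc |e₀ - e'| = |(e₀ - E i) + (E i - E j) - (e' - E j)| := by ring_nf
        _ ≤ |(e₀ - E i) + (E i - E j)| + |e' - E j| := abs_sub _ _
        _ ≤ |e₀ - E i| + |E i - E j| + |e' - E j| := by
            have := abs_add_le (e₀ - E i) (E i - E j); linarith
        _ ≤ Eb := by have := hEE i j; linarith
    have h1 : δ' ≤ Eb * r := hδ'.trans (mul_le_mul_of_nonneg_right hE1 hr.le)
    have h2 : (ρ' - ms) ^ 2 / 2 ≤ (2 * ε + Eb * r) / (b1 * a) := by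
      rw [le_div_iff₀ hb1a]
      have := mul_le_mul_of_nonneg_right hb1β (sq_nonneg (ρ' - ms))
      nlinarith
    have h3 : (ρ' - ms) ^ 2 < (g / 4) ^ 2 := by nlinarith
    have h4 : |ρ' - ms| < g / 4 := by
      have := sq_lt_sq.1 h3
      rwa [abs_of_pos (by positivity : 0 < g / 4)] at this
    have h5 := hDD j i hne
    have h6 : |D j - D i| ≤ |ρ' - D j| + |ρ' - ms| + |ms - D i| := by
      calc |D j - D i| = |-(ρ' - D j) + (ρ' - ms) + (ms - D i)| := by ring_nf
        _ ≤ |-(ρ' - D j) + (ρ' - ms)| + |ms - D i| := abs_add_le _ _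
        _ ≤ |-(ρ' - D j)| + |ρ' - ms| + |ms - D i| := by
            have := abs_add_le (-(ρ' - D j)) (ρ' - ms); linarith
        _ = _ := by rw [abs_neg]
    linarith
  have heE : |e - E i| ≤ η + ε / r := by
    have hεr : ε / r * r = ε := by field_simp
    rw [abs_le]
    constructor
    · -- x⁺ = (β + r, hst)
      have hβr : 0 < β + r := by linarith
      obtain ⟨j, e', ρ', he', hρ', hs'⟩ := hsub (β + r) hst (by linarith) (by linarith) hstH
      have hρ'0 := rho_nonneg hβr hε hmono hs'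
      have c1 := hs' β hst hβ
      have c2 := hex (β + r) hst hβr
      have c1' : β - (β + r) = -r := by ring
      have c2' : (β + r) - β = r := by ring
      rw [c1', sub_self, mul_zero] at c1
      rw [c2', sub_self, mul_zero] at c2
      have c3 : (e' - e) * r ≤ ε := by linarith
      have c4 := hs₀ (β + r) hst hβr
      rw [c2', sub_self, mul_zero] at c4
      have c5 := hs' β (h + β * a * ρ') hβ
      rw [eqρ, c1'] at c5
      have hji := hsame j e' ρ' ((e₀ - e') * r) he' hρ' hρ'0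
        (mul_le_mul_of_nonneg_right (le_abs_self _) hr.le) (by linarith)
      subst hji
      have c6 := (abs_le.1 he').1
      have c7 : e' - e ≤ ε / r := by rw [le_div_iff₀ hr]; exact c3
      linarith
    · have hβr : 0 < β - r := by linarith
      obtain ⟨j, e', ρ', he', hρ', hs'⟩ := hsub (β - r) hst (by linarith) (by linarith) hstH
      have hρ'0 := rho_nonneg hβr hε hmono hs'
      have c1 := hs' β hst hβ
      have c2 := hex (β - r) hst hβr
      have c1' : β - (β - r) = r := by ring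
      have c2' : (β - r) - β = -r := by ring
      rw [c1', sub_self, mul_zero] at c1
      rw [c2', sub_self, mul_zero] at c2
      have c3 : (e - e') * r ≤ ε := by linarith
      have c4 := hs₀ (β - r) hst hβr
      rw [c2', sub_self, mul_zero] at c4
      have c5 := hs' β (h + β * a * ρ') hβ
      rw [eqρ, c1'] at c5
      have hji := hsame j e' ρ' ((e' - e₀) * r) he' hρ' hρ'0
        (mul_le_mul_of_nonneg_right (by rw [abs_sub_comm]; exact le_abs_self _) hr.le)
        (by linarith)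
      subst hji
      have c6 := (abs_le.1 he').2
      have c7 : e - e' ≤ ε / r := by rw [le_div_iff₀ hr]; exact c3
      linarith
  -- (4)
  refine ⟨i, e, ρ, heE, by rw [hρms]; exact hmsD, ?_⟩
  intro β'' h'' hβ''
  have u1 := hlow β'' h'' ms hβ'' hms0
  have u2 := hex β'' (h'' + β'' * a * ms) hβ''
  have u3 := hup β h hβ1 hβ2 hh _ hmax
  rw [hρms] at u2 ⊢
  have u4 : ms * (h'' + β'' * a * ms - hst) =
      ms * (h'' - h) + a * ms ^ 2 * (β'' - β) := by rw [hhst]; ring
  rw [u4] at u2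
  have u5 : (e - a * ms ^ 2 / 2) * (β'' - β) = e * (β'' - β) - a * ms ^ 2 / 2 * (β'' - β) := by ring
  rw [u5]
  have u6 : a * ms ^ 2 * (β'' - β) - β'' * a * ms ^ 2 / 2 =
      a * ms ^ 2 / 2 * (β'' - β) - β * a * ms ^ 2 / 2 := by ring
  linarith

end Crest.Agent.R149
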