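import Crest.Agent.R149.AbsSplit
import Crest.Agent.R149.Step

/-!
# Row 149: the induction part of the abstract theorem (AbsIndStmt)
-/

set_option autoImplicit false

open MeasureTheory Crest.ProbabilityR.Continuum Filter Topology

namespace Crest.Agent.R149.AbsInd

theorem MF0_eq {q : ℝ} (hq : 0 ≤ q) (K : ℕ) (h : ℝ) :
    MF0 q K h = q * max 0 (max h (K * h - (K - 1))) := by
  unfold MF0
  rw [mul_max_of_nonneg _ _ hq, mul_max_of_nonneg _ _ hq, mul_zero]

/-- Base case: approximate subgradients of `P 0`. -/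
theorem base_sub {p : ℝ} {K : ℕ} {mm s : ℝ} {P : ℕ → ℝ → ℝ → ℝ} {Pinf : ℝ → ℝ → ℝ}
    {a ε : ℕ → ℝ} (hp : 0 < p) (hK : 2 ≤ K) (hmm : K * p + p ≤ mm) (hs : 0 < s) (hsp : s ≤ p)
    (hD : AbsData p K mm s P Pinf a ε) (β h : ℝ) (hβ1 : 1 / 2 ≤ β) (hβ2 : β ≤ 3 / 2)
    (hh : h ≤ 3 + 4 * mm / (p * K)) :
    ∃ i : Fin 3, ∃ e ρ : ℝ, |e - 0| ≤ K * s ∧ |ρ - cD p K i| ≤ K * s ∧
      ESub (P 0) (s * (2 + K * (3 + 4 * mm / (p * K)))) β h e ρ := by
  have hKr : (2 : ℝ) ≤ K := by exact_mod_cast hK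
  have hK0 : (0 : ℝ) < K := by linarith
  have hmm0 : 0 < mm := by nlinarith
  obtain ⟨p', hp1, hp2, hlow⟩ := hD.base_lower
  have hp'0 : 0 ≤ p' := by linarith
  have hup := hD.base_upper β h hβ1 hβ2 hh
  rw [MF0_eq hp.le] at hup
  have hlow' : ∀ β' h' : ℝ, 0 < β' → p' * max 0 (max h' (K * h' - (K - 1))) - s ≤ P 0 β' h' := by
    intro β' h' hβ'
    have := hlow β' h' hβ'
    rwa [MF0_eq hp'0] at this
  set H0 : ℝ := 3 + 4 * mm / (p * K) with hH0
  have hH0p : 0 ≤ H0 := by positivity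
  set X : ℝ := max 0 (max h (K * h - (K - 1))) with hX
  have hX0 : 0 ≤ X := le_max_left _ _
  have hXle : X ≤ K * H0 := by
    refine max_le (by positivity) (max_le ?_ ?_)
    · nlinarith
    · nlinarith
  have h1 : P 0 β h ≤ p' * X + s * (1 + K * H0) := by
    have h2 : (p - p') * X ≤ s * (K * H0) := by
      calc (p - p') * X ≤ s * X := mul_le_mul_of_nonneg_right (by linarith) hX0
        _ ≤ s * (K * H0) := mul_le_mul_of_nonneg_left hXle hs.le
    have h3 : (p - p') * X = p * X - p' * X := by ring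
    have h4 : s * (1 + K * H0) = s + s * (K * H0) := by ring
    linarith
  have h5 : s * (2 + K * H0) = s * (1 + K * H0) + s := by ring
  -- cases
  rcases le_total (max h (K * h - (K - 1))) 0 with hc | hc
  · -- phase 0
    refine ⟨0, 0, 0, by simp; positivity, by simp [cD]; positivity, fun β' h' hβ' => ?_⟩
    have hXe : X = 0 := max_eq_left hc
    rw [hXe] at h1
    have h6 := hlow' β' h' hβ'
    have h7 : 0 ≤ p' * max 0 (max h' (K * h' - (K - 1))) := mul_nonneg hp'0 (le_max_left _ _)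
    rw [h5]; linarith
  · have hXe : X = max h (K * h - (K - 1)) := max_eq_right hc
    rcases le_total h (K * h - (K - 1)) with hc2 | hc2
    · refine ⟨2, 0, p' * K, by simp; positivity, ?_, fun β' h' hβ' => ?_⟩
      · have : p' * K - cD p K 2 = -(K * (p - p')) := by simp [cD]; ring
        rw [this, abs_neg, abs_of_nonneg (mul_nonneg hK0.le (by linarith))]
        exact mul_le_mul_of_nonneg_left (by linarith) hK0.le
      · rw [max_eq_right hc2] at hXe
        rw [hXe] at h1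
        have h6 := hlow' β' h' hβ'
        have h7 : p' * (K * h' - (K - 1)) ≤ p' * max 0 (max h' (K * h' - (K - 1))) :=
          mul_le_mul_of_nonneg_left ((le_max_right _ _).trans (le_max_right _ _)) hp'0
        have h8 : p' * (K * h' - (K - 1)) = p' * (K * h - (K - 1)) + p' * K * (h' - h) := by ring
        rw [h5]; linarith
    · refine ⟨1, 0, p', by simp; positivity, ?_, fun β' h' hβ' => ?_⟩
      · have : p' - cD p K 1 = -(p - p') := by simp [cD]
        rw [this, abs_neg, abs_of_nonneg (by linarith)]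
        nlinarith
      · rw [max_eq_left hc2] at hXe
        rw [hXe] at h1
        have h6 := hlow' β' h' hβ'
        have h7 : p' * h' ≤ p' * max 0 (max h' (K * h' - (K - 1))) :=
          mul_le_mul_of_nonneg_left ((le_max_left _ _).trans (le_max_right _ _)) hp'0
        have h8 : p' * h' = p' * h + p' * (h' - h) := by ring
        rw [h5]; linarith

theorem cD_bounds {p : ℝ} {K : ℕ} (hp : 0 < p) (hK : 2 ≤ K) (i : Fin 3) :
    0 ≤ cD p K i ∧ cD p K i ≤ K * p := by
  have hKr : (2 : ℝ) ≤ K := by exact_mod_cast hK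
  fin_cases i
  · simp [cD]; positivity
  · simp only [cD, Fin.mk_one, Matrix.cons_val_one, Matrix.cons_val_zero]
    exact ⟨hp.le, by nlinarith⟩
  · simp only [cD, Fin.reduceFinMk, Matrix.cons_val]
    exact ⟨by positivity, le_rfl⟩

theorem cD_gap {p : ℝ} {K : ℕ} (hp : 0 < p) (hK : 2 ≤ K) (i j : Fin 3) (hij : i ≠ j) :
    p ≤ |cD p K i - cD p K j| := by
  have hKr : (2 : ℝ) ≤ K := by exact_mod_cast hK
  have h2 : 2 * p ≤ K * p := mul_le_mul_of_nonneg_right hKr hp.le
  have h01 : p ≤ |cD p K 0 - cD p K 1| := by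
    simp only [cD, Matrix.cons_val_one, Matrix.cons_val_zero]
    rw [zero_sub, abs_neg]; exact le_abs_self _
  have h02 : p ≤ |cD p K 0 - cD p K 2| := by
    simp only [cD, Matrix.cons_val_zero, Matrix.cons_val]
    rw [zero_sub, abs_neg]; exact (by linarith : p ≤ K * p).trans (le_abs_self _)
  have h12 : p ≤ |cD p K 1 - cD p K 2| := by
    simp only [cD, Matrix.cons_val_one, Matrix.cons_val_zero, Matrix.cons_val]
    rw [abs_sub_comm]; exact (by linarith : p ≤ K * p - p).trans (le_abs_self _)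
  fin_cases i <;> fin_cases j <;> simp only [Fin.zero_eta, Fin.mk_one, Fin.reduceFinMk, ne_eq,
    not_true_eq_false] at hij ⊢
  · exact h01
  · exact h02
  · rw [abs_sub_comm]; exact h01
  · exact h12
  · rw [abs_sub_comm]; exact h02
  · rw [abs_sub_comm]; exact h12

theorem cE_bounds {p : ℝ} {K : ℕ} (hp : 0 < p) (hK : 2 ≤ K) (i : Fin 3) :
    -(p * K) ≤ cE p K i ∧ cE p K i ≤ 0 := by
  have hKr : (2 : ℝ) ≤ K := by exact_mod_cast hK
  have hK0 : (0 : ℝ) < K := by linarith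
  fin_cases i
  · simp [cE]; positivity
  · simp only [cE, Fin.mk_one, Matrix.cons_val_one, Matrix.cons_val_zero]
    have h1 : p / K ≤ p := div_le_self hp.le (by linarith)
    have h2 : -p / (K : ℝ) = -(p / K) := by ring
    have h3 : 0 ≤ p / (K : ℝ) := by positivity
    rw [h2]
    constructor
    · nlinarith
    · linarith
  · simp only [cE, Fin.reduceFinMk, Matrix.cons_val]
    constructor
    · linarith
    · nlinarith

theorem cE_diff {p : ℝ} {K : ℕ} (hp : 0 < p) (hK : 2 ≤ K) (i j : Fin 3) :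
    |cE p K i - cE p K j| ≤ p * K := by
  have h1 := cE_bounds hp hK i
  have h2 := cE_bounds hp hK j
  rw [abs_le]; constructor <;> linarith

theorem cE_eq {p : ℝ} {K : ℕ} (hp : 0 < p) (hK : 2 ≤ K) (i : Fin 3) :
    cE p K i = -(2 / (p * K)) * (cD p K i) ^ 2 / 2 := by
  have hKr : (2 : ℝ) ≤ K := by exact_mod_cast hK
  have hK0 : (0 : ℝ) < K := by linarith
  fin_cases i
  · simp [cE, cD]
  · simp only [cE, cD, Fin.mk_one, Matrix.cons_val_one, Matrix.cons_val_zero]
    field_simp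
  · simp only [cE, cD, Fin.reduceFinMk, Matrix.cons_val]
    field_simp

/-- First step of the induction. -/
theorem step0 {p : ℝ} {K : ℕ} {mm s : ℝ} {P : ℕ → ℝ → ℝ → ℝ} {Pinf : ℝ → ℝ → ℝ}
    {a ε : ℕ → ℝ} (hp : 0 < p) (hK : 2 ≤ K) (hmm : K * p + p ≤ mm) (hs : 0 < s) (hsp : s ≤ p)
    (hD : AbsData p K mm s P Pinf a ε) {εb τ η1 : ℝ}
    (hεb : εb = s * (2 + K * (3 + 4 * mm / (p * K))))
    (hτ : τ = Real.sqrt (2 * εb / (5 / 8 * (2 / (p * K)))))
    (c7 : 4 * (K * s) ≤ p) (c8 : 4 * τ ≤ p)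
    (c9 : (2 * εb + 2 * (K * s) * (1 / 8)) / (5 / 8 * (2 / (p * K))) < p ^ 2 / 32)
    (c10 : K * s + εb / (1 / 8) + 2 / (p * K) * mm * (K * s + τ) ≤ η1) (c11 : K * s + τ ≤ η1)
    (β h : ℝ) (hβ1 : 3 / 4 ≤ β) (hβ2 : β ≤ 5 / 4) (hh : h ≤ 5 / 2) :
    ∃ i : Fin 3, ∃ e ρ : ℝ, |e - cE p K i| ≤ η1 ∧ |ρ - cD p K i| ≤ η1 ∧
      ESub (P 1) (ε 1) β h e ρ := by
  have hKr : (2 : ℝ) ≤ K := by exact_mod_cast hK
  have hK0 : (0 : ℝ) < K := by linarith
  have hmm0 : 0 < mm := by nlinarith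
  have ha0 : a 0 = 2 / (p * K) := hD.a0
  have ha0p : 0 < 2 / (p * (K : ℝ)) := by positivity
  have hεb0 : 0 ≤ εb := by rw [hεb]; positivity
  obtain ⟨i, e, ρ, he, hρ, hsub⟩ := step (P 0) (P 1) (fun _ => 0) (cD p K) (a 0) εb (ε 1) (K * s) p mm
    (1 / 8) (5 / 8) (11 / 8) (5 / 2) (2 * (K * s)) (hD.conv 0) (hD.mono 0) (hD.apos 0) hεb0
    (hD.εnn 1) (by positivity) hp (by norm_num) (by norm_num) (by norm_num) (by norm_num)
    (fun i => by have := (cD_bounds hp hK i).2; linarith) (fun i j hij => cD_gap hp hK i j hij)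
    (fun i j => by simp) c7 (by rw [ha0, ← hτ]; exact c8) (by rw [ha0]; exact c9)
    (by
      intro β h hb1 hb2 hh
      rw [hεb]
      refine base_sub hp hK hmm hs hsp hD β h (by linarith) (by linarith) ?_
      rw [ha0] at hh
      have : 2 * (2 / (p * (K : ℝ))) * mm = 4 * mm / (p * K) := by ring
      linarith)
    (by
      intro β h m hb hm
      exact hD.lower 0 β h m hb hm)
    (by
      intro β h hb1 hb2 hh y hy
      exact hD.upper 0 β h (by linarith) (by linarith) (by linarith) y hy)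
    β h (by linarith) (by linarith) hh
  rw [ha0, ← hτ] at hρ
  rw [ha0] at hsub
  refine ⟨i, _, ρ, ?_, hρ.trans c11, hsub⟩
  have hDb := cD_bounds hp hK i
  rw [cE_eq hp hK i]
  have hρmm : |ρ + cD p K i| ≤ 2 * mm := by
    have h1 := abs_le.mp hρ
    rw [abs_le]
    constructor
    · linarith
    · linarith
  have h1 : |ρ ^ 2 - (cD p K i) ^ 2| ≤ (K * s + τ) * (2 * mm) := by
    have : ρ ^ 2 - (cD p K i) ^ 2 = (ρ - cD p K i) * (ρ + cD p K i) := by ring
    rw [this, abs_mul]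
    have hτ0 : 0 ≤ τ := by rw [hτ]; exact Real.sqrt_nonneg _
    exact mul_le_mul hρ hρmm (abs_nonneg _) (by positivity)
  have h2 : e - 2 / (p * K) * ρ ^ 2 / 2 - -(2 / (p * K)) * (cD p K i) ^ 2 / 2 =
      (e - 0) - 2 / (p * K) / 2 * (ρ ^ 2 - (cD p K i) ^ 2) := by ring
  rw [h2]
  calc |(e - 0) - 2 / (p * K) / 2 * (ρ ^ 2 - (cD p K i) ^ 2)|
      ≤ |e - 0| + |2 / (p * K) / 2 * (ρ ^ 2 - (cD p K i) ^ 2)| := abs_sub _ _
    _ ≤ (K * s + εb / (1 / 8)) + 2 / (p * K) / 2 * ((K * s + τ) * (2 * mm)) := by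
        apply add_le_add he
        rw [abs_mul, abs_of_pos (by positivity : (0 : ℝ) < 2 / (p * K) / 2)]
        exact mul_le_mul_of_nonneg_left h1 (by positivity)
    _ = K * s + εb / (1 / 8) + 2 / (p * K) * mm * (K * s + τ) := by ring
    _ ≤ η1 := c10

/-- The induction statement. -/
def Ck (p : ℝ) (K : ℕ) (P : ℕ → ℝ → ℝ → ℝ) (ε : ℕ → ℝ) (η' : ℝ) (k : ℕ) : Prop :=
  ∀ β h : ℝ, 7 / 8 - 1 / 4 * (1 / 2) ^ k ≤ β → β ≤ 9 / 8 + 1 / 4 * (1 / 2) ^ k →
    h ≤ 2 + (1 / 2) ^ k →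
    ∃ i : Fin 3, ∃ e ρ : ℝ, |e - cE p K i| ≤ η' * (1 - (1 / 2) ^ k) ∧
      |ρ - cD p K i| ≤ η' * (1 - (1 / 2) ^ k) ∧ ESub (P k) (ε k) β h e ρ

theorem stepk {p : ℝ} {K : ℕ} {mm s : ℝ} {P : ℕ → ℝ → ℝ → ℝ} {Pinf : ℝ → ℝ → ℝ}
    {a ε : ℕ → ℝ} (hp : 0 < p) (hK : 2 ≤ K) (hmm : K * p + p ≤ mm) (hs : 0 < s)
    (hD : AbsData p K mm s P Pinf a ε) {η' κ : ℝ} (hη' : 0 < η') (hη'p : 4 * η' ≤ p)
    (hη'1 : 2 * η' ≤ 1) (hκ : κ = p ^ 2 / (256 * (p * K + 1)))
    (c1 : s ≤ 1) (c2 : 16 * s ≤ p) (c3 : κ * s ≤ 1 / 8) (c4 : s * (1 / κ + mm ^ 2 / 2) ≤ η' / 2)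
    (c5 : 4 * s ≤ η') (c6 : 4 * mm * s ≤ 1)
    (k : ℕ) (hk : 1 ≤ k) (hC : Ck p K P ε η' k) : Ck p K P ε η' (k + 1) := by
  have hKr : (2 : ℝ) ≤ K := by exact_mod_cast hK
  have hK0 : (0 : ℝ) < K := by linarith
  have hmm0 : 0 < mm := by nlinarith
  have hκ0 : 0 < κ := by rw [hκ]; positivity
  set q : ℝ := (1 / 2 : ℝ) ^ k with hq
  have hq0 : 0 < q := by positivity
  have hq1 : q ≤ 1 / 2 := by
    rw [hq]
    calc (1 / 2 : ℝ) ^ k ≤ (1 / 2) ^ 1 := pow_le_pow_of_le_one (by norm_num) (by norm_num) hk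
      _ = 1 / 2 := by norm_num
  have hqs : (1 / 2 : ℝ) ^ (k + 1) = q / 2 := by rw [pow_succ, hq]; ring
  have hak0 := hD.apos k
  have hak : a k ≤ s * q := hD.asmall k hk
  have hεk0 := hD.εnn k
  have hεk : ε k ≤ (s * q) ^ 2 * a k := hD.εsmall k hk
  set r : ℝ := κ * a k with hr
  have hr0 : 0 < r := by positivity
  have hr8 : r ≤ 1 / 8 * q := by
    calc κ * a k ≤ κ * (s * q) := mul_le_mul_of_nonneg_left hak hκ0.le
      _ = κ * s * q := by ring
      _ ≤ 1 / 8 * q := mul_le_mul_of_nonneg_right c3 hq0.le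
  set b1 : ℝ := 7 / 8 - 1 / 4 * q with hb1
  set b2 : ℝ := 9 / 8 + 1 / 4 * q with hb2
  have hb1h : 1 / 2 ≤ b1 := by rw [hb1]; linarith
  have hb1p : 0 < b1 := by linarith
  set Eb : ℝ := p * K + 1 with hEb
  have hEb0 : 0 < Eb := by positivity
  have hratio : 2 * ε k / (b1 * a k) ≤ 4 * (s * q) ^ 2 := by
    rw [div_le_iff₀ (by positivity)]
    have h1 : (s * q) ^ 2 * a k ≤ 2 * (s * q) ^ 2 * (b1 * a k) := by
      have : 0 ≤ (s * q) ^ 2 * a k := by positivity
      nlinarith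
    linarith
  have hsqrt : Real.sqrt (2 * ε k / (b1 * a k)) ≤ 2 * s * q := by
    rw [Real.sqrt_le_left (by positivity)]
    calc _ ≤ 4 * (s * q) ^ 2 := hratio
      _ = (2 * s * q) ^ 2 := by ring
  have hεr : ε k / r ≤ s * q * (1 / κ) := by
    rw [hr, div_le_iff₀ (by positivity)]
    have h1 : s * q * (1 / κ) * (κ * a k) = s * q * a k := by field_simp
    rw [h1]
    have h2 : (s * q) ^ 2 * a k ≤ s * q * a k := by
      have h3 : s * q ≤ 1 := by nlinarith
      have h4 : (s * q) ^ 2 ≤ s * q := by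
        rw [sq]; exact mul_le_of_le_one_left (by positivity) h3
      exact mul_le_mul_of_nonneg_right h4 hak0.le
    linarith
  have hη0 : 0 ≤ η' * (1 - q) := mul_nonneg hη'.le (by linarith)
  have hηle : η' * (1 - q) ≤ η' := mul_le_of_le_one_right hη'.le (by linarith)
  have h2sq : 2 * s * q ≤ s := by
    have : s * (2 * q) ≤ s * 1 := mul_le_mul_of_nonneg_left (by linarith) hs.le
    linarith
  have hpp : 0 < p ^ 2 := by positivity
  have hbig : (2 * ε k + Eb * r) / (b1 * a k) < p ^ 2 / 32 := by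
    have h1 : (2 * ε k + Eb * r) / (b1 * a k) = 2 * ε k / (b1 * a k) + Eb * κ / b1 := by
      rw [hr]; field_simp
    rw [h1]
    have h2 : Eb * κ / b1 ≤ p ^ 2 / 128 := by
      rw [div_le_iff₀ hb1p]
      have h3 : Eb * κ = p ^ 2 / 256 := by rw [hκ, hEb]; field_simp
      rw [h3]
      have := mul_le_mul_of_nonneg_left hb1h (by positivity : 0 ≤ p ^ 2 / 128)
      linarith
    have h3 : 4 * (s * q) ^ 2 ≤ p ^ 2 / 64 := by
      have h4 : s * q ≤ p / 16 := by linarith
      have h5 : (s * q) ^ 2 ≤ (p / 16) ^ 2 := pow_le_pow_left₀ (by positivity) h4 2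
      have : (p / 16) ^ 2 = p ^ 2 / 256 := by ring
      linarith
    linarith
  have hshift : 2 * a k * mm ≤ q / 2 := by
    have h1 : a k * mm ≤ s * q * mm := mul_le_mul_of_nonneg_right hak hmm0.le
    have h2 : 4 * mm * s * q ≤ 1 * q := mul_le_mul_of_nonneg_right c6 hq0.le
    linarith
  intro β h hβ1 hβ2 hh
  rw [hqs] at hβ1 hβ2 hh ⊢
  obtain ⟨i, e, ρ, he, hρ, hsub⟩ := step (P k) (P (k + 1)) (cE p K) (cD p K) (a k) (ε k) (ε (k + 1))
    (η' * (1 - q)) p mm r b1 b2 (2 + q / 2) Eb (hD.conv k) (hD.mono k) hak0 hεk0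
    (hD.εnn (k + 1)) hη0 hp hr0 hb1p (by rw [hb1, hb2]; linarith) (by rw [hb2]; linarith)
    (fun i => by have := (cD_bounds hp hK i).2; linarith) (fun i j hij => cD_gap hp hK i j hij)
    (fun i j => by have := cE_diff hp hK i j; rw [hEb]; linarith) (by linarith)
    (by linarith)
    hbig
    (by
      intro β h hb1' hb2' hh'
      exact hC β h hb1' hb2' (by linarith))
    (by
      intro β h m hb hm
      exact hD.lower k β h m hb hm)
    (by
      intro β h hb1' hb2' hh' y hy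
      refine hD.upper k β h (by linarith) ?_ ?_ y hy
      · rw [hb2] at hb2'; linarith
      · linarith)
    β h (by rw [hb1]; linarith) (by rw [hb2]; linarith) hh
  have hρ' : |ρ - cD p K i| ≤ η' * (1 - q) + 2 * s * q := hρ.trans (by linarith)
  have hDb := cD_bounds hp hK i
  have hρmm : |ρ| ≤ mm := by
    have h1 := abs_le.mp hρ'
    rw [abs_le]
    constructor <;> linarith
  refine ⟨i, _, ρ, ?_, ?_, hsub⟩
  · have h1 : e - a k * ρ ^ 2 / 2 - cE p K i = (e - cE p K i) - a k * ρ ^ 2 / 2 := by ring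
    rw [h1]
    have h2 : ρ ^ 2 ≤ mm ^ 2 := by
      rw [← sq_abs ρ]; exact pow_le_pow_left₀ (abs_nonneg _) hρmm 2
    have h3 : |a k * ρ ^ 2 / 2| ≤ s * q * (mm ^ 2 / 2) := by
      rw [abs_of_nonneg (by positivity)]
      calc a k * ρ ^ 2 / 2 ≤ (s * q) * mm ^ 2 / 2 := by
            apply div_le_div_of_nonneg_right _ (by norm_num)
            exact mul_le_mul hak h2 (by positivity) (by positivity)
        _ = s * q * (mm ^ 2 / 2) := by ring
    calc |(e - cE p K i) - a k * ρ ^ 2 / 2| ≤ |e - cE p K i| + |a k * ρ ^ 2 / 2| := abs_sub _ _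
      _ ≤ (η' * (1 - q) + s * q * (1 / κ)) + s * q * (mm ^ 2 / 2) := by
          apply add_le_add _ h3
          linarith
      _ = η' * (1 - q) + s * (1 / κ + mm ^ 2 / 2) * q := by ring
      _ ≤ η' * (1 - q) + η' / 2 * q := by
          have := mul_le_mul_of_nonneg_right c4 hq0.le
          linarith
      _ = η' * (1 - q / 2) := by ring
  · calc |ρ - cD p K i| ≤ η' * (1 - q) + 2 * s * q := hρ'
      _ ≤ η' * (1 - q) + η' / 2 * q := by
          have := mul_le_mul_of_nonneg_right c5 hq0.le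
          linarith
      _ = η' * (1 - q / 2) := by ring

/-- The increments after the first scale are small. -/
theorem incr {p : ℝ} {K : ℕ} {mm s : ℝ} {P : ℕ → ℝ → ℝ → ℝ} {Pinf : ℝ → ℝ → ℝ}
    {a ε : ℕ → ℝ} (hp : 0 < p) (hK : 2 ≤ K) (hmm : K * p + p ≤ mm) (hs : 0 < s)
    (hD : AbsData p K mm s P Pinf a ε) {η' : ℝ} (hη' : 0 < η') (hη'p : 4 * η' ≤ p)
    (c1 : s ≤ 1) (c6 : 4 * mm * s ≤ 1)
    (hC : ∀ k, 1 ≤ k → Ck p K P ε η' k) (β h : ℝ) (hβ1 : 7 / 8 ≤ β) (hβ2 : β ≤ 9 / 8) (hh : h ≤ 2)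
    (k : ℕ) : P (k + 1) β h ≤ P 1 β h + (2 + 2 * mm ^ 2) * s * (1 - (1 / 2) ^ k) := by
  have hKr : (2 : ℝ) ≤ K := by exact_mod_cast hK
  have hK0 : (0 : ℝ) < K := by linarith
  have hmm0 : 0 < mm := by nlinarith
  induction k with
  | zero => simp
  | succ j ih =>
    set k := j + 1 with hk
    set q : ℝ := (1 / 2 : ℝ) ^ k with hq
    have hq0 : 0 < q := by positivity
    have hq1 : q ≤ 1 / 2 := by
      rw [hq]
      calc (1 / 2 : ℝ) ^ k ≤ (1 / 2) ^ 1 := pow_le_pow_of_le_one (by norm_num) (by norm_num) (by omega)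
        _ = 1 / 2 := by norm_num
    have hqj : (1 / 2 : ℝ) ^ j = 2 * q := by rw [hq, hk, pow_succ]; ring
    rw [hqj] at ih
    have hak0 := hD.apos k
    have hak : a k ≤ s * q := hD.asmall k (by omega)
    have hεk : ε k ≤ (s * q) ^ 2 * a k := hD.εsmall k (by omega)
    have hak' : a (k + 1) ≤ s * (1 / 2) ^ (k + 1) := hD.asmall (k + 1) (by omega)
    have hεk' : ε (k + 1) ≤ (s * (1 / 2) ^ (k + 1)) ^ 2 * a (k + 1) := hD.εsmall (k + 1) (by omega)
    have hqs : (1 / 2 : ℝ) ^ (k + 1) = q / 2 := by rw [pow_succ, hq]; ring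
    rw [hqs] at hak' hεk'
    have hsq : s * q ≤ 1 := by nlinarith
    have hsq0 : 0 < s * q := by positivity
    have e1 : ε k ≤ s * q := by
      have h1 : (s * q) ^ 2 ≤ 1 := pow_le_one₀ hsq0.le hsq
      have h2 : (s * q) ^ 2 * a k ≤ 1 * (s * q) :=
        mul_le_mul h1 hak hak0.le (by norm_num)
      linarith
    have e2 : ε (k + 1) ≤ s * q := by
      have h0 : s * (q / 2) ≤ 1 := by nlinarith
      have h1 : (s * (q / 2)) ^ 2 ≤ 1 := pow_le_one₀ (by positivity) h0
      have h2 : (s * (q / 2)) ^ 2 * a (k + 1) ≤ 1 * (s * (q / 2)) :=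
        mul_le_mul h1 hak' (hD.apos (k + 1)).le (by norm_num)
      nlinarith
    have hup := hD.upper k β h (by linarith) (by linarith) (by linarith)
      (P k β h + s * q + 2 * mm ^ 2 * (s * q)) (by
        intro m hm0 hm1
        -- shift bounded by `2 mm a k`
        have hβ0 : 0 < β := by linarith
        set t : ℝ := β * a k * m with ht
        have ht0 : 0 ≤ t := by positivity
        have htle : t ≤ 2 * (s * q) * mm := by
          have h1 : β * a k ≤ 2 * (s * q) := by nlinarith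
          exact mul_le_mul h1 hm1 hm0 (by positivity)
        have hth : h + t ≤ 2 + q := by
          have : 2 * (s * q) * mm ≤ q := by nlinarith
          linarith
        obtain ⟨i, e, ρ, -, hρ, hsub⟩ := hC k (by omega) β (h + t) (by linarith) (by linarith) hth
        have h1 := hsub β h hβ0
        have hDb := cD_bounds hp hK i
        have hρmm : ρ ≤ mm := by
          have h2 := abs_le.mp hρ
          have : η' * (1 - q) ≤ η' := by nlinarith
          linarith
        have h3 : ρ * t ≤ mm * (2 * (s * q) * mm) :=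
          mul_le_mul hρmm htle ht0 hmm0.le
        have h4 : 0 ≤ β * a k * m ^ 2 / 2 := by positivity
        have h5 : ρ * (h - (h + t)) = -(ρ * t) := by ring
        have h6 : mm * (2 * (s * q) * mm) = 2 * mm ^ 2 * (s * q) := by ring
        rw [h5] at h1
        have h7 : e * (β - β) = 0 := by ring
        rw [h7] at h1
        linarith)
    have h8 : (2 + 2 * mm ^ 2) * s * (1 - q) =
        (2 + 2 * mm ^ 2) * s * (1 - 2 * q) + (s * q + s * q + 2 * mm ^ 2 * (s * q)) := by ring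
    rw [h8]
    linarith

/-- Passing to the limit: exact subgradients of `Pinf`. -/
theorem limit_sub {p : ℝ} {K : ℕ} {P : ℕ → ℝ → ℝ → ℝ} {Pinf : ℝ → ℝ → ℝ}
    {ε : ℕ → ℝ} {η' β h : ℝ} (hβ : 0 < β)
    (hlim : ∀ β h, 0 < β → Tendsto (fun k => P k β h) atTop (𝓝 (Pinf β h)))
    (hε : Tendsto ε atTop (𝓝 0))
    (hC : ∀ k : ℕ, 1 ≤ k → ∃ i : Fin 3, ∃ e ρ : ℝ, |e - cE p K i| ≤ η' ∧
      |ρ - cD p K i| ≤ η' ∧ ESub (P k) (ε k) β h e ρ) :
    ∃ i : Fin 3, ∃ e ρ : ℝ, |e - cE p K i| ≤ η' ∧ |ρ - cD p K i| ≤ η' ∧ ESub Pinf 0 β h e ρ := by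
  set S : Set (ℝ × ℝ) := ⋃ i : Fin 3, (Metric.closedBall (cE p K i) η' ×ˢ
    Metric.closedBall (cD p K i) η') with hS
  have hScomp : IsCompact S := isCompact_iUnion fun i =>
    (isCompact_closedBall _ _).prod (isCompact_closedBall _ _)
  have hex : ∀ k : ℕ, ∃ x : ℝ × ℝ, x ∈ S ∧ ESub (P (k + 1)) (ε (k + 1)) β h x.1 x.2 := by
    intro k
    obtain ⟨i, e, ρ, he, hρ, hs⟩ := hC (k + 1) (by omega)
    refine ⟨(e, ρ), Set.mem_iUnion.mpr ⟨i, ?_, ?_⟩, hs⟩
    · simpa [Real.dist_eq] using he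
    · simpa [Real.dist_eq] using hρ
  choose x hxS hxsub using hex
  obtain ⟨y, hyS, φ, hφ, hφlim⟩ := hScomp.tendsto_subseq hxS
  obtain ⟨i, hy1, hy2⟩ := Set.mem_iUnion.mp hyS
  refine ⟨i, y.1, y.2, by simpa [Real.dist_eq] using hy1, by simpa [Real.dist_eq] using hy2, ?_⟩
  intro β' h' hβ'
  have hφ' : Tendsto (fun n => φ n + 1) atTop atTop :=
    (tendsto_add_atTop_nat 1).comp hφ.tendsto_atTop
  have t1 : Tendsto (fun n => P (φ n + 1) β h) atTop (𝓝 (Pinf β h)) := (hlim β h hβ).comp hφ'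
  have t2 : Tendsto (fun n => P (φ n + 1) β' h') atTop (𝓝 (Pinf β' h')) :=
    (hlim β' h' hβ').comp hφ'
  have t3 : Tendsto (fun n => ε (φ n + 1)) atTop (𝓝 0) := hε.comp hφ'
  have t4 : Tendsto (fun n => (x (φ n)).1) atTop (𝓝 y.1) :=
    (continuous_fst.tendsto y).comp hφlim
  have t5 : Tendsto (fun n => (x (φ n)).2) atTop (𝓝 y.2) :=
    (continuous_snd.tendsto y).comp hφlim
  have t6 : Tendsto (fun n => P (φ n + 1) β h - ε (φ n + 1) - (x (φ n)).1 * (β' - β) +
      (x (φ n)).2 * (h' - h)) atTop (𝓝 (Pinf β h - 0 - y.1 * (β' - β) + y.2 * (h' - h))) :=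
    ((t1.sub t3).sub (t4.mul_const _)).add (t5.mul_const _)
  exact le_of_tendsto_of_tendsto' t6 t2 fun n => hxsub (φ n) β' h' hβ'

/-- Closeness of `P 1` to the mean-field pressure: upper bound. -/
theorem P1_upper {p : ℝ} {K : ℕ} {mm s : ℝ} {P : ℕ → ℝ → ℝ → ℝ} {Pinf : ℝ → ℝ → ℝ}
    {a ε : ℕ → ℝ} (hp : 0 < p) (hK : 2 ≤ K) (hmm : K * p + p ≤ mm) (hs : 0 < s) (c1 : s ≤ 1)
    (hD : AbsData p K mm s P Pinf a ε) (β h : ℝ) (hβ1 : 7 / 8 ≤ β) (hβ2 : β ≤ 9 / 8) (hh : h ≤ 2) :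
    P 1 β h ≤ MF1 p K β h + 2 * s := by
  have hKr : (2 : ℝ) ≤ K := by exact_mod_cast hK
  have hK0 : (0 : ℝ) < K := by linarith
  have hmm0 : 0 < mm := by nlinarith
  have hε1 : ε 1 ≤ s := by
    have h1 : ε 1 ≤ (s * (1 / 2) ^ 1) ^ 2 * a 1 := hD.εsmall 1 le_rfl
    have h2 : a 1 ≤ s * (1 / 2) ^ 1 := hD.asmall 1 le_rfl
    have h3 := hD.apos 1
    have h4 : (s * (1 / 2) ^ 1) ^ 2 ≤ 1 := pow_le_one₀ (by positivity) (by linarith)
    have h5 : (s * (1 / 2) ^ 1) ^ 2 * a 1 ≤ 1 * (s * (1 / 2) ^ 1) :=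
      mul_le_mul h4 h2 h3.le (by norm_num)
    linarith
  have hup := hD.upper 0 β h (by linarith) (by linarith) (by linarith) (MF1 p K β h + s) (by
    intro m hm0 hm1
    have hβ0 : 0 < β := by linarith
    rw [hD.a0]
    have h1 : h + β * (2 / (p * K)) * m ≤ 3 + 4 * mm / (p * K) := by
      have h2 : β * (2 / (p * K)) * m ≤ 2 * (2 / (p * K)) * mm := by
        apply mul_le_mul _ hm1 hm0 (by positivity)
        exact mul_le_mul_of_nonneg_right (by linarith) (by positivity)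
      have h3 : 2 * (2 / (p * (K : ℝ))) * mm = 4 * mm / (p * K) := by ring
      linarith
    have h2 := hD.base_upper β (h + β * (2 / (p * K)) * m) (by linarith) (by linarith) h1
    have h3 : MF0 p K (h + β * (2 / (p * K)) * m) - β * (2 / (p * K)) * m ^ 2 / 2 ≤ MF1 p K β h := by
      rw [sub_le_iff_le_add]
      have hA : 0 ≤ β * (2 / (p * K)) * m ^ 2 / 2 := by positivity
      have hc : β * (2 / (p * K)) * m ^ 2 / 2 = β * m ^ 2 / (p * K) := by ring
      refine max_le ?_ (max_le ?_ ?_)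
      · have := le_max_left 0 (max (p * (h + β / K)) (p * (K * (h + β) - (K - 1))))
        unfold MF1; linarith
      · have h4 : p * (h + β / K) ≤ MF1 p K β h := (le_max_left _ _).trans (le_max_right _ _)
        have h5 : p * (h + β * (2 / (p * K)) * m) ≤ p * (h + β / K) + β * (2 / (p * K)) * m ^ 2 / 2 := by
          have h6 : p * (h + β / K) + β * (2 / (p * K)) * m ^ 2 / 2 - p * (h + β * (2 / (p * K)) * m)
              = β / (p * K) * (m - p) ^ 2 := by field_simp; ring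
          have h7 : 0 ≤ β / (p * K) * (m - p) ^ 2 := by positivity
          linarith
        linarith
      · have h4 : p * (K * (h + β) - (K - 1)) ≤ MF1 p K β h :=
          (le_max_right _ _).trans (le_max_right _ _)
        have h5 : p * (K * (h + β * (2 / (p * K)) * m) - (K - 1)) ≤
            p * (K * (h + β) - (K - 1)) + β * (2 / (p * K)) * m ^ 2 / 2 := by
          have h6 : p * (K * (h + β) - (K - 1)) + β * (2 / (p * K)) * m ^ 2 / 2 -
              p * (K * (h + β * (2 / (p * K)) * m) - (K - 1))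
              = β / (p * K) * (m - K * p) ^ 2 := by field_simp; ring
          have h7 : 0 ≤ β / (p * K) * (m - K * p) ^ 2 := by positivity
          linarith
        linarith
    linarith)
  linarith

/-- Closeness of `P 1` to the mean-field pressure: lower bound. -/
theorem P1_lower {p : ℝ} {K : ℕ} {mm s : ℝ} {P : ℕ → ℝ → ℝ → ℝ} {Pinf : ℝ → ℝ → ℝ}
    {a ε : ℕ → ℝ} (hp : 0 < p) (hK : 2 ≤ K) (hs : 0 < s) (hsp : s ≤ p)
    (hD : AbsData p K mm s P Pinf a ε) (β h : ℝ) (hβ1 : 7 / 8 ≤ β) (hβ2 : β ≤ 9 / 8)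
    (hh1 : -2 ≤ h) (hh : h ≤ 2) :
    MF1 p K β h - (1 + 6 * K) * s ≤ P 1 β h := by
  have hKr : (2 : ℝ) ≤ K := by exact_mod_cast hK
  have hK0 : (0 : ℝ) < K := by linarith
  have hβ0 : 0 < β := by linarith
  obtain ⟨p', hp1, hp2, hlow⟩ := hD.base_lower
  have hp'0 : 0 ≤ p' := by linarith
  rw [sub_le_iff_le_add]
  have ha0 : a 0 = 2 / (p * K) := hD.a0
  have hKs : 0 ≤ 6 * K * s := by positivity
  refine max_le ?_ (max_le ?_ ?_)
  · have h1 := hD.lower 0 β h 0 hβ0 le_rfl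
    have h2 := hlow β h hβ0
    have h3 : 0 ≤ MF0 p' K h := le_max_left _ _
    simp only [mul_zero, add_zero, ne_eq, OfNat.ofNat_ne_zero, not_false_eq_true, zero_pow,
      zero_div, sub_zero, zero_add] at h1
    linarith
  · have h1 := hD.lower 0 β h p hβ0 hp.le
    rw [ha0, zero_add] at h1
    have h2 := hlow β (h + β * (2 / (p * K)) * p) hβ0
    have h3 : p' * (h + β * (2 / (p * K)) * p) ≤ MF0 p' K (h + β * (2 / (p * K)) * p) :=
      (le_max_left _ _).trans (le_max_right _ _)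
    have e1 : h + β * (2 / (p * K)) * p = h + 2 * β / K := by field_simp
    rw [e1] at h1 h2 h3
    have e2 : β * (2 / (p * K)) * p ^ 2 / 2 = p * β / K := by field_simp
    rw [e2] at h1
    have e3 : (p - p') * (h + 2 * β / K) ≤ s * 5 := by
      have h4 : h + 2 * β / K ≤ 5 := by
        have : 2 * β / K ≤ 2 * β / 2 := div_le_div_of_nonneg_left (by linarith) (by norm_num) hKr
        linarith
      calc (p - p') * (h + 2 * β / K) ≤ (p - p') * 5 := mul_le_mul_of_nonneg_left h4 (by linarith)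
        _ ≤ s * 5 := mul_le_mul_of_nonneg_right (by linarith) (by norm_num)
    have e4 : (p - p') * (h + 2 * β / K) = p * (h + 2 * β / K) - p' * (h + 2 * β / K) := by ring
    have e5 : p * (h + β / K) = p * (h + 2 * β / K) - p * β / K := by ring
    nlinarith
  · have h1 := hD.lower 0 β h (K * p) hβ0 (by positivity)
    rw [ha0, zero_add] at h1
    have h2 := hlow β (h + β * (2 / (p * K)) * (K * p)) hβ0
    have h3 : p' * (K * (h + β * (2 / (p * K)) * (K * p)) - (K - 1)) ≤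
        MF0 p' K (h + β * (2 / (p * K)) * (K * p)) :=
      (le_max_right _ _).trans (le_max_right _ _)
    have e1 : h + β * (2 / (p * K)) * (K * p) = h + 2 * β := by field_simp
    rw [e1] at h1 h2 h3
    have e2 : β * (2 / (p * K)) * (K * p) ^ 2 / 2 = K * p * β := by field_simp
    rw [e2] at h1
    have e3 : (p - p') * (K * (h + 2 * β) - (K - 1)) ≤ s * (5 * K) := by
      have h4 : K * (h + 2 * β) - (K - 1) ≤ 5 * K := by nlinarith
      calc (p - p') * (K * (h + 2 * β) - (K - 1)) ≤ (p - p') * (5 * K) :=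
            mul_le_mul_of_nonneg_left h4 (by linarith)
        _ ≤ s * (5 * K) := mul_le_mul_of_nonneg_right (by linarith) (by positivity)
    have e4 : (p - p') * (K * (h + 2 * β) - (K - 1)) =
        p * (K * (h + 2 * β) - (K - 1)) - p' * (K * (h + 2 * β) - (K - 1)) := by ring
    have e5 : p * (K * (h + β) - (K - 1)) = p * (K * (h + 2 * β) - (K - 1)) - K * p * β := by ring
    nlinarith

theorem P_mono {p : ℝ} {K : ℕ} {mm s : ℝ} {P : ℕ → ℝ → ℝ → ℝ} {Pinf : ℝ → ℝ → ℝ}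
    {a ε : ℕ → ℝ} (hD : AbsData p K mm s P Pinf a ε) (β h : ℝ) (hβ : 0 < β) :
    Monotone fun k => P k β h := by
  refine monotone_nat_of_le_succ fun k => ?_
  have h1 := hD.lower k β h 0 hβ le_rfl
  simpa using h1

end Crest.Agent.R149.AbsInd

namespace Crest.Agent.R149

open AbsInd

theorem absInd : AbsIndStmt := by
  intro p K mm η hp hK hmm hη
  have hKr : (2 : ℝ) ≤ K := by exact_mod_cast hK
  have hK0 : (0 : ℝ) < K := by linarith
  have hmm0 : 0 < mm := by nlinarith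
  set η' : ℝ := min η (min (p / 4) (1 / 2)) with hη'def
  have hη'0 : 0 < η' := by positivity
  have hη'η : η' ≤ η := min_le_left _ _
  have hη'p : 4 * η' ≤ p := by
    have : η' ≤ p / 4 := (min_le_right _ _).trans (min_le_left _ _)
    linarith
  have hη'1 : 2 * η' ≤ 1 := by
    have : η' ≤ 1 / 2 := (min_le_right _ _).trans (min_le_right _ _)
    linarith
  set κ : ℝ := p ^ 2 / (256 * (p * K + 1)) with hκ
  have hκ0 : 0 < κ := by positivity
  set C3 : ℝ := 2 + K * (3 + 4 * mm / (p * K)) with hC3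
  set A0 : ℝ := 5 / 8 * (2 / (p * K)) with hA0
  have hA0p : 0 < A0 := by positivity
  -- smallness of `s`
  have key : ∀ f : ℝ → ℝ, Continuous f → ∀ c, f 0 < c → ∀ᶠ s in 𝓝[>] (0 : ℝ), f s < c :=
    fun f hf c hc => (hf.tendsto 0 |>.mono_left nhdsWithin_le_nhds).eventually_lt_const hc
  have hcτ : Continuous fun s : ℝ => Real.sqrt (2 * (s * C3) / A0) := by fun_prop
  have k1 := key (fun s => s) continuous_id 1 one_pos
  have k2 := key (fun s => 16 * s) (by fun_prop) p (by simpa using hp)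
  have k3 := key (fun s => κ * s) (by fun_prop) (1 / 8) (by simp)
  have k4 := key (fun s => s * (1 / κ + mm ^ 2 / 2)) (by fun_prop) (η' / 2) (by simpa using hη'0)
  have k5 := key (fun s => 4 * s) (by fun_prop) η' (by simpa using hη'0)
  have k6 := key (fun s => 4 * mm * s) (by fun_prop) 1 (by simp)
  have k7 := key (fun s => 4 * (K * s)) (by fun_prop) p (by simpa using hp)
  have k8 := key (fun s => 4 * Real.sqrt (2 * (s * C3) / A0)) (by fun_prop) p (by simpa using hp)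
  have k9 := key (fun s => (2 * (s * C3) + 2 * (K * s) * (1 / 8)) / A0) (by fun_prop) (p ^ 2 / 32)
    (by simp; positivity)
  have k10 := key (fun s => K * s + (s * C3) / (1 / 8) + 2 / (p * K) * mm *
    (K * s + Real.sqrt (2 * (s * C3) / A0))) (by fun_prop) (η' / 2) (by simpa using hη'0)
  have k11 := key (fun s => K * s + Real.sqrt (2 * (s * C3) / A0)) (by fun_prop) (η' / 2)
    (by simpa using hη'0)
  have k12 := key (fun s => (2 + 2 * mm ^ 2 + 2) * s) (by fun_prop) η (by simpa using hη)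
  have k13 := key (fun s => (1 + 6 * K) * s) (by fun_prop) η (by simpa using hη)
  have hall := ((((k1.and k2).and (k3.and k4)).and ((k5.and k6).and (k7.and k8))).and
    (((k9.and k10).and (k11.and k12)).and k13)).and self_mem_nhdsWithin
  obtain ⟨s, ⟨⟨⟨⟨c1, c2⟩, c3, c4⟩, ⟨c5, c6⟩, c7, c8⟩, ⟨⟨c9, c10⟩, c11, c12⟩, c13⟩, hs⟩ := hall.exists
  have hs : 0 < s := hs
  refine ⟨s, hs, fun P Pinf a ε hD => ?_⟩
  have hsp : s ≤ p := by linarith
  -- base of the induction
  have hC1 : Ck p K P ε η' 1 := by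
    intro β h hβ1 hβ2 hh
    have e1 : η' * (1 - (1 / 2) ^ 1) = η' / 2 := by ring
    rw [e1]
    refine step0 hp hK hmm hs hsp hD (εb := s * C3) rfl rfl c7.le c8.le c9 c10.le c11.le β h ?_ ?_ ?_
    · norm_num at hβ1 ⊢; linarith
    · norm_num at hβ2 ⊢; linarith
    · norm_num at hh ⊢; linarith
  have hCk : ∀ k, 1 ≤ k → Ck p K P ε η' k := by
    intro k hk
    induction k, hk using Nat.le_induction with
    | base => exact hC1
    | succ k hk ih =>
      exact stepk hp hK hmm hs hD hη'0 hη'p hη'1 hκ c1.le c2.le c3.le c4.le c5.le c6.le k hk ih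
  have hε : Tendsto ε atTop (𝓝 0) := by
    have hb : ∀ᶠ k in atTop, ε k ≤ s ^ 3 * (1 / 2) ^ k := by
      filter_upwards [eventually_ge_atTop 1] with k hk
      have h1 := hD.εsmall k hk
      have h2 := hD.asmall k hk
      have h3 := hD.apos k
      set q : ℝ := (1 / 2 : ℝ) ^ k with hq
      have hq0 : 0 < q := by positivity
      have hq1 : q ≤ 1 := pow_le_one₀ (by norm_num) (by norm_num)
      calc ε k ≤ (s * q) ^ 2 * (s * q) := h1.trans (mul_le_mul_of_nonneg_left h2 (by positivity))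
        _ = s ^ 3 * q * q ^ 2 := by ring
        _ ≤ s ^ 3 * q * 1 := by
            apply mul_le_mul_of_nonneg_left (pow_le_one₀ hq0.le hq1) (by positivity)
        _ = s ^ 3 * q := mul_one _
    have hg : Tendsto (fun k : ℕ => s ^ 3 * (1 / 2 : ℝ) ^ k) atTop (𝓝 0) := by
      have := (tendsto_pow_atTop_nhds_zero_of_lt_one (by norm_num : (0 : ℝ) ≤ 1 / 2)
        (by norm_num)).const_mul (s ^ 3)
      simpa using this
    exact tendsto_of_tendsto_of_tendsto_of_le_of_le' tendsto_const_nhds hg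
      (Eventually.of_forall hD.εnn) hb
  constructor
  · intro β h hβ1 hβ2 hh
    obtain ⟨i, e, ρ, he, hρ, hsub⟩ := limit_sub (p := p) (K := K) (η' := η') (h := h)
      (by linarith : (0 : ℝ) < β) hD.lim hε (by
        intro k hk
        have hq0 : (0 : ℝ) < (1 / 2) ^ k := by positivity
        obtain ⟨i, e, ρ, he, hρ, hsub⟩ := hCk k hk β h (by linarith) (by linarith) (by linarith)
        have hle : η' * (1 - (1 / 2) ^ k) ≤ η' := mul_le_of_le_one_right hη'0.le (by linarith)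
        exact ⟨i, e, ρ, he.trans hle, hρ.trans hle, hsub⟩)
    exact ⟨i, e, ρ, he.trans hη'η, hρ.trans hη'η, hsub⟩
  · intro β h hβ1 hβ2 hh1 hh2
    have hβ0 : 0 < β := by linarith
    rw [abs_le]
    constructor
    · have h1 := P1_lower hp hK hs hsp hD β h hβ1 hβ2 hh1 hh2
      have h2 : P 1 β h ≤ Pinf β h := (P_mono hD β h hβ0).ge_of_tendsto (hD.lim β h hβ0) 1
      linarith
    · have h1 := P1_upper hp hK hmm hs c1.le hD β h hβ1 hβ2 hh2
      have h2 : Pinf β h ≤ P 1 β h + (2 + 2 * mm ^ 2) * s := by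
        refine le_of_tendsto (hD.lim β h hβ0) ?_
        filter_upwards [eventually_ge_atTop 1] with k hk
        obtain ⟨j, rfl⟩ : ∃ j, k = j + 1 := ⟨k - 1, by omega⟩
        have h3 := incr hp hK hmm hs hD hη'0 hη'p c1.le c6.le hCk β h hβ1 hβ2 hh2 j
        have h4 : (2 + 2 * mm ^ 2) * s * (1 - (1 / 2) ^ j) ≤ (2 + 2 * mm ^ 2) * s :=
          mul_le_of_le_one_right (by positivity) (by
            have : (0 : ℝ) < (1 / 2) ^ j := by positivity
            linarith)
        linarith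
      linarith

theorem absMain (h2 : AbsTripleStmt) : AbsStmt := abs_of absInd h2

end Crest.Agent.R149
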