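import Crest.Agent.R149.Stmts

/-!
# Row 149: splitting `AbsStmt` into an induction part and a triple-point part
-/

set_option autoImplicit false

open MeasureTheory Crest.ProbabilityR.Continuum Filter Topology

namespace Crest.Agent.R149

/-- Mean-field pressure after the first scale. -/
noncomputable def MF1 (p : ℝ) (K : ℕ) (β h : ℝ) : ℝ :=
  max 0 (max (p * (h + β / K)) (p * (K * (h + β) - (K - 1))))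

/-- Centres (densities). -/
noncomputable def cD (p : ℝ) (K : ℕ) : Fin 3 → ℝ := ![0, p, K * p]

/-- Centres (energies). -/
noncomputable def cE (p : ℝ) (K : ℕ) : Fin 3 → ℝ := ![0, -p / K, -p * K]

/-- Induction part. -/
def AbsIndStmt : Prop :=
  ∀ (p : ℝ) (K : ℕ) (mm η : ℝ), 0 < p → 2 ≤ K → K * p + p ≤ mm → 0 < η →
    ∃ s : ℝ, 0 < s ∧ ∀ (P : ℕ → ℝ → ℝ → ℝ) (Pinf : ℝ → ℝ → ℝ) (a ε : ℕ → ℝ),
      AbsData p K mm s P Pinf a ε →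
      (∀ β h, 7 / 8 ≤ β → β ≤ 9 / 8 → h ≤ 2 → ∃ i : Fin 3, ∃ e ρ : ℝ,
        |e - cE p K i| ≤ η ∧ |ρ - cD p K i| ≤ η ∧ ESub Pinf 0 β h e ρ) ∧
      (∀ β h, 7 / 8 ≤ β → β ≤ 9 / 8 → -2 ≤ h → h ≤ 2 → |Pinf β h - MF1 p K β h| ≤ η)

/-- Triple-point part. -/
def AbsTripleStmt : Prop :=
  ∀ (p : ℝ) (K : ℕ), 0 < p → 2 ≤ K → ∃ η : ℝ, 0 < η ∧ ∀ Pinf : ℝ → ℝ → ℝ,
    (∀ β h h', 0 < β → h ≤ h' → Pinf β h ≤ Pinf β h') →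
    (∀ β h, 7 / 8 ≤ β → β ≤ 9 / 8 → h ≤ 2 → ∃ i : Fin 3, ∃ e ρ : ℝ,
      |e - cE p K i| ≤ η ∧ |ρ - cD p K i| ≤ η ∧ ESub Pinf 0 β h e ρ) →
    (∀ β h, 7 / 8 ≤ β → β ≤ 9 / 8 → -2 ≤ h → h ≤ 2 → |Pinf β h - MF1 p K β h| ≤ η) →
    ∃ (βc hc : ℝ) (e ρ : Fin 3 → ℝ), 7 / 8 < βc ∧ βc < 9 / 8 ∧ Triple Pinf βc hc e ρ ∧
      0 ≤ ρ 0 ∧ ρ 0 < p / 4 ∧ K * p - p / 4 < ρ 2

theorem abs_of (h1 : AbsIndStmt) (h2 : AbsTripleStmt) : AbsStmt := by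
  intro p K mm hp hK hmm
  obtain ⟨η, hη, h2'⟩ := h2 p K hp hK
  obtain ⟨s, hs, h1'⟩ := h1 p K mm η hp hK hmm hη
  refine ⟨s, hs, fun P Pinf a ε hD => ?_⟩
  obtain ⟨h3, h4⟩ := h1' P Pinf a ε hD
  refine h2' Pinf ?_ h3 h4
  intro β h h' hβ hh
  exact le_of_tendsto_of_tendsto' (hD.lim β h hβ) (hD.lim β h' hβ) fun k => hD.mono k β h h' hβ hh

end Crest.Agent.R149
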