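import Crest.Agent.R149.AbsSplit

/-!
# Row 149: the triple point (AbsTripleStmt)
-/

set_option autoImplicit false

open MeasureTheory Crest.ProbabilityR.Continuum Filter Topology Set

namespace Crest.Agent.R149.AbsTriple

/-- `i`-th phase is present at `(β, h)`. -/
def In (P : ℝ → ℝ → ℝ) (E D : Fin 3 → ℝ) (η : ℝ) (i : Fin 3) (β h : ℝ) : Prop :=
  ∃ e ρ : ℝ, |e - E i| ≤ η ∧ |ρ - D i| ≤ η ∧ ESub P 0 β h e ρ

/-- monotonicity of the phases in `h`. -/
theorem In_mono {P : ℝ → ℝ → ℝ} {E D : Fin 3 → ℝ} {η : ℝ} {i j : Fin 3} {β h h' : ℝ}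
    (hβ : 0 < β) (hi : In P E D η i β h) (hj : In P E D η j β h') (hh : h < h') :
    D i - η ≤ D j + η := by
  obtain ⟨e, ρ, -, hρ, hs⟩ := hi
  obtain ⟨e', ρ', -, hρ', hs'⟩ := hj
  have h1 := hs β h' hβ
  have h2 := hs' β h hβ
  have h3 : ρ ≤ ρ' := by
    by_contra hc
    push Not at hc
    nlinarith
  have := (abs_le.mp hρ).1
  have := (abs_le.mp hρ').2
  linarith

/-- Window. -/
def W : Set (ℝ × ℝ) := Icc (7 / 8) (9 / 8) ×ˢ Icc (-2) 2

theorem lipW {P : ℝ → ℝ → ℝ} {E D : Fin 3 → ℝ} {η Cb : ℝ}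
    (hC : ∀ i, |E i| + η ≤ Cb ∧ |D i| + η ≤ Cb)
    (hsub : ∀ β h, 7 / 8 ≤ β → β ≤ 9 / 8 → h ≤ 2 → ∃ i, In P E D η i β h) :
    ContinuousOn (fun x : ℝ × ℝ => P x.1 x.2) W := by
  have key : ∀ x ∈ W, ∀ y ∈ W, P x.1 x.2 - P y.1 y.2 ≤ Cb * (|x.1 - y.1| + |x.2 - y.2|) := by
    rintro ⟨β, h⟩ ⟨hx1, hx2⟩ ⟨β', h'⟩ ⟨hy1, hy2⟩
    obtain ⟨i, e, ρ, he, hρ, hs⟩ := hsub β h hx1.1 hx1.2 hx2.2
    have h1 := hs β' h' (by have := hy1.1; simp only at this; linarith)
    have he' : |e| ≤ Cb := by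
      have := (hC i).1
      have h2 : |e| ≤ |e - E i| + |E i| := by simpa using abs_add_le (e - E i) (E i)
      linarith
    have hρ' : |ρ| ≤ Cb := by
      have := (hC i).2
      have h2 : |ρ| ≤ |ρ - D i| + |D i| := by simpa using abs_add_le (ρ - D i) (D i)
      linarith
    have h3 : e * (β' - β) ≤ Cb * |β - β'| := by
      calc e * (β' - β) ≤ |e * (β' - β)| := le_abs_self _
        _ = |e| * |β - β'| := by rw [abs_mul, abs_sub_comm β' β]
        _ ≤ Cb * |β - β'| := mul_le_mul_of_nonneg_right he' (abs_nonneg _)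
    have h4 : -(ρ * (h' - h)) ≤ Cb * |h - h'| := by
      calc -(ρ * (h' - h)) ≤ |ρ * (h' - h)| := neg_le_abs _
        _ = |ρ| * |h - h'| := by rw [abs_mul, abs_sub_comm h' h]
        _ ≤ Cb * |h - h'| := mul_le_mul_of_nonneg_right hρ' (abs_nonneg _)
    simp only
    linarith
  have hC0 : 0 ≤ Cb := by
    have h1 := hsub 1 0 (by norm_num) (by norm_num) (by norm_num)
    obtain ⟨i, e, ρ, he, hρ, hs⟩ := h1
    have := (hC i).1
    have := abs_nonneg (E i)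
    have := (abs_nonneg (e - E i)).trans he
    linarith
  rw [Metric.continuousOn_iff]
  intro x hx ε hε
  refine ⟨ε / (2 * Cb + 1), by positivity, fun y hy hxy => ?_⟩
  have h1 := key x hx y hy
  have h2 := key y hy x hx
  have h3 : |x.1 - y.1| ≤ dist y x := by
    rw [dist_comm, Prod.dist_eq, ← Real.dist_eq]; exact le_max_left _ _
  have h4 : |x.2 - y.2| ≤ dist y x := by
    rw [dist_comm, Prod.dist_eq, ← Real.dist_eq]; exact le_max_right _ _
  rw [Real.dist_eq]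
  have h5 : |P y.1 y.2 - P x.1 x.2| ≤ Cb * (|x.1 - y.1| + |x.2 - y.2|) := by
    rw [abs_le]
    constructor
    · linarith
    · rw [abs_sub_comm x.1, abs_sub_comm x.2]; linarith
  have h6 : Cb * (|x.1 - y.1| + |x.2 - y.2|) ≤ 2 * Cb * dist y x := by nlinarith
  have h7 : 2 * Cb * dist y x ≤ (2 * Cb + 1) * dist y x := by
    nlinarith [dist_nonneg (x := y) (y := x)]
  have h8 : (2 * Cb + 1) * dist y x < ε := by
    rw [lt_div_iff₀ (by positivity)] at hxy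
    linarith
  linarith

/-- The set of points of the window where phase `i` is present. -/
def Wi (P : ℝ → ℝ → ℝ) (E D : Fin 3 → ℝ) (η : ℝ) (i : Fin 3) : Set (ℝ × ℝ) :=
  {x | x ∈ W ∧ In P E D η i x.1 x.2}

theorem isCompact_Wi {P : ℝ → ℝ → ℝ} {E D : Fin 3 → ℝ} {η : ℝ} (hP : ContinuousOn (fun x : ℝ × ℝ => P x.1 x.2) W)
    (i : Fin 3) : IsCompact (Wi P E D η i) := by
  set B : Set ((ℝ × ℝ) × (ℝ × ℝ)) :=
    W ×ˢ (Icc (E i - η) (E i + η) ×ˢ Icc (D i - η) (D i + η)) with hB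
  have hBc : IsCompact B := by
    refine (isCompact_Icc.prod isCompact_Icc).prod (isCompact_Icc.prod isCompact_Icc)
  set Kset : Set ((ℝ × ℝ) × (ℝ × ℝ)) := ⋂ y : {y : ℝ × ℝ // 0 < y.1},
    B ∩ (fun q : (ℝ × ℝ) × (ℝ × ℝ) =>
      P q.1.1 q.1.2 - 0 - q.2.1 * (y.1.1 - q.1.1) + q.2.2 * (y.1.2 - q.1.2)) ⁻¹'
        Iic (P y.1.1 y.1.2) with hK
  have hKc : IsCompact Kset := by
    refine hBc.of_isClosed_subset (isClosed_iInter fun y => ?_) ?_
    · apply ContinuousOn.preimage_isClosed_of_isClosed _ hBc.isClosed isClosed_Iic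
      have h1 : ContinuousOn (fun q : (ℝ × ℝ) × (ℝ × ℝ) => P q.1.1 q.1.2) B :=
        hP.comp continuousOn_fst (fun q hq => hq.1)
      have h2 : Continuous (fun q : (ℝ × ℝ) × (ℝ × ℝ) => q.2.1 * (y.1.1 - q.1.1)) := by fun_prop
      have h3 : Continuous (fun q : (ℝ × ℝ) × (ℝ × ℝ) => q.2.2 * (y.1.2 - q.1.2)) := by fun_prop
      exact ((h1.sub continuousOn_const).sub h2.continuousOn).add h3.continuousOn
    · intro q hq
      exact (mem_iInter.mp hq ⟨(1, 0), by simp⟩).1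
  have himg : Wi P E D η i = Prod.fst '' Kset := by
    ext x
    constructor
    · rintro ⟨hx, e, ρ, he, hρ, hs⟩
      refine ⟨(x, (e, ρ)), ?_, rfl⟩
      rw [hK, mem_iInter]
      rintro ⟨y, hy⟩
      refine ⟨⟨hx, ?_, ?_⟩, hs y.1 y.2 hy⟩
      · rw [abs_le] at he; exact ⟨by linarith, by linarith⟩
      · rw [abs_le] at hρ; exact ⟨by linarith, by linarith⟩
    · rintro ⟨⟨x', e, ρ⟩, hq, rfl⟩
      rw [hK, mem_iInter] at hq
      obtain ⟨hx, he, hρ⟩ := (hq ⟨(1, 0), by simp⟩).1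
      refine ⟨hx, e, ρ, ?_, ?_, fun β' h' hβ' => (hq ⟨(β', h'), hβ'⟩).2⟩
      · rw [abs_le]; exact ⟨by linarith [he.1], by linarith [he.2]⟩
      · rw [abs_le]; exact ⟨by linarith [hρ.1], by linarith [hρ.2]⟩
  rw [himg]
  exact hKc.image continuous_fst

theorem indep_aux {p K η e0 e1 e2 ρ0 ρ1 ρ2 : ℝ} (hp : 0 < p) (hKr : 2 ≤ K) (hηdef : η = p / 1000)
    (he0 : -η ≤ e0 - 0) (he0' : e0 - 0 ≤ η) (he1 : -η ≤ e1 - -p / K) (he1' : e1 - -p / K ≤ η)
    (he2 : -η ≤ e2 - -p * K) (he2' : e2 - -p * K ≤ η)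
    (hρ0 : -η ≤ ρ0 - 0) (hρ0' : ρ0 - 0 ≤ η) (hρ1 : -η ≤ ρ1 - p) (hρ1' : ρ1 - p ≤ η)
    (hρ2 : -η ≤ ρ2 - K * p) (hρ2' : ρ2 - K * p ≤ η) :
    (e1 - e0) * (ρ2 - ρ0) ≠ (e2 - e0) * (ρ1 - ρ0) := by
  have hK0 : 0 < K := by linarith
  have hη : 0 < η := by rw [hηdef]; positivity
  have hKp : 2 * p ≤ K * p := mul_le_mul_of_nonneg_right hKr hp.le
  have hpK : p / K ≤ p / 2 := div_le_div_of_nonneg_left hp.le (by norm_num) hKr
  have hpK0 : 0 < p / K := by positivity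
  have hneg : -p / K = -(p / K) := by ring
  rw [hneg] at he1 he1'
  have g1 : -(p / K + 2 * η) ≤ e1 - e0 := by linarith
  have g2 : 0 < ρ2 - ρ0 := by linarith
  have g3 : ρ2 - ρ0 ≤ K * p + 2 * η := by linarith
  have L : -((p / K + 2 * η) * (K * p + 2 * η)) ≤ (e1 - e0) * (ρ2 - ρ0) := by
    have a1 : -(p / K + 2 * η) * (ρ2 - ρ0) ≤ (e1 - e0) * (ρ2 - ρ0) :=
      mul_le_mul_of_nonneg_right g1 g2.le
    have a2 : (p / K + 2 * η) * (ρ2 - ρ0) ≤ (p / K + 2 * η) * (K * p + 2 * η) :=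
      mul_le_mul_of_nonneg_left g3 (by positivity)
    linarith
  have g4 : e2 - e0 ≤ -(K * p - 2 * η) := by linarith
  have g5 : p - 2 * η ≤ ρ1 - ρ0 := by linarith
  have g6 : 0 < p - 2 * η := by linarith
  have g7 : 0 < K * p - 2 * η := by linarith
  have R : (e2 - e0) * (ρ1 - ρ0) ≤ -((K * p - 2 * η) * (p - 2 * η)) := by
    have a1 : (e2 - e0) * (ρ1 - ρ0) ≤ -(K * p - 2 * η) * (ρ1 - ρ0) :=
      mul_le_mul_of_nonneg_right g4 (by linarith)
    have a2 : (K * p - 2 * η) * (p - 2 * η) ≤ (K * p - 2 * η) * (ρ1 - ρ0) :=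
      mul_le_mul_of_nonneg_left g5 g7.le
    linarith
  have hfin : (p / K + 2 * η) * (K * p + 2 * η) < (K * p - 2 * η) * (p - 2 * η) := by
    have b1 : (p / K + 2 * η) * (K * p + 2 * η) =
        p ^ 2 + 2 * η * (p / K) + 2 * η * K * p + 4 * η ^ 2 := by field_simp; ring
    have b2 : (K * p - 2 * η) * (p - 2 * η) = K * p ^ 2 - 2 * η * K * p - 2 * η * p + 4 * η ^ 2 := by
      ring
    rw [b1, b2]
    have b3 : 2 * η * (p / K) ≤ 2 * η * (p / 2) := mul_le_mul_of_nonneg_left hpK (by positivity)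
    have b4 : η * p = p ^ 2 / 1000 := by rw [hηdef]; ring
    have b5 : 2 * η * K * p = K * (p ^ 2 / 500) := by
      have : 2 * η * K * p = 2 * K * (η * p) := by ring
      rw [this, b4]; ring
    have hpp : 0 < p ^ 2 := by positivity
    have b6 : 2 * p ^ 2 ≤ K * p ^ 2 := mul_le_mul_of_nonneg_right hKr hpp.le
    nlinarith
  intro heq
  linarith

/-- The affine planes of the mean-field pressure. -/
noncomputable def plane (p : ℝ) (K : ℕ) (i : Fin 3) (β h : ℝ) : ℝ :=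
  ![0, p * (h + β / K), p * (K * (h + β) - (K - 1))] i

theorem near_opt {p : ℝ} {K : ℕ} {η : ℝ} {P : ℝ → ℝ → ℝ} (hp : 0 < p) (hK : 2 ≤ K) (hη : 0 < η)
    (hclose : ∀ β h, 7 / 8 ≤ β → β ≤ 9 / 8 → -2 ≤ h → h ≤ 2 → |P β h - MF1 p K β h| ≤ η)
    (i : Fin 3) {β h : ℝ} (hβ1 : 7 / 8 ≤ β) (hβ2 : β ≤ 9 / 8) (hh1 : -2 ≤ h) (hh2 : h ≤ 2)
    (hi : In P (cE p K) (cD p K) η i β h) : MF1 p K β h ≤ plane p K i β h + 7 * η := by
  have hKr : (2 : ℝ) ≤ K := by exact_mod_cast hK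
  have hK0 : (0 : ℝ) < K := by linarith
  obtain ⟨e, ρ, he, hρ, hs⟩ := hi
  have hc := hclose β h hβ1 hβ2 hh1 hh2
  -- reference point
  obtain ⟨βr, hr, hr1, hr2, hr3, hr4, hMF⟩ : ∃ βr hr : ℝ, 7 / 8 ≤ βr ∧ βr ≤ 9 / 8 ∧ -2 ≤ hr ∧ hr ≤ 2 ∧
      MF1 p K βr hr ≤ plane p K i βr hr := by
    have hKi : 1 / (K : ℝ) ≤ 1 / 2 := one_div_le_one_div_of_le (by norm_num) hKr
    have hKi0 : 0 < 1 / (K : ℝ) := by positivity
    fin_cases i
    · refine ⟨1, -2, by norm_num, by norm_num, by norm_num, by norm_num, ?_⟩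
      simp only [MF1, plane, Fin.zero_eta, Matrix.cons_val_zero]
      refine max_le le_rfl (max_le ?_ ?_)
      · have : -2 + 1 / (K : ℝ) ≤ 0 := by linarith
        exact mul_nonpos_of_nonneg_of_nonpos hp.le this
      · have : (K : ℝ) * (-2 + 1) - (K - 1) ≤ 0 := by linarith
        exact mul_nonpos_of_nonneg_of_nonpos hp.le this
    · refine ⟨7 / 8, -(7 / 8) / K, by norm_num, by norm_num, ?_, ?_, ?_⟩
      · rw [le_div_iff₀ hK0]; nlinarith
      · rw [div_le_iff₀ hK0]; nlinarith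
      · simp only [MF1, plane, Fin.mk_one, Matrix.cons_val_one, Matrix.cons_val_zero]
        have h1 : -(7 / 8 : ℝ) / K + 7 / 8 / K = 0 := by ring
        rw [h1, mul_zero]
        refine max_le le_rfl (max_le le_rfl ?_)
        have h2 : (K : ℝ) * (-(7 / 8) / K + 7 / 8) - (K - 1) ≤ 0 := by
          have : (K : ℝ) * (-(7 / 8) / K + 7 / 8) = -(7 / 8) + 7 / 8 * K := by field_simp
          rw [this]; linarith
        exact mul_nonpos_of_nonneg_of_nonpos hp.le h2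
    · refine ⟨1, 2, by norm_num, by norm_num, by norm_num, by norm_num, ?_⟩
      simp only [MF1, plane, Fin.reduceFinMk, Matrix.cons_val]
      have h2 : 0 ≤ (K : ℝ) * (2 + 1) - (K - 1) := by linarith
      refine max_le (mul_nonneg hp.le h2) (max_le ?_ le_rfl)
      apply mul_le_mul_of_nonneg_left _ hp.le
      linarith
  have hc' := hclose βr hr hr1 hr2 hr3 hr4
  have h1 := hs βr hr (by linarith)
  have hpl : plane p K i βr hr = plane p K i β h - cE p K i * (βr - β) + cD p K i * (hr - h) := by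
    fin_cases i
    · simp [plane, cE, cD]
    · simp only [plane, cE, cD, Fin.mk_one, Matrix.cons_val_one, Matrix.cons_val_zero]; ring
    · simp only [plane, cE, cD, Fin.reduceFinMk, Matrix.cons_val]; ring
  have hb1 : |βr - β| ≤ 1 / 4 := by rw [abs_le]; constructor <;> linarith
  have hb2 : |hr - h| ≤ 4 := by rw [abs_le]; constructor <;> linarith
  have h2 : (e - cE p K i) * (βr - β) ≤ η * (1 / 4) := by
    calc _ ≤ |(e - cE p K i) * (βr - β)| := le_abs_self _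
      _ = |e - cE p K i| * |βr - β| := abs_mul _ _
      _ ≤ η * (1 / 4) := mul_le_mul he hb1 (abs_nonneg _) hη.le
  have h3 : -((ρ - cD p K i) * (hr - h)) ≤ η * 4 := by
    calc _ ≤ |(ρ - cD p K i) * (hr - h)| := neg_le_abs _
      _ = |ρ - cD p K i| * |hr - h| := abs_mul _ _
      _ ≤ η * 4 := mul_le_mul hρ hb2 (abs_nonneg _) hη.le
  have h4 := (abs_le.mp hc).1
  have h5 := (abs_le.mp hc').2
  have h6 : (e - cE p K i) * (βr - β) = e * (βr - β) - cE p K i * (βr - β) := by ring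
  have h7 : (ρ - cD p K i) * (hr - h) = ρ * (hr - h) - cD p K i * (hr - h) := by ring
  linarith

end Crest.Agent.R149.AbsTriple

namespace Crest.Agent.R149

open AbsTriple

theorem absTriple : AbsTripleStmt := by
  intro p K hp hK
  have hKr : (2 : ℝ) ≤ K := by exact_mod_cast hK
  have hK0 : (0 : ℝ) < K := by linarith
  refine ⟨p / 1000, by positivity, fun P hmono hsub hclose => ?_⟩
  set η : ℝ := p / 1000 with hηdef
  have hη : 0 < η := by positivity
  set E := cE p K with hE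
  set D := cD p K with hD
  have hD0 : D 0 = 0 := rfl
  have hD1 : D 1 = p := rfl
  have hD2 : D 2 = K * p := rfl
  have hE0 : E 0 = 0 := rfl
  have hE1 : E 1 = -p / K := rfl
  have hE2 : E 2 = -p * K := rfl
  have hKp : 2 * p ≤ K * p := mul_le_mul_of_nonneg_right hKr hp.le
  have hcont : ContinuousOn (fun x : ℝ × ℝ => P x.1 x.2) W := by
    apply lipW (E := E) (D := D) (η := η) (Cb := |E 0| + |E 1| + |E 2| + |D 0| + |D 1| + |D 2| + η) _ hsub
    intro i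
    have := abs_nonneg (E 0); have := abs_nonneg (E 1); have := abs_nonneg (E 2)
    have := abs_nonneg (D 0); have := abs_nonneg (D 1); have := abs_nonneg (D 2)
    fin_cases i <;> constructor <;> simp only [Fin.zero_eta, Fin.mk_one, Fin.reduceFinMk] <;> linarith
  have hcW : ∀ i, IsCompact (Wi P E D η i) := fun i => isCompact_Wi hcont i
  -- ordering of the phases
  have hord : ∀ {i j : Fin 3} {β h h' : ℝ}, 7 / 8 ≤ β → In P E D η i β h → In P E D η j β h' →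
      h < h' → D i - η ≤ D j + η := fun hβ hi hj hh => In_mono (by linarith) hi hj hh
  have hopt : ∀ (i : Fin 3) {β h : ℝ}, 7 / 8 ≤ β → β ≤ 9 / 8 → -2 ≤ h → h ≤ 2 →
      In P E D η i β h → MF1 p K β h ≤ plane p K i β h + 7 * η :=
    fun i β h a b c d hi => near_opt hp hK hη hclose i a b c d hi
  -- at h = -2 phase 0, at h = 2 phase 2
  have hm2 : ∀ β, 7 / 8 ≤ β → β ≤ 9 / 8 → In P E D η 0 β (-2) := by
    intro β hβ1 hβ2
    obtain ⟨i, hi⟩ := hsub β (-2) hβ1 hβ2 (by norm_num)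
    have h1 := hopt i hβ1 hβ2 le_rfl (by norm_num) hi
    have h0 : 0 ≤ MF1 p K β (-2) := le_max_left _ _
    have hβK : β / K ≤ 9 / 16 := by rw [div_le_iff₀ hK0]; nlinarith
    fin_cases i
    · exact hi
    · exfalso
      simp only [plane, Fin.mk_one, Matrix.cons_val_one, Matrix.cons_val_zero] at h1
      nlinarith
    · exfalso
      simp only [plane, Fin.reduceFinMk, Matrix.cons_val] at h1
      have h2 : (K : ℝ) * (-2 + β) - (K - 1) ≤ -1 := by nlinarith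
      nlinarith
  have hp2 : ∀ β, 7 / 8 ≤ β → β ≤ 9 / 8 → In P E D η 2 β 2 := by
    intro β hβ1 hβ2
    obtain ⟨i, hi⟩ := hsub β 2 hβ1 hβ2 le_rfl
    have h1 := hopt i hβ1 hβ2 (by norm_num) le_rfl hi
    have h0 : p * (K * (2 + β) - (K - 1)) ≤ MF1 p K β 2 := (le_max_right _ _).trans (le_max_right _ _)
    have hβK : β / K ≤ 9 / 16 := by rw [div_le_iff₀ hK0]; nlinarith
    fin_cases i
    · exfalso
      simp only [plane, Fin.zero_eta, Matrix.cons_val_zero] at h1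
      have h2 : 1 ≤ (K : ℝ) * (2 + β) - (K - 1) := by nlinarith
      nlinarith
    · exfalso
      simp only [plane, Fin.mk_one, Matrix.cons_val_one, Matrix.cons_val_zero] at h1
      have h2 : 2 + β / K + 1 ≤ (K : ℝ) * (2 + β) - (K - 1) := by nlinarith
      nlinarith
    · exact hi
  -- Claim A
  have hA : ∀ β, 7 / 8 ≤ β → β ≤ 9 / 8 →
      ∃ h, (β, h) ∈ Wi P E D η 0 ∧ ((β, h) ∈ Wi P E D η 1 ∨ (β, h) ∈ Wi P E D η 2) := by
    intro β hβ1 hβ2
    have hconn : IsPreconnected (Icc (-2 : ℝ) 2) := isPreconnected_Icc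
    rw [isPreconnected_closed_iff] at hconn
    have hcl : ∀ i, IsClosed {h : ℝ | (β, h) ∈ Wi P E D η i} := fun i =>
      (hcW i).isClosed.preimage (Continuous.prodMk_right β)
    have hin : ∀ (i : Fin 3) (h : ℝ), -2 ≤ h → h ≤ 2 → In P E D η i β h → (β, h) ∈ Wi P E D η i :=
      fun i h a b hi => ⟨⟨⟨hβ1, hβ2⟩, ⟨a, b⟩⟩, hi⟩
    obtain ⟨h, -, hh0, hh1⟩ := hconn {h : ℝ | (β, h) ∈ Wi P E D η 0}
      ({h : ℝ | (β, h) ∈ Wi P E D η 1} ∪ {h : ℝ | (β, h) ∈ Wi P E D η 2}) (hcl 0)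
      ((hcl 1).union (hcl 2)) (by
        intro h hh
        obtain ⟨i, hi⟩ := hsub β h hβ1 hβ2 hh.2
        have := hin i h hh.1 hh.2 hi
        fin_cases i
        · exact Or.inl this
        · exact Or.inr (Or.inl this)
        · exact Or.inr (Or.inr this))
      ⟨-2, ⟨by norm_num, by norm_num⟩, hin 0 _ le_rfl (by norm_num) (hm2 β hβ1 hβ2)⟩
      ⟨2, ⟨by norm_num, by norm_num⟩, Or.inr (hin 2 _ (by norm_num) le_rfl (hp2 β hβ1 hβ2))⟩
    exact ⟨h, hh0, hh1⟩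
  -- the two closed sets
  set T : Fin 3 → Set ℝ := fun j => Prod.fst '' (Wi P E D η 0 ∩ Wi P E D η j) with hT
  have hTcl : ∀ j, IsClosed (T j) := fun j =>
    (((hcW 0).inter_right (hcW j).isClosed).image continuous_fst).isClosed
  have hcover : Icc (15 / 16 : ℝ) (17 / 16) ⊆ T 1 ∪ T 2 := by
    intro β hβ
    obtain ⟨h, h0, h1⟩ := hA β (by linarith [hβ.1]) (by linarith [hβ.2])
    rcases h1 with h1 | h1
    · exact Or.inl ⟨(β, h), ⟨h0, h1⟩, rfl⟩
    · exact Or.inr ⟨(β, h), ⟨h0, h1⟩, rfl⟩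
  have hKK : (K : ℝ) + 1 ≤ 3 * (K - 1) := by linarith
  have hn2 : (15 / 16 : ℝ) ∉ T 2 := by
    rintro ⟨⟨β, h⟩, ⟨⟨⟨hb, hh⟩, h0⟩, ⟨-, h2⟩⟩, hβ⟩
    simp only at hβ
    subst hβ
    have e0 := hopt 0 hb.1 hb.2 hh.1 hh.2 h0
    have e2 := hopt 2 hb.1 hb.2 hh.1 hh.2 h2
    have e3 : p * (h + (15 / 16) / K) ≤ MF1 p K (15 / 16) h :=
      (le_max_left _ _).trans (le_max_right _ _)
    have e4 : 0 ≤ MF1 p K (15 / 16) h := le_max_left _ _
    simp only [plane, Matrix.cons_val_zero] at e0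
    simp only [plane, Matrix.cons_val] at e2
    have e5 : p * (h * K + 15 / 16) ≤ 7 * η * K := by
      have : p * (h + (15 / 16) / K) * K ≤ 7 * η * K :=
        mul_le_mul_of_nonneg_right (by linarith) hK0.le
      have e6 : p * (h + (15 / 16) / K) * K = p * (h * K + 15 / 16) := by field_simp
      linarith
    have e6 : -(7 * η) ≤ p * (K * (h + 15 / 16) - (K - 1)) := by linarith
    have e7 : p * ((K : ℝ) - 1) / 16 ≤ 7 * η * (K + 1) := by nlinarith
    have e8 : 7 * η * (K + 1) ≤ 21 * η * (K - 1) := by nlinarith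
    have e9 : 0 < (K : ℝ) - 1 := by linarith
    have e10 : 21 * η * (K - 1) < p * ((K : ℝ) - 1) / 16 := by
      rw [hηdef]; nlinarith [mul_pos hp e9]
    linarith
  have hn1 : (17 / 16 : ℝ) ∉ T 1 := by
    rintro ⟨⟨β, h⟩, ⟨⟨⟨hb, hh⟩, h0⟩, ⟨-, h2⟩⟩, hβ⟩
    simp only at hβ
    subst hβ
    have e0 := hopt 0 hb.1 hb.2 hh.1 hh.2 h0
    have e2 := hopt 1 hb.1 hb.2 hh.1 hh.2 h2
    have e3 : p * (K * (h + 17 / 16) - (K - 1)) ≤ MF1 p K (17 / 16) h :=
      (le_max_right _ _).trans (le_max_right _ _)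
    have e4 : 0 ≤ MF1 p K (17 / 16) h := le_max_left _ _
    simp only [plane, Matrix.cons_val_zero] at e0
    simp only [plane, Matrix.cons_val_one, Matrix.cons_val_zero] at e2
    have e5 : -(7 * η * K) ≤ p * (h * K + 17 / 16) := by
      have : -(7 * η) * K ≤ p * (h + (17 / 16) / K) * K :=
        mul_le_mul_of_nonneg_right (by linarith) hK0.le
      have e6 : p * (h + (17 / 16) / K) * K = p * (h * K + 17 / 16) := by field_simp
      linarith
    have e6 : p * (K * (h + 17 / 16) - (K - 1)) ≤ 7 * η := by linarith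
    have e7 : p * ((K : ℝ) - 1) / 16 ≤ 7 * η * (K + 1) := by nlinarith
    have e8 : 7 * η * (K + 1) ≤ 21 * η * (K - 1) := by nlinarith
    have e9 : 0 < (K : ℝ) - 1 := by linarith
    have e10 : 21 * η * (K - 1) < p * ((K : ℝ) - 1) / 16 := by
      rw [hηdef]; nlinarith [mul_pos hp e9]
    linarith
  have hconn : IsPreconnected (Icc (15 / 16 : ℝ) (17 / 16)) := isPreconnected_Icc
  rw [isPreconnected_closed_iff] at hconn
  obtain ⟨βc, hβc, ht1, ht2⟩ := hconn (T 1) (T 2) (hTcl 1) (hTcl 2) hcover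
    (by
      have h1 : (15 / 16 : ℝ) ∈ Icc (15 / 16 : ℝ) (17 / 16) := ⟨le_rfl, by norm_num⟩
      rcases hcover h1 with h2 | h2
      · exact ⟨_, h1, h2⟩
      · exact absurd h2 hn2)
    (by
      have h1 : (17 / 16 : ℝ) ∈ Icc (15 / 16 : ℝ) (17 / 16) := ⟨by norm_num, le_rfl⟩
      rcases hcover h1 with h2 | h2
      · exact absurd h2 hn1
      · exact ⟨_, h1, h2⟩)
  obtain ⟨⟨β1, h1⟩, ⟨⟨⟨hb1, hh1⟩, i10⟩, ⟨-, i11⟩⟩, hβ1⟩ := ht1
  obtain ⟨⟨β2, h2⟩, ⟨⟨⟨hb2, hh2⟩, i20⟩, ⟨-, i22⟩⟩, hβ2⟩ := ht2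
  simp only at hβ1 hβ2 i10 i11 i20 i22
  rw [hβ1] at i10 i11
  rw [hβ2] at i20 i22
  have hβc78 : 7 / 8 ≤ βc := by linarith [hβc.1]
  have hβpos : 0 < βc := by linarith
  -- same h
  have hheq : h1 = h2 := by
    rcases lt_trichotomy h1 h2 with hlt | heq | hgt
    · have := hord hβc78 i11 i20 hlt
      rw [hD1, hD0] at this
      linarith
    · exact heq
    · have := hord hβc78 i22 i10 hgt
      rw [hD2, hD0] at this
      linarith
  subst hheq
  obtain ⟨e0, ρ0, he0, hρ0, hs0⟩ := i10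
  obtain ⟨e1, ρ1, he1, hρ1, hs1⟩ := i11
  obtain ⟨e2, ρ2, he2, hρ2, hs2⟩ := i22
  rw [hD0] at hρ0
  rw [hE0] at he0
  rw [hD1] at hρ1
  rw [hE1] at he1
  rw [hD2] at hρ2
  rw [hE2] at he2
  rw [abs_le] at he0 hρ0 he1 hρ1 he2 hρ2
  have hρ0nn : 0 ≤ ρ0 := by
    have h3 := hs0 βc (h1 - 1) hβpos
    have h4 := hmono βc (h1 - 1) h1 hβpos (by linarith)
    linarith
  refine ⟨βc, h1, ![e0, e1, e2], ![ρ0, ρ1, ρ2], by linarith [hβc.1], by linarith [hβc.2], ?_, ?_, ?_, ?_⟩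
  · refine { sub := ?_, lt01 := ?_, lt12 := ?_, indep := ?_ }
    · intro i β h hβ
      fin_cases i
      · simpa using hs0 β h hβ
      · simpa using hs1 β h hβ
      · simpa using hs2 β h hβ
    · simp only [Matrix.cons_val_zero, Matrix.cons_val_one]; linarith
    · simp only [Matrix.cons_val_one, Matrix.cons_val_zero, Matrix.cons_val]; linarith
    · simp only [Matrix.cons_val_zero, Matrix.cons_val_one, Matrix.cons_val]
      exact indep_aux hp hKr hηdef he0.1 he0.2 he1.1 he1.2 he2.1 he2.2 hρ0.1 hρ0.2 hρ1.1 hρ1.2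
        hρ2.1 hρ2.2
  · simpa using hρ0nn
  · simp only [Matrix.cons_val_zero]; linarith
  · simp only [Matrix.cons_val]; linarith

end Crest.Agent.R149
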