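import Crest.Agent.R149.Kernel

/-!
Row 149: properties of the full multi-scale attraction `αi` (module `AttrPropsStmt`).
(helper849)
-/

set_option autoImplicit false

namespace Crest.Agent.R149

open MeasureTheory Metric Set Crest.ProbabilityR.Continuum Filter Topology

namespace AttrP

variable {N : ℕ} {a0 : ℝ}

lemma xk_ge (hN : 4 ≤ N) (k : ℕ) : (4 : ℝ) ^ (k + 1) ≤ (N : ℝ) ^ (2 ^ k) := by
  have hN' : (4 : ℝ) ≤ N := by exact_mod_cast hN
  calc (4 : ℝ) ^ (k + 1) ≤ (N : ℝ) ^ (k + 1) := pow_le_pow_left₀ (by norm_num) hN' _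
    _ ≤ (N : ℝ) ^ (2 ^ k) := by
        apply pow_le_pow_right₀ (by linarith)
        exact Nat.lt_two_pow_self

lemma scR_eq (k : ℕ) : scR N k = ((N : ℝ) ^ (2 ^ k)) ^ 32 := by
  unfold scR; rw [← pow_mul, mul_comm]

lemma scR_ge (hN : 4 ≤ N) (k : ℕ) : 100 ≤ scR N k := by
  rw [scR_eq]
  have h1 : (4 : ℝ) ≤ (N : ℝ) ^ (2 ^ k) := by
    refine le_trans ?_ (xk_ge hN k)
    calc (4 : ℝ) = 4 ^ 1 := by norm_num
      _ ≤ 4 ^ (k + 1) := pow_le_pow_right₀ (by norm_num) (by omega)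
  calc (100 : ℝ) ≤ 4 ^ 32 := by norm_num
    _ ≤ _ := pow_le_pow_left₀ (by norm_num) h1 _

lemma scR_pos (hN : 4 ≤ N) (k : ℕ) : 0 < scR N k := by
  have := scR_ge hN k; linarith

lemma scR_mono (hN : 4 ≤ N) {j k : ℕ} (h : j ≤ k) : scR N j ≤ scR N k := by
  unfold scR
  have hN' : (4 : ℝ) ≤ N := by exact_mod_cast hN
  apply pow_le_pow_right₀ (by linarith)
  exact Nat.mul_le_mul_left _ (Nat.pow_le_pow_right (by norm_num) h)

lemma scA_pos (hN : 4 ≤ N) (ha : 0 < a0) (k : ℕ) : 0 < scA N a0 k := by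
  unfold scA
  have hN' : (4 : ℝ) ≤ N := by exact_mod_cast hN
  split_ifs
  · exact ha
  · have : (0 : ℝ) < N := by linarith
    positivity

lemma scA_nonneg (hN : 4 ≤ N) (ha : 0 < a0) (k : ℕ) : 0 ≤ scA N a0 k := (scA_pos hN ha k).le

lemma scA_succ_le (hN : 4 ≤ N) (k : ℕ) : scA N a0 (k + 1) ≤ (1 / 4) * (1 / 4 : ℝ) ^ (k + 1) := by
  unfold scA
  rw [if_neg (by omega)]
  rw [← pow_succ', one_div, inv_pow]
  apply inv_anti₀ (by positivity)
  exact xk_ge hN (k + 1)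

lemma summable_scA_succ (hN : 4 ≤ N) : Summable (fun k => scA N a0 (k + 1)) := by
  have hN' : (4 : ℝ) ≤ N := by exact_mod_cast hN
  have hs : Summable (fun k : ℕ => (1 / 4) * (1 / 4 : ℝ) ^ (k + 1)) := by
    apply Summable.mul_left
    exact (summable_nat_add_iff 1).2 (summable_geometric_of_lt_one (by norm_num) (by norm_num))
  refine Summable.of_nonneg_of_le (fun k => ?_) (fun k => scA_succ_le hN k) hs
  unfold scA
  rw [if_neg (by omega)]
  positivity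

lemma summable_scA (hN : 4 ≤ N) : Summable (scA N a0) :=
  (summable_nat_add_iff 1).1 (summable_scA_succ hN)

lemma tsum_scA_le (hN : 4 ≤ N) : ∑' k, scA N a0 k ≤ a0 + 1 := by
  rw [(summable_scA hN).tsum_eq_zero_add]
  have h0 : scA N a0 0 = a0 := by simp [scA]
  rw [h0]
  have hs : HasSum (fun k : ℕ => (1 / 4) * (1 / 4 : ℝ) ^ (k + 1)) ((1 / 4) * ((1 / 4) * (1 - 1 / 4)⁻¹)) := by
    apply HasSum.mul_left
    have := (hasSum_geometric_of_lt_one (r := (1 / 4 : ℝ)) (by norm_num) (by norm_num)).mul_left (1 / 4)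
    simpa [pow_succ'] using this
  have h1 : ∑' k, scA N a0 (k + 1) ≤ (1 / 4) * ((1 / 4) * (1 - 1 / 4)⁻¹) := by
    rw [← hs.tsum_eq]
    exact (summable_scA_succ hN).tsum_le_tsum (fun k => scA_succ_le hN k) hs.summable
  have : ((1 / 4 : ℝ) * ((1 / 4) * (1 - 1 / 4)⁻¹)) ≤ 1 := by norm_num
  linarith

lemma wk_nonneg' (R r : ℝ) : 0 ≤ wk R r := kernelProps.nonneg R r

lemma vB_one_pos : 0 < vB 1 := vB_pos one_pos

lemma wk_le_pow {R : ℝ} (hR : 0 < R) (r : ℝ) : wk R r ≤ 1 / (vB 1 * R ^ 3) := by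
  have := kernelProps.le R r hR
  rwa [kernelProps.vB_scale R hR.le, mul_comm (R ^ 3)] at this

lemma wk_le_one {R : ℝ} (hR : 1 ≤ R) (r : ℝ) : wk R r ≤ 1 / vB 1 := by
  refine (wk_le_pow (by linarith) r).trans ?_
  apply one_div_le_one_div_of_le vB_one_pos
  have : 1 ≤ R ^ 3 := one_le_pow₀ hR
  nlinarith [vB_one_pos]

lemma term_nonneg (hN : 4 ≤ N) (ha : 0 < a0) (k : ℕ) (r : ℝ) :
    0 ≤ scA N a0 k * wk (scR N k) r :=
  mul_nonneg (scA_nonneg hN ha k) (wk_nonneg' _ _)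

lemma term_le (hN : 4 ≤ N) (ha : 0 < a0) (k : ℕ) (r : ℝ) :
    scA N a0 k * wk (scR N k) r ≤ scA N a0 k * (1 / vB 1) :=
  mul_le_mul_of_nonneg_left (wk_le_one (by linarith [scR_ge hN k]) r) (scA_nonneg hN ha k)

lemma summable_term (hN : 4 ≤ N) (ha : 0 < a0) (r : ℝ) :
    Summable (fun k => scA N a0 k * wk (scR N k) r) :=
  Summable.of_nonneg_of_le (fun k => term_nonneg hN ha k r) (fun k => term_le hN ha k r)
    ((summable_scA hN).mul_right _)

lemma measurable_wk {R : ℝ} (hR : 0 < R) : Measurable (wk R) := (kernelProps.cont R hR).measurable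

lemma αi_nonneg (hN : 4 ≤ N) (ha : 0 < a0) (r : ℝ) : 0 ≤ αi N a0 r :=
  tsum_nonneg fun k => term_nonneg hN ha k r

lemma continuous_αi (hN : 4 ≤ N) (ha : 0 < a0) : Continuous (αi N a0) := by
  unfold αi
  apply continuous_tsum (u := fun k => scA N a0 k * (1 / vB 1))
  · intro k
    exact continuous_const.mul (kernelProps.cont _ (scR_pos hN k))
  · exact (summable_scA hN).mul_right _
  · intro k r
    rw [Real.norm_eq_abs, abs_of_nonneg (term_nonneg hN ha k r)]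
    exact term_le hN ha k r

lemma αi_le (hN : 4 ≤ N) (ha : 0 < a0) (r : ℝ) : αi N a0 r ≤ ∑' k, scA N a0 k * (1 / vB 1) :=
  (summable_term hN ha r).tsum_le_tsum (fun k => term_le hN ha k r)
    ((summable_scA hN).mul_right _)

lemma αk_le_αi (hN : 4 ≤ N) (ha : 0 < a0) (k : ℕ) (r : ℝ) : αk N a0 k r ≤ αi N a0 r :=
  (summable_term hN ha r).sum_le_tsum _ (fun j _ => term_nonneg hN ha j r)

lemma αk_nonneg (hN : 4 ≤ N) (ha : 0 < a0) (k : ℕ) (r : ℝ) : 0 ≤ αk N a0 k r :=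
  Finset.sum_nonneg fun j _ => term_nonneg hN ha j r

lemma okk (hN : 4 ≤ N) (ha : 0 < a0) (k : ℕ) : AttrOK (αk N a0 k) where
  meas := by
    unfold αk
    exact Finset.measurable_sum _ fun j _ =>
      (measurable_wk (scR_pos hN j)).const_mul _
  nonneg r := αk_nonneg hN ha k r
  bdd := ⟨_, fun r => (αk_le_αi hN ha k r).trans (αi_le hN ha r)⟩

/-! ### the functional `A` -/

lemma A_mul {ι : Type} [Fintype ι] (c : ℝ) (g : ℝ → ℝ) (x : ι → Pt) :
    A (fun r => c * g r) x = c * A g x := by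
  unfold A SS
  simp_rw [← Finset.mul_sum]
  ring

lemma A_αk {ι : Type} [Fintype ι] (k : ℕ) (x : ι → Pt) :
    A (αk N a0 k) x = ∑ j ∈ Finset.range k, scA N a0 j * A (wk (scR N j)) x := by
  unfold A SS αk
  rw [Finset.sum_congr rfl fun i _ => Finset.sum_comm, Finset.sum_comm, Finset.sum_div]
  apply Finset.sum_congr rfl
  intro j _
  rw [Finset.sum_congr rfl fun i _ => (Finset.mul_sum _ _ _).symm, ← Finset.mul_sum]
  ring

lemma hasSum_A_αi (hN : 4 ≤ N) (ha : 0 < a0) {ι : Type} [Fintype ι] (x : ι → Pt) :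
    HasSum (fun j => scA N a0 j * A (wk (scR N j)) x) (A (αi N a0) x) := by
  have h1 : HasSum (fun k => ∑ i, ∑ j, scA N a0 k * wk (scR N k) (dist (x i) (x j)))
      (∑ i, ∑ j, αi N a0 (dist (x i) (x j))) :=
    hasSum_sum fun i _ => hasSum_sum fun j _ => (summable_term hN ha _).hasSum
  have h2 := h1.div_const 2
  unfold A SS
  refine h2.congr_fun ?_
  intro k
  rw [Finset.sum_congr rfl fun i _ => (Finset.mul_sum _ _ _).symm, ← Finset.mul_sum]
  ring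

lemma N2_nonneg {ι : Type} [Fintype ι] (s : ℝ) (z : Fin 3 → ℝ) (x : ι → Pt) : 0 ≤ N2 s z x := by
  classical
  unfold N2
  exact Finset.sum_nonneg fun i _ => Finset.sum_nonneg fun j _ => by split_ifs <;> norm_num

lemma A_wk_le (hE2 : E2Stmt) {R : ℝ} (hR : 100 ≤ R) {ι : Type} [Fintype ι] (x : ι → Pt) :
    A (wk R) x ≤ 8 * N2 (1 / 2) 0 x := by
  have hR0 : 0 < R := by linarith
  refine (hE2 R (1 / 2) 0 hR0 (by norm_num) ι x).trans ?_
  apply mul_le_mul_of_nonneg_right _ (N2_nonneg _ _ _)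
  have h1 : (1 + 2 * (1 / 2) / R) ≤ 101 / 100 := by
    have : 2 * (1 / 2) / R ≤ 1 / 100 := by
      rw [div_le_div_iff₀ hR0 (by norm_num)]; linarith
    linarith
  have h0 : 0 ≤ (1 + 2 * (1 / 2) / R) := by positivity
  have h2 : (1 + 2 * (1 / 2) / R) ^ 6 ≤ (101 / 100 : ℝ) ^ 6 := pow_le_pow_left₀ h0 h1 6
  have h3 : (101 / 100 : ℝ) ^ 6 ≤ 2 := by norm_num
  have h4 : (1 + 2 * (1 / 2) / R) ^ 6 ≤ 2 := h2.trans h3
  calc (1 + 2 * (1 / 2) / R) ^ 6 / (2 * (1 / 2) ^ 3) ≤ 2 / (2 * (1 / 2) ^ 3) := by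
        apply div_le_div_of_nonneg_right h4 (by norm_num)
    _ = 8 := by norm_num

lemma A_nonneg {ι : Type} [Fintype ι] {g : ℝ → ℝ} (hg : ∀ r, 0 ≤ g r) (x : ι → Pt) : 0 ≤ A g x := by
  unfold A SS
  have : 0 ≤ ∑ i, ∑ j, g (dist (x i) (x j)) :=
    Finset.sum_nonneg fun i _ => Finset.sum_nonneg fun j _ => hg _
  linarith

lemma bound (hE2 : E2Stmt) (hN : 4 ≤ N) (ha : 0 < a0) : AttrBound (αi N a0) (8 * (a0 + 1)) := by
  refine ⟨by linarith, fun ι _ x => ?_⟩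
  have h1 := hasSum_A_αi hN ha x
  rw [← h1.tsum_eq]
  have h2 : ∀ j, scA N a0 j * A (wk (scR N j)) x ≤ scA N a0 j * (8 * N2 (1 / 2) 0 x) := fun j =>
    mul_le_mul_of_nonneg_left (A_wk_le hE2 (scR_ge hN j) x) (scA_nonneg hN ha j)
  refine (h1.summable.tsum_le_tsum h2 ((summable_scA hN).mul_right _)).trans ?_
  rw [tsum_mul_right]
  have h3 := tsum_scA_le (N := N) (a0 := a0) hN
  have h4 := N2_nonneg (1 / 2) 0 x
  nlinarith

lemma tail (hE2 : E2Stmt) (hN : 4 ≤ N) (ha : 0 < a0) :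
    ∃ τ : ℕ → ℝ, (∀ k, 0 ≤ τ k) ∧ Tendsto τ atTop (𝓝 0) ∧
    ∀ (k : ℕ) (ι : Type) [Fintype ι] (x : ι → Pt),
      A (αi N a0) x ≤ A (αk N a0 k) x + τ k * N2 (1 / 2) 0 x := by
  refine ⟨fun k => (∑' j, scA N a0 (j + k)) * 8, ?_, ?_, ?_⟩
  · intro k
    have : 0 ≤ ∑' j, scA N a0 (j + k) := tsum_nonneg fun j => scA_nonneg hN ha _
    positivity
  · have := (tendsto_sum_nat_add (scA N a0)).mul_const 8
    simpa using this
  · intro k ι _ x
    have h1 := hasSum_A_αi hN ha x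
    rw [← h1.tsum_eq, A_αk, ← h1.summable.sum_add_tsum_nat_add k]
    have h2 : ∀ j, scA N a0 (j + k) * A (wk (scR N (j + k))) x
        ≤ scA N a0 (j + k) * (8 * N2 (1 / 2) 0 x) := fun j =>
      mul_le_mul_of_nonneg_left (A_wk_le hE2 (scR_ge hN _) x) (scA_nonneg hN ha _)
    have h3 := ((summable_nat_add_iff k).2 h1.summable).tsum_le_tsum h2
      (((summable_nat_add_iff k).2 (summable_scA hN)).mul_right _)
    rw [tsum_mul_right] at h3
    linarith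

/-! ### decay -/

lemma xk_succ (k : ℕ) : (N : ℝ) ^ (2 ^ (k + 1)) = ((N : ℝ) ^ (2 ^ k)) ^ 2 := by
  rw [← pow_mul, pow_succ]

lemma xk_add_ge (hN : 4 ≤ N) (j i : ℕ) :
    (4 : ℝ) ^ i * (N : ℝ) ^ (2 ^ j) ≤ (N : ℝ) ^ (2 ^ (j + i)) := by
  induction i with
  | zero => simp
  | succ i ih =>
    have h4 : (4 : ℝ) ≤ (N : ℝ) ^ (2 ^ (j + i)) := by
      refine le_trans ?_ (xk_ge hN (j + i))
      calc (4 : ℝ) = 4 ^ 1 := by norm_num
        _ ≤ 4 ^ (j + i + 1) := pow_le_pow_right₀ (by norm_num) (by omega)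
    have : (N : ℝ) ^ (2 ^ (j + (i + 1))) = ((N : ℝ) ^ (2 ^ (j + i))) ^ 2 := by
      rw [← add_assoc, xk_succ]
    rw [this, pow_succ]
    nlinarith

lemma decay (hN : 4 ≤ N) (ha : 0 < a0) :
    ∃ C : ℝ, ∀ r, 1 ≤ r → αi N a0 r ≤ C * r ^ (-(3 + 1 / 32 : ℝ)) := by
  have hN' : (4 : ℝ) ≤ N := by exact_mod_cast hN
  have hN0 : (0 : ℝ) < N := by linarith
  set D : ℝ := (a0 * N + 1) / vB 1 with hD
  have hD0 : 0 ≤ D := by have := vB_one_pos; positivity
  refine ⟨D * (2 * 2 ^ (3 + 1 / 32 : ℝ)), fun r hr => ?_⟩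
  have hr0 : 0 < r := by linarith
  -- termwise bound
  have hterm : ∀ j, scA N a0 j * wk (scR N j) r ≤ D * ((N : ℝ) ^ (2 ^ j))⁻¹ ^ 97 := by
    intro j
    have hx : 0 < (N : ℝ) ^ (2 ^ j) := by positivity
    have h1 : wk (scR N j) r ≤ 1 / (vB 1 * (scR N j) ^ 3) := wk_le_pow (scR_pos hN j) r
    have h2 : scA N a0 j ≤ (a0 * N + 1) * ((N : ℝ) ^ (2 ^ j))⁻¹ := by
      unfold scA
      split_ifs with hj
      · subst hj
        simp only [pow_zero, pow_one]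
        rw [add_mul, mul_assoc, mul_inv_cancel₀ hN0.ne']
        have : 0 ≤ 1 * (N : ℝ)⁻¹ := by positivity
        linarith
      · have : 1 ≤ a0 * N + 1 := by nlinarith
        have h0 : 0 ≤ ((N : ℝ) ^ (2 ^ j))⁻¹ := by positivity
        nlinarith
    calc scA N a0 j * wk (scR N j) r
        ≤ ((a0 * N + 1) * ((N : ℝ) ^ (2 ^ j))⁻¹) * (1 / (vB 1 * (scR N j) ^ 3)) := by
          apply mul_le_mul h2 h1 (wk_nonneg' _ _)
          positivity
      _ = D * ((N : ℝ) ^ (2 ^ j))⁻¹ ^ 97 := by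
          rw [scR_eq, hD]
          have := vB_one_pos.ne'
          field_simp
  -- vanishing
  have hvan : ∀ j, 2 * scR N j ≤ r → scA N a0 j * wk (scR N j) r = 0 := by
    intro j hj
    rw [kernelProps.far _ _ (scR_pos hN j) hj, mul_zero]
  -- first scale exceeding r/2
  have hex : ∃ j, r < 2 * scR N j := by
    obtain ⟨n, hn⟩ := pow_unbounded_of_one_lt r (by norm_num : (1 : ℝ) < 4)
    refine ⟨n, hn.trans_le ?_⟩
    have h1 := xk_ge hN n
    have h2 : (4 : ℝ) ^ n ≤ 4 ^ (n + 1) := pow_le_pow_right₀ (by norm_num) (by omega)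
    have h3 : (N : ℝ) ^ (2 ^ n) ≤ scR N n := by
      rw [scR_eq]
      have : (1 : ℝ) ≤ (N : ℝ) ^ (2 ^ n) := one_le_pow₀ (by linarith)
      exact le_self_pow₀ this (by norm_num)
    have h4 := scR_pos hN n
    linarith
  classical
  set j0 := Nat.find hex with hj0
  have hj0lt : r < 2 * scR N j0 := Nat.find_spec hex
  have hj0min : ∀ j, j < j0 → 2 * scR N j ≤ r := fun j hj => not_lt.1 (Nat.find_min hex hj)
  set M : ℝ := D * ((N : ℝ) ^ (2 ^ j0))⁻¹ ^ 97 with hM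
  have hM0 : 0 ≤ M := by positivity
  have hsum := summable_term hN ha r
  have hsplit : αi N a0 r = ∑' i, scA N a0 (i + j0) * wk (scR N (i + j0)) r := by
    unfold αi
    rw [← hsum.sum_add_tsum_nat_add j0]
    rw [Finset.sum_eq_zero, zero_add]
    intro j hj
    exact hvan j (hj0min j (Finset.mem_range.1 hj))
  have hgeo : HasSum (fun i : ℕ => M * (1 / 2 : ℝ) ^ i) (M * 2) := by
    have := (hasSum_geometric_two).mul_left M
    simpa using this
  have hle : ∀ i, scA N a0 (i + j0) * wk (scR N (i + j0)) r ≤ M * (1 / 2 : ℝ) ^ i := by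
    intro i
    refine (hterm (i + j0)).trans ?_
    rw [hM, mul_assoc]
    apply mul_le_mul_of_nonneg_left _ hD0
    have hx : 0 < (N : ℝ) ^ (2 ^ j0) := by positivity
    have h1 := xk_add_ge hN j0 i
    rw [add_comm j0 i] at h1
    have h2 : ((N : ℝ) ^ (2 ^ (i + j0)))⁻¹ ≤ ((N : ℝ) ^ (2 ^ j0))⁻¹ * (1 / 4) ^ i := by
      rw [one_div, inv_pow, ← mul_inv]
      apply inv_anti₀ (by positivity)
      linarith
    calc ((N : ℝ) ^ (2 ^ (i + j0)))⁻¹ ^ 97
        ≤ (((N : ℝ) ^ (2 ^ j0))⁻¹ * (1 / 4) ^ i) ^ 97 :=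
          pow_le_pow_left₀ (by positivity) h2 _
      _ = ((N : ℝ) ^ (2 ^ j0))⁻¹ ^ 97 * ((1 / 4 : ℝ) ^ i) ^ 97 := by rw [mul_pow]
      _ ≤ ((N : ℝ) ^ (2 ^ j0))⁻¹ ^ 97 * (1 / 2) ^ i := by
          apply mul_le_mul_of_nonneg_left _ (by positivity)
          calc ((1 / 4 : ℝ) ^ i) ^ 97 ≤ ((1 / 4 : ℝ) ^ i) ^ 1 := by
                apply pow_le_pow_of_le_one (by positivity) _ (by norm_num)
                exact pow_le_one₀ (by norm_num) (by norm_num)
            _ = (1 / 4 : ℝ) ^ i := by rw [pow_one]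
            _ ≤ (1 / 2) ^ i := pow_le_pow_left₀ (by norm_num) (by norm_num) _
  have hsum' : Summable (fun i => scA N a0 (i + j0) * wk (scR N (i + j0)) r) :=
    (summable_nat_add_iff j0).2 hsum
  have h5 : αi N a0 r ≤ M * 2 := by
    rw [hsplit, ← hgeo.tsum_eq]
    exact hsum'.tsum_le_tsum hle hgeo.summable
  -- compare x_{j0}^{-97} with r^{-97/32}
  have hxr : ((N : ℝ) ^ (2 ^ j0))⁻¹ ^ 97 ≤ 2 ^ (3 + 1 / 32 : ℝ) * r ^ (-(3 + 1 / 32 : ℝ)) := by
    set X : ℝ := (N : ℝ) ^ (2 ^ j0) with hX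
    have hX0 : 0 < X := by positivity
    have h6 : r < 2 * X ^ 32 := by rw [hX, ← scR_eq]; exact hj0lt
    have h7 : r ^ (3 + 1 / 32 : ℝ) ≤ (2 * X ^ 32) ^ (3 + 1 / 32 : ℝ) :=
      Real.rpow_le_rpow hr0.le h6.le (by norm_num)
    have h8 : (2 * X ^ 32) ^ (3 + 1 / 32 : ℝ) = 2 ^ (3 + 1 / 32 : ℝ) * X ^ 97 := by
      rw [Real.mul_rpow (by norm_num) (by positivity)]
      congr 1
      rw [← Real.rpow_natCast X 32, ← Real.rpow_mul hX0.le, ← Real.rpow_natCast X 97]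
      norm_num
    rw [h8] at h7
    rw [Real.rpow_neg hr0.le, inv_pow]
    have hrp : 0 < r ^ (3 + 1 / 32 : ℝ) := Real.rpow_pos_of_pos hr0 _
    rw [inv_eq_one_div, ← div_eq_mul_inv, div_le_div_iff₀ (by positivity) hrp]
    linarith
  calc αi N a0 r ≤ M * 2 := h5
    _ = D * ((N : ℝ) ^ (2 ^ j0))⁻¹ ^ 97 * 2 := by rw [hM]
    _ ≤ D * (2 ^ (3 + 1 / 32 : ℝ) * r ^ (-(3 + 1 / 32 : ℝ))) * 2 := by
        apply mul_le_mul_of_nonneg_right _ (by norm_num)
        exact mul_le_mul_of_nonneg_left hxr hD0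
    _ = D * (2 * 2 ^ (3 + 1 / 32 : ℝ)) * r ^ (-(3 + 1 / 32 : ℝ)) := by ring

end AttrP

open AttrP in
/-- **Module `AttrPropsStmt`.** -/
theorem attrProps (hE2 : E2Stmt) : AttrPropsStmt := by
  intro N a0 hN ha
  refine
    { ok := ⟨(continuous_αi hN ha).measurable, αi_nonneg hN ha, ⟨_, αi_le hN ha⟩⟩
      okk := okk hN ha
      cont := continuous_αi hN ha
      le := αk_le_αi hN ha
      farR := ?_
      decay := decay hN ha
      pos := ?_
      bound := bound hE2 hN ha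
      tail := tail hE2 hN ha }
  · intro k r hr
    unfold αk
    apply Finset.sum_eq_zero
    intro j hj
    have hjk : j ≤ k := Nat.lt_succ_iff.1 (Finset.mem_range.1 hj)
    rw [kernelProps.far _ _ (scR_pos hN j) (by linarith [scR_mono hN hjk]), mul_zero]
  · have hR := scR_ge hN 0
    have hv := kernelProps.vB_pos _ (scR_pos hN 0)
    have hv1 := vB_one_pos
    have h15 : 0 < scR N 0 - 3 / 2 := by linarith
    refine ⟨a0 * ((scR N 0 - 3 / 2) ^ 3 * vB 1 / (vB (scR N 0)) ^ 2), by positivity, ?_⟩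
    intro r hr2 hr3
    have h1 := kernelProps.pos (scR N 0) r (by linarith) (by linarith) hr3
    have h2 : scA N a0 0 * wk (scR N 0) r ≤ αi N a0 r :=
      (summable_term hN ha r).le_tsum 0 (fun j _ => term_nonneg hN ha j r)
    have h0 : scA N a0 0 = a0 := by simp [scA]
    rw [h0] at h2
    exact (mul_le_mul_of_nonneg_left h1 ha.le).trans h2

end Crest.Agent.R149
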