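import Crest.Agent.R149.Stmts

/-!
Deterministic bounds for the attraction of the multi-scale Kac potential (row 149):
`e1 : KernelProps → E1Stmt`, `e2 : KernelProps → E2Stmt`, `decouple : DecoupleStmt`.
-/

set_option autoImplicit false

namespace Crest.Agent.R149.Attraction

open MeasureTheory Crest.ProbabilityR.Continuum

/-! ### shifted grids -/

theorem card_sep_le_aux (n : ℕ) (hn : 0 < n) (u v : ℝ) (huv : u ≤ v) :
    (((Finset.univ : Finset (Fin n)).filter
      (fun m : Fin n => ⌊(u + (m : ℕ)) / n⌋ ≠ ⌊(v + (m : ℕ)) / n⌋)).card : ℝ) ≤ v - u + 1 := by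
  have hn' : (0 : ℝ) < n := by exact_mod_cast hn
  have h1 : ((Finset.univ : Finset (Fin n)).filter
      (fun m : Fin n => ⌊(u + (m : ℕ)) / n⌋ ≠ ⌊(v + (m : ℕ)) / n⌋)).card ≤ (Finset.Ioc ⌊u⌋ ⌊v⌋).card := by
    apply Finset.card_le_card_of_injOn
      (fun m : Fin n => (n : ℤ) * ⌊(v + (m : ℕ)) / n⌋ - ((m : ℕ) : ℤ))
    · intro m hm
      rw [Finset.mem_coe, Finset.mem_filter] at hm
      obtain ⟨_, hs2⟩ := hm
      have hle : ⌊(u + (m : ℕ)) / n⌋ ≤ ⌊(v + (m : ℕ)) / n⌋ := by
        apply Int.floor_le_floor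
        gcongr
      have hlt : ⌊(u + (m : ℕ)) / n⌋ < ⌊(v + (m : ℕ)) / n⌋ := lt_of_le_of_ne hle hs2
      rw [Finset.mem_coe, Finset.mem_Ioc]
      constructor
      · rw [Int.floor_lt]
        push_cast
        rw [Int.floor_lt, div_lt_iff₀ hn'] at hlt
        linarith
      · rw [Int.le_floor]
        push_cast
        have := Int.floor_le ((v + (m : ℕ)) / n)
        rw [le_div_iff₀ hn'] at this
        linarith
    · intro m _ m' _ h
      have h2 : (((m : ℕ) : ℤ) - ((m' : ℕ) : ℤ)) =
          (n : ℤ) * (⌊(v + (m : ℕ)) / n⌋ - ⌊(v + (m' : ℕ)) / n⌋) := by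
        have : (n : ℤ) * ⌊(v + (m : ℕ)) / n⌋ - ((m : ℕ) : ℤ) =
          (n : ℤ) * ⌊(v + (m' : ℕ)) / n⌋ - ((m' : ℕ) : ℤ) := h
        linarith
      have h3 : (n : ℤ) ∣ (((m : ℕ) : ℤ) - ((m' : ℕ) : ℤ)) := ⟨_, h2⟩
      have h4 : |((m : ℕ) : ℤ) - ((m' : ℕ) : ℤ)| < n := by
        have := m.2
        have := m'.2
        rw [abs_lt]
        constructor <;> omega
      have h5 := Int.eq_zero_of_abs_lt_dvd h3 h4
      apply Fin.ext
      omega
  have h2 : ((Finset.Ioc ⌊u⌋ ⌊v⌋).card : ℝ) ≤ v - u + 1 := by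
    rw [Int.card_Ioc]
    have h3 : (0 : ℤ) ≤ ⌊v⌋ - ⌊u⌋ := by
      have := Int.floor_le_floor huv
      omega
    have h4 : (((⌊v⌋ - ⌊u⌋).toNat : ℤ) : ℝ) = ((⌊v⌋ - ⌊u⌋ : ℤ) : ℝ) := by
      rw [Int.toNat_of_nonneg h3]
    have h5 : (((⌊v⌋ - ⌊u⌋).toNat : ℕ) : ℝ) = ((⌊v⌋ - ⌊u⌋ : ℤ) : ℝ) := by
      exact_mod_cast h4
    rw [h5]
    push_cast
    have := Int.floor_le v
    have := Int.lt_floor_add_one u
    linarith
  have h3 : (((Finset.univ : Finset (Fin n)).filter
      (fun m : Fin n => ⌊(u + (m : ℕ)) / n⌋ ≠ ⌊(v + (m : ℕ)) / n⌋)).card : ℝ) ≤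
      ((Finset.Ioc ⌊u⌋ ⌊v⌋).card : ℝ) := by exact_mod_cast h1
  exact h3.trans h2

theorem card_sep_le (n : ℕ) (hn : 0 < n) (u v : ℝ) :
    (((Finset.univ : Finset (Fin n)).filter
      (fun m : Fin n => ⌊(u + (m : ℕ)) / n⌋ ≠ ⌊(v + (m : ℕ)) / n⌋)).card : ℝ) ≤ |u - v| + 1 := by
  rcases le_total u v with h | h
  · have := card_sep_le_aux n hn u v h
    rw [abs_sub_comm, abs_of_nonneg (sub_nonneg.mpr h)]
    exact this
  · have := card_sep_le_aux n hn v u h
    rw [abs_of_nonneg (sub_nonneg.mpr h)]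
    simpa only [ne_comm] using this

theorem abs_coord_sub_le_dist (x y : Pt) (k : Fin 3) : |x k - y k| ≤ dist x y := by
  rw [EuclideanSpace.dist_eq]
  apply Real.le_sqrt_of_sq_le
  rw [sq_abs]
  have : (x k - y k) ^ 2 = dist (x k) (y k) ^ 2 := by rw [Real.dist_eq, sq_abs]
  rw [this]
  exact Finset.single_le_sum (f := fun i => dist (x i) (y i) ^ 2) (fun i _ => by positivity)
    (Finset.mem_univ k)

theorem sum_abs_coord_le (x y : Pt) : ∑ k, |x k - y k| ≤ 2 * dist x y := by
  rw [EuclideanSpace.dist_eq]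
  have h1 : (∑ k : Fin 3, |x k - y k|) ^ 2 ≤ 3 * ∑ k : Fin 3, |x k - y k| ^ 2 := by
    have := sq_sum_le_card_mul_sum_sq (s := (Finset.univ : Finset (Fin 3)))
      (f := fun k => |x k - y k|)
    simpa using this
  have h2 : ∑ k : Fin 3, |x k - y k| ^ 2 = ∑ k : Fin 3, dist (x k) (y k) ^ 2 := by
    apply Finset.sum_congr rfl
    intro k _
    rw [Real.dist_eq]
  rw [h2] at h1
  set S := ∑ k : Fin 3, dist (x k) (y k) ^ 2 with hS
  have hS0 : 0 ≤ S := Finset.sum_nonneg (fun _ _ => by positivity)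
  apply abs_le_of_sq_le_sq' _ (by positivity) |>.2
  rw [mul_pow, Real.sq_sqrt hS0]
  linarith

/-- the number of shifts which put `x` and `y` into the same cell -/
theorem card_same_ge (n : ℕ) (hn : 0 < n) (x y : Pt) :
    (n : ℝ) ^ 3 - n ^ 2 * (2 * dist x y + 3) ≤
      (((Finset.univ : Finset (Fin 3 → Fin n)).filter (fun z =>
        cell n (fun k => ((z k : ℕ) : ℝ)) x = cell n (fun k => ((z k : ℕ) : ℝ)) y)).card : ℝ) := by
  classical
  set G := (Finset.univ : Finset (Fin 3 → Fin n)).filter (fun z =>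
        cell n (fun k => ((z k : ℕ) : ℝ)) x = cell n (fun k => ((z k : ℕ) : ℝ)) y) with hG
  set Bad : Fin 3 → Finset (Fin n) := fun k => (Finset.univ : Finset (Fin n)).filter
      (fun m : Fin n => ⌊(x k + (m : ℕ)) / n⌋ ≠ ⌊(y k + (m : ℕ)) / n⌋) with hBad
  set F : Fin 3 → Finset (Fin 3 → Fin n) := fun k =>
    (Finset.univ : Finset (Fin 3 → Fin n)).filter (fun z => z k ∈ Bad k) with hF
  have hFcard : ∀ k, ((F k).card : ℝ) = n ^ 2 * (Bad k).card := by
    intro k
    have h1 : F k = Fintype.piFinset (fun j => if j = k then Bad k else Finset.univ) := by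
      ext z
      rw [hF, Finset.mem_filter, Fintype.mem_piFinset]
      constructor
      · rintro ⟨_, h⟩ j
        by_cases hj : j = k
        · subst hj; simpa using h
        · simp [hj]
      · intro h
        refine ⟨Finset.mem_univ _, ?_⟩
        have := h k
        simpa using this
    rw [h1, Fintype.card_piFinset]
    push_cast
    have h2 : ∀ j : Fin 3, (((if j = k then Bad k else Finset.univ : Finset (Fin n)).card : ℕ) : ℝ)
        = if j = k then ((Bad k).card : ℝ) else n := by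
      intro j
      by_cases hj : j = k <;> simp [hj]
    rw [Finset.prod_congr rfl (fun j _ => h2 j),
      ← Finset.mul_prod_erase Finset.univ _ (Finset.mem_univ k), if_pos rfl,
      Finset.prod_congr rfl (fun j hj => if_neg (Finset.ne_of_mem_erase hj)), Finset.prod_const,
      Finset.card_erase_of_mem (Finset.mem_univ k), Finset.card_univ, Fintype.card_fin]
    ring
  have hFle : ∀ k, ((F k).card : ℝ) ≤ n ^ 2 * (|x k - y k| + 1) := by
    intro k
    rw [hFcard k]
    apply mul_le_mul_of_nonneg_left _ (by positivity)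
    exact card_sep_le n hn (x k) (y k)
  have hcover : (Finset.univ : Finset (Fin 3 → Fin n)) ⊆
      G ∪ (Finset.univ : Finset (Fin 3)).biUnion F := by
    intro z _
    rw [Finset.mem_union, Finset.mem_biUnion]
    by_cases h : z ∈ G
    · exact Or.inl h
    · right
      rw [hG, Finset.mem_filter] at h
      by_contra hcon
      apply h
      refine ⟨Finset.mem_univ _, ?_⟩
      funext k
      by_contra hk
      apply hcon
      refine ⟨k, Finset.mem_univ _, ?_⟩
      rw [hF, Finset.mem_filter]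
      refine ⟨Finset.mem_univ _, ?_⟩
      rw [hBad, Finset.mem_filter]
      exact ⟨Finset.mem_univ _, hk⟩
  have h1 := (Finset.card_le_card hcover).trans
    ((Finset.card_union_le _ _).trans (Nat.add_le_add_left Finset.card_biUnion_le _))
  rw [Finset.card_univ, Fintype.card_fun, Fintype.card_fin, Fintype.card_fin] at h1
  have h2 : (n : ℝ) ^ 3 ≤ G.card + ∑ k, ((F k).card : ℝ) := by exact_mod_cast h1
  have h3 : ∑ k, ((F k).card : ℝ) ≤ n ^ 2 * (2 * dist x y + 3) := by
    calc ∑ k, ((F k).card : ℝ) ≤ ∑ k, (n : ℝ) ^ 2 * (|x k - y k| + 1) :=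
          Finset.sum_le_sum (fun k _ => hFle k)
      _ = n ^ 2 * (∑ k, |x k - y k| + 3) := by
          rw [← Finset.mul_sum, Finset.sum_add_distrib]
          simp
      _ ≤ n ^ 2 * (2 * dist x y + 3) := by
          have := sum_abs_coord_le x y
          gcongr
  linarith

theorem decouple : DecoupleStmt := by
  intro α r ℓ hα hr hsupp hℓ ι _ x
  have hℓ' : (0 : ℝ) < ℓ := by exact_mod_cast hℓ
  have key : ∀ i j : ι, (1 - (2 * r + 3) / ℓ) * α (dist (x i) (x j)) * ℓ ^ 3 ≤
      ∑ z : Fin 3 → Fin ℓ, if cell ℓ (fun k => ((z k : ℕ) : ℝ)) (x i) =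
        cell ℓ (fun k => ((z k : ℕ) : ℝ)) (x j) then α (dist (x i) (x j)) else 0 := by
    intro i j
    rw [← Finset.sum_filter, Finset.sum_const, nsmul_eq_mul]
    by_cases h0 : α (dist (x i) (x j)) = 0
    · rw [h0]; simp
    · have hlt : dist (x i) (x j) < r := by
        by_contra hcon
        exact h0 (hsupp _ (not_lt.mp hcon))
      have h1 := card_same_ge ℓ hℓ (x i) (x j)
      have h2 : (1 - (2 * r + 3) / ℓ) * α (dist (x i) (x j)) * ℓ ^ 3 =
          ((ℓ : ℝ) ^ 3 - ℓ ^ 2 * (2 * r + 3)) * α (dist (x i) (x j)) := by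
        field_simp
      rw [h2]
      apply mul_le_mul_of_nonneg_right _ (hα _)
      refine le_trans ?_ h1
      have : (ℓ : ℝ) ^ 2 * (2 * dist (x i) (x j) + 3) ≤ ℓ ^ 2 * (2 * r + 3) := by gcongr
      linarith
  rw [le_div_iff₀ (by positivity)]
  rw [← Finset.sum_div]
  have h3 : (1 - (2 * r + 3) / ℓ) * A α x * ℓ ^ 3 =
      (∑ i, ∑ j, (1 - (2 * r + 3) / ℓ) * α (dist (x i) (x j)) * ℓ ^ 3) / 2 := by
    simp only [A, SS, ← Finset.mul_sum, ← Finset.sum_mul]
    ring
  rw [h3]
  have h4 : ∑ z : Fin 3 → Fin ℓ, SC α ℓ (fun k => ((z k : ℕ) : ℝ)) x =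
      ∑ i, ∑ j, ∑ z : Fin 3 → Fin ℓ, if cell ℓ (fun k => ((z k : ℕ) : ℝ)) (x i) =
        cell ℓ (fun k => ((z k : ℕ) : ℝ)) (x j) then α (dist (x i) (x j)) else 0 := by
    simp only [SC]
    rw [Finset.sum_comm]
    apply Finset.sum_congr rfl
    intro i _
    rw [Finset.sum_comm]
  rw [h4]
  apply div_le_div_of_nonneg_right _ (by norm_num)
  exact Finset.sum_le_sum (fun i _ => Finset.sum_le_sum (fun j _ => key i j))

/-! ### overlaps of balls -/

/-- overlap volume of two balls of radius `R` -/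
noncomputable def ov (R : ℝ) (x y : Pt) : ℝ :=
  volume.real (Metric.closedBall x R ∩ Metric.closedBall y R)

theorem vB_nonneg (R : ℝ) : 0 ≤ vB R := ENNReal.toReal_nonneg

theorem vB_eq_closedBall (R : ℝ) (x : Pt) : volume.real (Metric.closedBall x R) = vB R := by
  rw [vB, Measure.real, Measure.addHaar_closedBall_center]

theorem ov_le (R : ℝ) (x y : Pt) : ov R x y ≤ vB R := by
  rw [← vB_eq_closedBall R x]
  exact measureReal_mono Set.inter_subset_left measure_closedBall_lt_top.ne

section counting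

variable {ι : Type} [Fintype ι]

/-- number of particles at distance `≤ R` from `z` -/
noncomputable def cnt (R : ℝ) (x : ι → Pt) (z : Pt) : ℝ :=
  ∑ i, (Metric.closedBall (x i) R).indicator (fun _ => (1 : ℝ)) z

theorem integrable_ind (R : ℝ) (x : Pt) :
    Integrable ((Metric.closedBall x R).indicator (fun _ => (1 : ℝ))) (volume : Measure Pt) := by
  rw [integrable_indicator_iff Metric.isClosed_closedBall.measurableSet]
  exact integrableOn_const measure_closedBall_lt_top.ne

theorem integral_cnt (R : ℝ) (x : ι → Pt) : ∫ z, cnt R x z = Fintype.card ι * vB R := by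
  unfold cnt
  rw [integral_finsetSum _ (fun i _ => integrable_ind R (x i))]
  simp only [integral_indicator_const _ Metric.isClosed_closedBall.measurableSet, vB_eq_closedBall,
    smul_eq_mul, mul_one, Finset.sum_const, Finset.card_univ, nsmul_eq_mul]

theorem integrable_cnt (R : ℝ) (x : ι → Pt) : Integrable (cnt R x) :=
  integrable_finsetSum _ (fun i _ => integrable_ind R (x i))

theorem cnt_sq (R : ℝ) (x : ι → Pt) (z : Pt) :
    cnt R x z ^ 2 = ∑ i, ∑ j, (Metric.closedBall (x i) R ∩ Metric.closedBall (x j) R).indicator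
      (fun _ => (1 : ℝ)) z := by
  rw [cnt, sq, Finset.sum_mul_sum]
  apply Finset.sum_congr rfl
  intro i _
  apply Finset.sum_congr rfl
  intro j _
  by_cases h1 : z ∈ Metric.closedBall (x i) R
  · by_cases h2 : z ∈ Metric.closedBall (x j) R
    · have h3 : z ∈ Metric.closedBall (x i) R ∩ Metric.closedBall (x j) R := ⟨h1, h2⟩
      rw [Set.indicator_of_mem h1, Set.indicator_of_mem h2, Set.indicator_of_mem h3, one_mul]
    · have h3 : z ∉ Metric.closedBall (x i) R ∩ Metric.closedBall (x j) R := fun h => h2 h.2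
      rw [Set.indicator_of_notMem h2, Set.indicator_of_notMem h3, mul_zero]
  · have h3 : z ∉ Metric.closedBall (x i) R ∩ Metric.closedBall (x j) R := fun h => h1 h.1
    rw [Set.indicator_of_notMem h1, Set.indicator_of_notMem h3, zero_mul]

theorem integrable_ind_inter (R : ℝ) (x y : Pt) :
    Integrable ((Metric.closedBall x R ∩ Metric.closedBall y R).indicator (fun _ => (1 : ℝ)))
      (volume : Measure Pt) := by
  rw [integrable_indicator_iff (Metric.isClosed_closedBall.measurableSet.inter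
    Metric.isClosed_closedBall.measurableSet)]
  exact integrableOn_const
    ((measure_mono Set.inter_subset_left).trans_lt measure_closedBall_lt_top).ne

theorem integrable_cnt_sq (R : ℝ) (x : ι → Pt) :
    Integrable (fun z => cnt R x z ^ 2) := by
  simp only [cnt_sq]
  exact integrable_finsetSum _ (fun i _ => integrable_finsetSum _
    (fun j _ => integrable_ind_inter R (x i) (x j)))

theorem sum_ov_eq (R : ℝ) (x : ι → Pt) :
    ∑ i, ∑ j, ov R (x i) (x j) = ∫ z, cnt R x z ^ 2 := by
  simp only [cnt_sq]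
  rw [integral_finsetSum _ (fun i _ => integrable_finsetSum _
    (fun j _ => integrable_ind_inter R (x i) (x j)))]
  apply Finset.sum_congr rfl
  intro i _
  rw [integral_finsetSum _ (fun j _ => integrable_ind_inter R (x i) (x j))]
  apply Finset.sum_congr rfl
  intro j _
  rw [integral_indicator_const _ (Metric.isClosed_closedBall.measurableSet.inter
    Metric.isClosed_closedBall.measurableSet), smul_eq_mul, mul_one, ov]

end counting

/-! ### boxes -/

theorem volume_pi_box (s : Fin 3 → Set ℝ) :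
    volume {z : Pt | ∀ k, z k ∈ s k} = ∏ k, volume (s k) := by
  have h1 : {z : Pt | ∀ k, z k ∈ s k} =
      (WithLp.ofLp : Pt → (Fin 3 → ℝ)) ⁻¹' (Set.pi Set.univ s) := by
    ext z; simp
  have h2 := (EuclideanSpace.volume_preserving_symm_measurableEquiv_toLp
    (Fin 3)).measure_preimage_equiv (Set.univ.pi s)
  rw [h1, ← volume_pi_pi s, ← h2]
  rfl

/-- half-open box -/
def box (b : ℝ) (s : Fin 3 → ℝ) (c : Fin 3 → ℤ) : Set Pt :=
  {z | ∀ k, z k ∈ Set.Ico (b * c k - s k) (b * c k - s k + b)}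

theorem volume_box (b : ℝ) (s : Fin 3 → ℝ) (hb : 0 ≤ b) (c : Fin 3 → ℤ) :
    volume.real (box b s c) = b ^ 3 := by
  rw [box, Measure.real, volume_pi_box]
  simp only [Real.volume_Ico, add_sub_cancel_left, Finset.prod_const, Finset.card_univ,
    Fintype.card_fin, ENNReal.toReal_pow, ENNReal.toReal_ofReal hb]

theorem volume_box_ne_top (b : ℝ) (s : Fin 3 → ℝ) (c : Fin 3 → ℤ) : volume (box b s c) ≠ ⊤ := by
  rw [box, volume_pi_box]
  simp only [Real.volume_Ico]
  exact ENNReal.prod_ne_top (fun _ _ => ENNReal.ofReal_ne_top)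

theorem mem_box_cell (b : ℝ) (s : Fin 3 → ℝ) (hb : 0 < b) (y : Pt) : y ∈ box b s (cell b s y) := by
  intro k
  rw [cell, Set.mem_Ico]
  have h1 := Int.floor_le ((y k + s k) / b)
  have h2 := Int.lt_floor_add_one ((y k + s k) / b)
  rw [le_div_iff₀ hb] at h1
  rw [div_lt_iff₀ hb] at h2
  constructor <;> linarith

theorem cell_eq_of_mem_box (b : ℝ) (s : Fin 3 → ℝ) (hb : 0 < b) (y : Pt) (c : Fin 3 → ℤ)
    (hy : y ∈ box b s c) : cell b s y = c := by
  funext k
  rw [cell, Int.floor_eq_iff]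
  have := hy k
  rw [Set.mem_Ico] at this
  rw [le_div_iff₀ hb, div_lt_iff₀ hb]
  constructor <;> linarith

theorem dist_le_of_mem_box (b : ℝ) (s : Fin 3 → ℝ) (hb : 0 < b) (y z : Pt) (c : Fin 3 → ℤ)
    (hy : y ∈ box b s c) (hz : z ∈ box b s c) : dist y z ≤ 2 * b := by
  rw [EuclideanSpace.dist_eq]
  apply Real.sqrt_le_iff.mpr
  refine ⟨by positivity, ?_⟩
  have h : ∀ k : Fin 3, dist (y k) (z k) ^ 2 ≤ b ^ 2 := by
    intro k
    have h1 := hy k
    have h2 := hz k
    rw [Set.mem_Ico] at h1 h2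
    rw [Real.dist_eq, sq_abs]
    apply sq_le_sq'
    · linarith
    · linarith
  calc ∑ k : Fin 3, dist (y k) (z k) ^ 2 ≤ ∑ k : Fin 3, b ^ 2 := Finset.sum_le_sum (fun k _ => h k)
    _ = 3 * b ^ 2 := by
      rw [Finset.sum_const, Finset.card_univ, Fintype.card_fin, nsmul_eq_mul]; norm_num
    _ ≤ (2 * b) ^ 2 := by nlinarith [sq_nonneg b]

theorem measurableSet_box (b : ℝ) (s : Fin 3 → ℝ) (c : Fin 3 → ℤ) : MeasurableSet (box b s c) := by
  have : box b s c = ⋂ k : Fin 3, {z : Pt | z k ∈ Set.Ico (b * c k - s k) (b * c k - s k + b)} := by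
    ext z; simp [box]
  rw [this]
  apply MeasurableSet.iInter
  intro k
  have hm : Measurable (fun z : Pt => z k) := by fun_prop
  exact hm measurableSet_Ico

section bounds

variable {ι : Type} [Fintype ι]

/-! ### the lower bound (Cauchy-Schwarz) -/

theorem cnt_eq_zero (R : ℝ) (x : ι → Pt) (z : Pt)
    (h : ∀ i, z ∉ Metric.closedBall (x i) R) : cnt R x z = 0 := by
  rw [cnt]
  apply Finset.sum_eq_zero
  intro i _
  exact Set.indicator_of_notMem (h i) _

theorem U_det (R L : ℝ) (hR : 0 ≤ R) (hL : 0 ≤ L) (x : ι → Pt)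
    (hx : ∀ i, x i ∈ cube L) :
    (Fintype.card ι * vB R) ^ 2 ≤ (L + 2 * R) ^ 3 * ∑ i, ∑ j, ov R (x i) (x j) := by
  rw [sum_ov_eq]
  set K : Set Pt := {z | ∀ k, z k ∈ Set.Icc (-R) (L + R)} with hK
  have hKm : MeasurableSet K := by
    have : K = ⋂ k : Fin 3, {z : Pt | z k ∈ Set.Icc (-R) (L + R)} := by
      ext z; simp [K]
    rw [this]
    apply MeasurableSet.iInter
    intro k
    have hm : Measurable (fun z : Pt => z k) := by fun_prop
    exact hm measurableSet_Icc
  have hKvol : volume.real K = (L + 2 * R) ^ 3 := by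
    rw [Measure.real, volume_pi_box]
    simp only [Real.volume_Icc, Finset.prod_const, Finset.card_univ,
      Fintype.card_fin, ENNReal.toReal_pow]
    rw [ENNReal.toReal_ofReal (by linarith)]
    ring
  have hKfin : volume K ≠ ⊤ := by
    rw [volume_pi_box]
    simp only [Real.volume_Icc, Finset.prod_const]
    exact ENNReal.pow_ne_top ENNReal.ofReal_ne_top
  have hsupp : ∀ z, z ∉ K → cnt R x z = 0 := by
    intro z hz
    apply cnt_eq_zero
    intro i hi
    apply hz
    intro k
    rw [Metric.mem_closedBall] at hi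
    have h1 := abs_coord_sub_le_dist z (x i) k
    have h2 := hx i k
    rw [abs_le] at h1
    rw [Set.mem_Icc]
    constructor <;> linarith [h1.1, h1.2, h2.1, h2.2]
  have h1 : ∫ z in K, cnt R x z = Fintype.card ι * vB R := by
    rw [setIntegral_eq_integral_of_forall_compl_eq_zero hsupp, integral_cnt]
  have h2 : ∫ z in K, cnt R x z ^ 2 = ∫ z, cnt R x z ^ 2 :=
    setIntegral_eq_integral_of_forall_compl_eq_zero (fun z hz => by rw [hsupp z hz]; simp)
  set W : ℝ := (L + 2 * R) ^ 3 with hW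
  set I2 : ℝ := ∫ z, cnt R x z ^ 2 with hI2
  set I1 : ℝ := Fintype.card ι * vB R with hI1
  have hW0 : 0 ≤ W := by positivity
  have key : ∀ m : ℝ, 0 ≤ I2 - 2 * m * I1 + m ^ 2 * W := by
    intro m
    have h3 : 0 ≤ ∫ z in K, (cnt R x z - m) ^ 2 := by
      apply integral_nonneg
      intro z
      positivity
    have h4 : ∫ z in K, (cnt R x z - m) ^ 2 = I2 - 2 * m * I1 + m ^ 2 * W := by
      have h5 : ∀ z, (cnt R x z - m) ^ 2 = (cnt R x z ^ 2 - 2 * m * cnt R x z) + m ^ 2 := by
        intro z; ring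
      simp only [h5]
      rw [integral_add, integral_sub, integral_const_mul, h1, h2, setIntegral_const, hKvol,
        smul_eq_mul]
      · ring
      · exact (integrable_cnt_sq R x).integrableOn
      · exact ((integrable_cnt R x).const_mul _).integrableOn
      · exact ((integrable_cnt_sq R x).integrableOn).sub
          ((integrable_cnt R x).const_mul _).integrableOn
      · exact integrableOn_const hKfin
    rw [h4] at h3
    exact h3
  have hdisc := discrim_le_zero (a := W) (b := -2 * I1) (c := I2)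
    (fun m => by have := key m; nlinarith)
  rw [discrim] at hdisc
  nlinarith

/-! ### the upper bound by blocks -/

open Classical in
theorem card_image_cell_le (R b : ℝ) (s : Fin 3 → ℝ) (hb : 0 < b) (x : ι → Pt) (z : Pt) :
    (((Finset.univ.filter (fun i => z ∈ Metric.closedBall (x i) R)).image
      (fun i => cell b s (x i))).card : ℝ) * b ^ 3 ≤ vB (R + 2 * b) := by
  set T := (Finset.univ.filter (fun i => z ∈ Metric.closedBall (x i) R)).image
      (fun i => cell b s (x i)) with hT
  have h1 : volume.real (⋃ c ∈ T, box b s c) = T.card * b ^ 3 := by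
    rw [measureReal_biUnion_finset _ _ (fun c _ => volume_box_ne_top b s c)]
    · simp only [volume_box b s hb.le, Finset.sum_const, nsmul_eq_mul]
    · intro c _ c' _ hcc
      apply Set.disjoint_left.mpr
      intro y hy hy'
      exact hcc ((cell_eq_of_mem_box b s hb y c hy).symm.trans (cell_eq_of_mem_box b s hb y c' hy'))
    · intro c _
      exact measurableSet_box b s c
  rw [← h1, ← vB_eq_closedBall _ z]
  apply measureReal_mono _ measure_closedBall_lt_top.ne
  intro y hy
  simp only [Set.mem_iUnion] at hy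
  obtain ⟨c, hc, hy⟩ := hy
  rw [hT, Finset.mem_image] at hc
  obtain ⟨i, hi, rfl⟩ := hc
  rw [Finset.mem_filter, Metric.mem_closedBall] at hi
  have h2 := dist_le_of_mem_box b s hb y (x i) _ hy (mem_box_cell b s hb (x i))
  have h3 := dist_triangle y (x i) z
  rw [Metric.mem_closedBall]
  have h4 : dist (x i) z ≤ R := by rw [dist_comm]; exact hi.2
  linarith

theorem sum_sq_card_fiber {ι κ : Type*} [DecidableEq κ] (S : Finset ι) (f : ι → κ) :
    ∑ c ∈ S.image f, ((S.filter (fun i => f i = c)).card : ℝ) ^ 2 =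
      ∑ i ∈ S, ∑ j ∈ S, if f i = f j then (1 : ℝ) else 0 := by
  rw [← Finset.sum_fiberwise_of_maps_to (s := S) (t := S.image f) (g := f)
    (fun i hi => Finset.mem_image_of_mem f hi)]
  apply Finset.sum_congr rfl
  intro c _
  have h1 : ∀ i ∈ S.filter (fun i => f i = c),
      (∑ j ∈ S, if f i = f j then (1 : ℝ) else 0) = ((S.filter (fun i => f i = c)).card : ℝ) := by
    intro i hi
    rw [Finset.mem_filter] at hi
    rw [← Finset.sum_filter, Finset.sum_const, nsmul_eq_mul, mul_one]
    congr 2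
    apply Finset.filter_congr
    intro j _
    rw [hi.2, eq_comm]
  rw [Finset.sum_congr rfl h1, Finset.sum_const, nsmul_eq_mul, sq]

open Classical in
theorem cnt_sq_le (R b : ℝ) (s : Fin 3 → ℝ) (hb : 0 < b) (x : ι → Pt) (z : Pt) :
    cnt R x z ^ 2 * b ^ 3 ≤ vB (R + 2 * b) * ∑ i, ∑ j, if cell b s (x i) = cell b s (x j) then
      (Metric.closedBall (x i) R ∩ Metric.closedBall (x j) R).indicator (fun _ => (1 : ℝ)) z
      else 0 := by
  set S := Finset.univ.filter (fun i => z ∈ Metric.closedBall (x i) R) with hS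
  set T := S.image (fun i => cell b s (x i)) with hT
  have h1 : cnt R x z = S.card := by
    rw [cnt, hS, Finset.card_eq_sum_ones, Finset.sum_filter]
    push_cast
    apply Finset.sum_congr rfl
    intro i _
    by_cases h : z ∈ Metric.closedBall (x i) R
    · rw [Set.indicator_of_mem h, if_pos h]
    · rw [Set.indicator_of_notMem h, if_neg h]
  have h2 : (∑ i, ∑ j, if cell b s (x i) = cell b s (x j) then
      (Metric.closedBall (x i) R ∩ Metric.closedBall (x j) R).indicator (fun _ => (1 : ℝ)) z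
      else 0) = ∑ c ∈ T, ((S.filter (fun i => cell b s (x i) = c)).card : ℝ) ^ 2 := by
    rw [hT, sum_sq_card_fiber S (fun i => cell b s (x i)), hS, Finset.sum_filter]
    apply Finset.sum_congr rfl
    intro i _
    by_cases hi : z ∈ Metric.closedBall (x i) R
    · rw [if_pos hi, Finset.sum_filter]
      apply Finset.sum_congr rfl
      intro j _
      by_cases hj : z ∈ Metric.closedBall (x j) R
      · have h3 : z ∈ Metric.closedBall (x i) R ∩ Metric.closedBall (x j) R := ⟨hi, hj⟩
        rw [if_pos hj, Set.indicator_of_mem h3]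
      · have h3 : z ∉ Metric.closedBall (x i) R ∩ Metric.closedBall (x j) R := fun h => hj h.2
        rw [if_neg hj, Set.indicator_of_notMem h3, ite_self]
    · rw [if_neg hi]
      apply Finset.sum_eq_zero
      intro j _
      have h3 : z ∉ Metric.closedBall (x i) R ∩ Metric.closedBall (x j) R := fun h => hi h.1
      rw [Set.indicator_of_notMem h3, ite_self]
  have h3 : (S.card : ℝ) = ∑ c ∈ T, ((S.filter (fun i => cell b s (x i) = c)).card : ℝ) := by
    have := Finset.card_eq_sum_card_image (fun i => cell b s (x i)) S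
    exact_mod_cast this
  have h4 := card_image_cell_le R b s hb x z
  rw [h1, h2, h3]
  have h5 := sq_sum_le_card_mul_sum_sq (s := T)
    (f := fun c => ((S.filter (fun i => cell b s (x i) = c)).card : ℝ))
  have h6 : (0 : ℝ) ≤ ∑ c ∈ T, ((S.filter (fun i => cell b s (x i) = c)).card : ℝ) ^ 2 :=
    Finset.sum_nonneg (fun _ _ => sq_nonneg _)
  generalize (∑ c ∈ T, ((S.filter (fun i => cell b s (x i) = c)).card : ℝ)) = A at h5 ⊢
  generalize (∑ c ∈ T, ((S.filter (fun i => cell b s (x i) = c)).card : ℝ) ^ 2) = B at h5 h6 ⊢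
  have hb3 : (0 : ℝ) ≤ b ^ 3 := by positivity
  have h7 : A ^ 2 * b ^ 3 ≤ ((T.card : ℝ) * B) * b ^ 3 := mul_le_mul_of_nonneg_right h5 hb3
  have h8 : ((T.card : ℝ) * b ^ 3) * B ≤ vB (R + 2 * b) * B := mul_le_mul_of_nonneg_right h4 h6
  calc A ^ 2 * b ^ 3 ≤ ((T.card : ℝ) * B) * b ^ 3 := h7
    _ = ((T.card : ℝ) * b ^ 3) * B := by ring
    _ ≤ vB (R + 2 * b) * B := h8

theorem L_det (R b : ℝ) (s : Fin 3 → ℝ) (hb : 0 < b) (x : ι → Pt) :
    (∑ i, ∑ j, ov R (x i) (x j)) * b ^ 3 ≤ vB (R + 2 * b) * vB R * N2 b s x := by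
  rw [sum_ov_eq, ← integral_mul_const]
  have hint : ∀ i j : ι, Integrable (fun z : Pt => if cell b s (x i) = cell b s (x j) then
      (Metric.closedBall (x i) R ∩ Metric.closedBall (x j) R).indicator (fun _ => (1 : ℝ)) z
      else 0) := by
    intro i j
    by_cases h : cell b s (x i) = cell b s (x j)
    · simp only [h, if_true]
      exact integrable_ind_inter R (x i) (x j)
    · simp only [h, if_false]
      exact integrable_zero _ _ _
  have h1 : ∫ z, cnt R x z ^ 2 * b ^ 3 ≤
      ∫ z, vB (R + 2 * b) * ∑ i, ∑ j, if cell b s (x i) = cell b s (x j) then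
      (Metric.closedBall (x i) R ∩ Metric.closedBall (x j) R).indicator (fun _ => (1 : ℝ)) z
      else 0 := by
    apply integral_mono
    · exact (integrable_cnt_sq R x).mul_const _
    · exact (integrable_finsetSum _ (fun i _ => integrable_finsetSum _
        (fun j _ => hint i j))).const_mul _
    · intro z
      exact cnt_sq_le R b s hb x z
  refine h1.trans ?_
  rw [integral_const_mul, mul_assoc]
  apply mul_le_mul_of_nonneg_left _ (vB_nonneg _)
  rw [integral_finsetSum _ (fun i _ => integrable_finsetSum _ (fun j _ => hint i j)), N2,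
    Finset.mul_sum]
  apply Finset.sum_le_sum
  intro i _
  rw [integral_finsetSum _ (fun j _ => hint i j), Finset.mul_sum]
  apply Finset.sum_le_sum
  intro j _
  by_cases h : cell b s (x i) = cell b s (x j)
  · simp only [h, if_true, mul_one]
    rw [integral_indicator_const _ (Metric.isClosed_closedBall.measurableSet.inter
      Metric.isClosed_closedBall.measurableSet), smul_eq_mul, mul_one]
    exact ov_le R (x i) (x j)
  · simp only [h, if_false, mul_zero, integral_zero, le_refl]

theorem SS_wk (hK : KernelProps) (R : ℝ) (hR : 0 < R) (x : ι → Pt) :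
    SS (wk R) x = (∑ i, ∑ j, ov R (x i) (x j)) / vB R ^ 2 := by
  rw [SS, Finset.sum_div]
  apply Finset.sum_congr rfl
  intro i _
  rw [Finset.sum_div]
  apply Finset.sum_congr rfl
  intro j _
  rw [hK.dist R hR, ov, Measure.real]

end bounds

theorem e1 (hK : KernelProps) : E1Stmt := by
  intro R L hR hL ι _ x hx
  have h1 := U_det R L hR.le hL x hx
  have hV := hK.vB_pos R hR
  rw [A, SS_wk hK R hR]
  set S := ∑ i, ∑ j, ov R (x i) (x j)
  have hLR : 0 < (L + 2 * R) ^ 3 := by positivity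
  rw [div_div, div_le_div_iff₀ (by positivity) (by positivity)]
  nlinarith

theorem e2 (hK : KernelProps) : E2Stmt := by
  intro R s z hR hs ι _ x
  have h1 := L_det R s z hs x
  have hV := hK.vB_pos R hR
  have hV1 := hK.vB_pos 1 one_pos
  have hN2 : 0 ≤ N2 s z x := by
    rw [N2]
    exact Finset.sum_nonneg (fun i _ => Finset.sum_nonneg (fun j _ => by positivity))
  rw [A, SS_wk hK R hR]
  set S := ∑ i, ∑ j, ov R (x i) (x j)
  have h2 : vB (R + 2 * s) = (1 + 2 * s / R) ^ 3 * vB R := by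
    rw [hK.vB_scale (R + 2 * s) (by positivity), hK.vB_scale R hR.le]
    field_simp
  have h3 : S ≤ (1 + 2 * s / R) ^ 3 * vB R ^ 2 / s ^ 3 * N2 s z x := by
    rw [h2] at h1
    rw [div_mul_eq_mul_div, le_div_iff₀ (by positivity)]
    calc S * s ^ 3 ≤ _ := h1
      _ = _ := by ring
  have h4 : (1 : ℝ) ≤ (1 + 2 * s / R) ^ 3 := by
    apply one_le_pow₀
    have : 0 ≤ 2 * s / R := by positivity
    linarith
  have h5 : (1 + 2 * s / R) ^ 3 ≤ (1 + 2 * s / R) ^ 6 := by
    have : (1 + 2 * s / R) ^ 6 = (1 + 2 * s / R) ^ 3 * (1 + 2 * s / R) ^ 3 := by ring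
    rw [this]
    nlinarith
  calc S / vB R ^ 2 / 2 ≤ ((1 + 2 * s / R) ^ 3 * vB R ^ 2 / s ^ 3 * N2 s z x) / vB R ^ 2 / 2 := by
        gcongr
    _ = (1 + 2 * s / R) ^ 3 / (2 * s ^ 3) * N2 s z x := by
        field_simp
    _ ≤ (1 + 2 * s / R) ^ 6 / (2 * s ^ 3) * N2 s z x := by
        gcongr

end Crest.Agent.R149.Attraction
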