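import Crest.Prelude.Def_PairPotential
import Crest.Prelude.Def_UnitPacking

set_option autoImplicit false

/-!
Canonical integrals over product regions and the multi-set product lower bound (row 149).

* `dbl φ x = ∑_{i ≠ j} φ (dist (x i) (x j))` for any finite index type (`two_mul_energy`).
* `wt φ β x = ENNReal.ofReal (exp (-(β/2) * dbl φ x))` Boltzmann weight.
* `I φ β D = ∫⁻ x in Set.pi univ D, wt φ β x`.
* `ZL φ β A N = (N!)⁻¹ * I φ β (fun _ : Fin N => A)`, `partitionFn_eq : partitionFn φ L N β = (ZL φ β (cube L) N).toReal`.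
* `ZL_mul_le : ZL A n * ZL B m ≤ ZL (A ∪ B) (n + m)` (disjoint, non-positive interaction across).
* `prod_ZL_le` the same for a finite family of sets.
-/

namespace Crest.Agent.R149.Canon

open MeasureTheory Crest.ProbabilityR.Continuum
open scoped ENNReal

/-- off-diagonal double sum of pair energies -/
noncomputable def dbl {ι : Type*} [Fintype ι] (φ : ℝ → ℝ) (x : ι → Pt) : ℝ := by
  classical
  exact ∑ i, ∑ j, if i = j then 0 else φ (dist (x i) (x j))

theorem dbl_def {ι : Type*} [Fintype ι] [DecidableEq ι] (φ : ℝ → ℝ) (x : ι → Pt) :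
    dbl φ x = ∑ i, ∑ j, if i = j then 0 else φ (dist (x i) (x j)) := by
  unfold dbl
  refine Finset.sum_congr rfl fun i _ => Finset.sum_congr rfl fun j _ => ?_
  by_cases h : i = j <;> simp [h]

theorem energy_eq_sum {N : ℕ} (φ : ℝ → ℝ) (x : Fin N → Pt) :
    energy φ x = ∑ i : Fin N, ∑ j : Fin N, if i < j then φ (dist (x i) (x j)) else 0 := by
  unfold energy
  rw [← Finset.sum_product' (s := Finset.univ) (t := Finset.univ)
    (f := fun i j : Fin N => if i < j then φ (dist (x i) (x j)) else 0)]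
  rw [Finset.univ_product_univ, ← Finset.sum_filter]
  symm
  exact Finset.sum_subtype (Finset.univ.filter fun p : Fin N × Fin N => p.1 < p.2)
    (by intro p; simp) (fun p => φ (dist (x p.1) (x p.2)))

theorem energy_eq_sum' {N : ℕ} (φ : ℝ → ℝ) (x : Fin N → Pt) :
    energy φ x = ∑ i : Fin N, ∑ j : Fin N, if j < i then φ (dist (x i) (x j)) else 0 := by
  rw [energy_eq_sum, Finset.sum_comm]
  simp only [dist_comm]

theorem two_mul_energy {N : ℕ} (φ : ℝ → ℝ) (x : Fin N → Pt) :
    2 * energy φ x = dbl φ x := by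
  have h1 := energy_eq_sum φ x
  have h2 := energy_eq_sum' φ x
  rw [two_mul]
  nth_rewrite 1 [h1]
  rw [h2, ← Finset.sum_add_distrib, dbl_def]
  refine Finset.sum_congr rfl fun i _ => ?_
  rw [← Finset.sum_add_distrib]
  refine Finset.sum_congr rfl fun j _ => ?_
  rcases lt_trichotomy i j with h | h | h
  · simp [h, h.ne, h.not_gt]
  · subst h; simp
  · simp [h, h.ne', h.not_gt]

theorem dbl_comp {ι κ : Type*} [Fintype ι] [Fintype κ] (φ : ℝ → ℝ) (e : ι ≃ κ) (x : κ → Pt) :
    dbl φ (fun i => x (e i)) = dbl φ x := by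
  classical
  rw [dbl_def, dbl_def]
  rw [← Equiv.sum_comp e]
  refine Finset.sum_congr rfl fun i _ => ?_
  rw [← Equiv.sum_comp e]
  refine Finset.sum_congr rfl fun j _ => ?_
  simp

theorem dbl_sum {ι κ : Type*} [Fintype ι] [Fintype κ] (φ : ℝ → ℝ) (x : ι ⊕ κ → Pt) :
    dbl φ x = dbl φ (fun i => x (Sum.inl i)) + dbl φ (fun j => x (Sum.inr j))
      + 2 * ∑ i, ∑ j, φ (dist (x (Sum.inl i)) (x (Sum.inr j))) := by
  classical
  rw [dbl_def, dbl_def, dbl_def, Fintype.sum_sum_type]
  simp only [Fintype.sum_sum_type, Sum.inl.injEq, Sum.inr.injEq, reduceCtorEq, if_false,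
    Finset.sum_add_distrib]
  have : ∑ j : κ, ∑ i : ι, φ (dist (x (Sum.inr j)) (x (Sum.inl i)))
      = ∑ i : ι, ∑ j : κ, φ (dist (x (Sum.inl i)) (x (Sum.inr j))) := by
    rw [Finset.sum_comm]
    simp only [dist_comm]
  rw [this]
  ring

/-- Boltzmann weight -/
noncomputable def wt {ι : Type*} [Fintype ι] (φ : ℝ → ℝ) (β : ℝ) (x : ι → Pt) : ℝ≥0∞ :=
  ENNReal.ofReal (Real.exp (-(β / 2) * dbl φ x))

theorem measurable_dbl {ι : Type*} [Fintype ι] {φ : ℝ → ℝ} (hφ : Measurable φ) :
    Measurable (fun x : ι → Pt => dbl φ x) := by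
  classical
  simp only [dbl_def]
  refine Finset.measurable_sum _ fun i _ => Finset.measurable_sum _ fun j _ => ?_
  by_cases h : i = j
  · simp [h]
  · simp only [h, if_false]
    exact hφ.comp ((measurable_pi_apply i).dist (measurable_pi_apply j))

theorem measurable_wt {ι : Type*} [Fintype ι] {φ : ℝ → ℝ} (hφ : Measurable φ) (β : ℝ) :
    Measurable (fun x : ι → Pt => wt φ β x) := by
  unfold wt
  exact (((measurable_dbl hφ).const_mul _).exp).ennreal_ofReal

/-- integral over a product region -/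
noncomputable def I {ι : Type*} [Fintype ι] (φ : ℝ → ℝ) (β : ℝ) (D : ι → Set Pt) : ℝ≥0∞ :=
  ∫⁻ x in Set.pi Set.univ D, wt φ β x

theorem I_comp {ι κ : Type*} [Fintype ι] [Fintype κ] (φ : ℝ → ℝ) (β : ℝ)
    (e : ι ≃ κ) (D : κ → Set Pt) :
    I φ β (fun i => D (e i)) = I φ β D := by
  unfold I
  have h := volume_preserving_arrowCongr' e (MeasurableEquiv.refl Pt)
    (MeasurePreserving.id volume)
  rw [← h.setLIntegral_comp_preimage_emb (MeasurableEquiv.measurableEmbedding _)]
  have key : ∀ (x : ι → Pt) (i : ι),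
      (MeasurableEquiv.arrowCongr' e (MeasurableEquiv.refl Pt)) x (e i) = x i := by
    intro x i
    change (x ∘ e.symm) (e i) = x i
    simp
  have h1 : (MeasurableEquiv.arrowCongr' e (MeasurableEquiv.refl Pt)) ⁻¹' (Set.pi Set.univ D)
      = Set.pi Set.univ (fun i => D (e i)) := by
    ext x
    simp only [Set.mem_preimage, Set.mem_pi, Set.mem_univ, true_imp_iff]
    constructor
    · intro hx i
      have := hx (e i)
      rwa [key] at this
    · intro hx k
      have := hx (e.symm k)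
      rw [← key x (e.symm k)] at this
      simpa only [Equiv.apply_symm_apply] using this
  rw [h1]
  refine lintegral_congr fun x => ?_
  unfold wt
  rw [← dbl_comp φ e]
  simp only [key]

theorem I_sum_ge {ι κ : Type*} [Fintype ι] [Fintype κ] {φ : ℝ → ℝ} (hφ : Measurable φ) {β : ℝ}
    (hβ : 0 ≤ β) (D : ι → Set Pt) (D' : κ → Set Pt)
    (h : ∀ i j, ∀ a ∈ D i, ∀ b ∈ D' j, φ (dist a b) ≤ 0) :
    I φ β D * I φ β D' ≤ I φ β (Sum.elim D D') := by
  unfold I
  have hm := volume_measurePreserving_sumPiEquivProdPi_symm (fun _ : ι ⊕ κ => Pt)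
  rw [← hm.setLIntegral_comp_preimage_emb (MeasurableEquiv.measurableEmbedding _)]
  have h1 : (MeasurableEquiv.sumPiEquivProdPi (fun _ : ι ⊕ κ => Pt)).symm ⁻¹'
      (Set.pi Set.univ (Sum.elim D D'))
      = (Set.pi Set.univ D) ×ˢ (Set.pi Set.univ D') := by
    ext x
    simp only [Set.mem_preimage, Set.mem_pi, Set.mem_univ, true_imp_iff, Set.mem_prod]
    constructor
    · intro hx
      exact ⟨fun i => hx (Sum.inl i), fun j => hx (Sum.inr j)⟩
    · rintro ⟨hx, hy⟩ (i | j)
      · exact hx i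
      · exact hy j
  rw [h1, Measure.volume_eq_prod, ← lintegral_prod_mul
    (measurable_wt hφ β).aemeasurable (measurable_wt hφ β).aemeasurable, Measure.prod_restrict]
  refine setLIntegral_mono
    ((measurable_wt hφ β).comp (MeasurableEquiv.measurable _)) fun z hz => ?_
  have hz1 : ∀ i, z.1 i ∈ D i := fun i => hz.1 i (Set.mem_univ _)
  have hz2 : ∀ j, z.2 j ∈ D' j := fun j => hz.2 j (Set.mem_univ _)
  unfold wt
  rw [← ENNReal.ofReal_mul (Real.exp_pos _).le, ← Real.exp_add]
  refine ENNReal.ofReal_le_ofReal (Real.exp_le_exp.2 ?_)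
  rw [dbl_sum]
  have e1 : ∀ i, (MeasurableEquiv.sumPiEquivProdPi fun _ : ι ⊕ κ => Pt).symm z (Sum.inl i) = z.1 i :=
    fun i => rfl
  have e2 : ∀ j, (MeasurableEquiv.sumPiEquivProdPi fun _ : ι ⊕ κ => Pt).symm z (Sum.inr j) = z.2 j :=
    fun j => rfl
  simp only [e1, e2]
  have h3 : ∑ i, ∑ j, φ (dist (z.1 i) (z.2 j)) ≤ 0 :=
    Finset.sum_nonpos fun i _ => Finset.sum_nonpos fun j _ => h i j _ (hz1 i) _ (hz2 j)
  nlinarith [mul_nonneg hβ (neg_nonneg.2 h3)]

/-- canonical partition function on an arbitrary set, `ℝ≥0∞`-valued -/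
noncomputable def ZL (φ : ℝ → ℝ) (β : ℝ) (A : Set Pt) (N : ℕ) : ℝ≥0∞ :=
  ((N.factorial : ℝ≥0∞))⁻¹ * I φ β (fun _ : Fin N => A)

theorem I_mono {ι : Type*} [Fintype ι] (φ : ℝ → ℝ) (β : ℝ) {D D' : ι → Set Pt}
    (h : ∀ i, D i ⊆ D' i) : I φ β D ≤ I φ β D' :=
  lintegral_mono_set (Set.pi_mono fun i _ => h i)

theorem ZL_mono (φ : ℝ → ℝ) (β : ℝ) {A B : Set Pt} (h : A ⊆ B) (N : ℕ) :
    ZL φ β A N ≤ ZL φ β B N :=
  mul_le_mul_right (I_mono φ β fun _ => h) _

theorem ZL_zero (φ : ℝ → ℝ) (β : ℝ) (A : Set Pt) : ZL φ β A 0 = 1 := by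
  unfold ZL I wt
  have : ∀ x : Fin 0 → Pt, dbl φ x = 0 := fun x => by rw [dbl_def]; simp
  simp [this, volume_pi_pi]

theorem ZL_mul_le {φ : ℝ → ℝ} (hφ : Measurable φ) {β : ℝ} (hβ : 0 ≤ β) {A B : Set Pt}
    (hA : MeasurableSet A) (hB : MeasurableSet B) (hAB : Disjoint A B)
    (h : ∀ a ∈ A, ∀ b ∈ B, φ (dist a b) ≤ 0) (n m : ℕ) :
    ZL φ β A n * ZL φ β B m ≤ ZL φ β (A ∪ B) (n + m) := by
  classical
  -- the key inequality without factorials
  have key : ((n + m).choose n : ℝ≥0∞) * (I φ β (fun _ : Fin n => A) * I φ β (fun _ : Fin m => B))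
      ≤ I φ β (fun _ : Fin (n + m) => A ∪ B) := by
    set R : Finset (Fin (n + m)) → Set (Fin (n + m) → Pt) :=
      fun S => Set.pi Set.univ (fun i => if i ∈ S then A else B) with hR
    have hsub : (⋃ S ∈ Finset.powersetCard n (Finset.univ : Finset (Fin (n + m))), R S)
        ⊆ Set.pi Set.univ (fun _ : Fin (n + m) => A ∪ B) := by
      refine Set.iUnion₂_subset fun S _ => Set.pi_mono fun i _ => ?_
      split_ifs
      · exact Set.subset_union_left
      · exact Set.subset_union_right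
    have hmeas : ∀ S : Finset (Fin (n + m)), MeasurableSet (R S) := by
      intro S
      refine MeasurableSet.univ_pi fun i => ?_
      split_ifs
      · exact hA
      · exact hB
    have hdisj : Set.PairwiseDisjoint
        (↑(Finset.powersetCard n (Finset.univ : Finset (Fin (n + m)))) : Set (Finset (Fin (n+m)))) R := by
      intro S _ T _ hST
      rw [Function.onFun, Set.disjoint_left]
      intro x hxS hxT
      apply hST
      ext i
      have h1 := hxS i (Set.mem_univ _)
      have h2 := hxT i (Set.mem_univ _)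
      simp only at h1 h2
      constructor
      · intro hi
        by_contra hi'
        rw [if_pos hi] at h1
        rw [if_neg hi'] at h2
        exact Set.disjoint_left.1 hAB h1 h2
      · intro hi
        by_contra hi'
        rw [if_neg hi'] at h1
        rw [if_pos hi] at h2
        exact Set.disjoint_left.1 hAB h2 h1
    calc ((n + m).choose n : ℝ≥0∞) * (I φ β (fun _ : Fin n => A) * I φ β (fun _ : Fin m => B))
        = ∑ S ∈ Finset.powersetCard n (Finset.univ : Finset (Fin (n + m))),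
            (I φ β (fun _ : Fin n => A) * I φ β (fun _ : Fin m => B)) := by
          rw [Finset.sum_const, Finset.card_powersetCard, Finset.card_univ, Fintype.card_fin,
            nsmul_eq_mul]
      _ ≤ ∑ S ∈ Finset.powersetCard n (Finset.univ : Finset (Fin (n + m))),
            ∫⁻ x in R S, wt φ β x := by
          refine Finset.sum_le_sum fun S hS => ?_
          have hc : S.card = n := (Finset.mem_powersetCard.1 hS).2
          have hc' : Sᶜ.card = m := by
            rw [Finset.card_compl, Fintype.card_fin, hc]; omega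
          have e := finSumEquivOfFinset hc hc'
          refine (I_sum_ge hφ hβ _ _ (fun _ _ a ha b hb => h a ha b hb)).trans ?_
          have := I_comp φ β (finSumEquivOfFinset hc hc') (fun i => if i ∈ S then A else B)
          change _ ≤ I φ β (fun i => if i ∈ S then A else B)
          rw [← this]
          refine I_mono φ β ?_
          rintro (i | i)
          · have hi : finSumEquivOfFinset hc hc' (Sum.inl i) ∈ S := by
              rw [finSumEquivOfFinset_inl]; exact Finset.orderEmbOfFin_mem S hc i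
            simp only [Sum.elim_inl, if_pos hi, subset_refl]
          · have hi : finSumEquivOfFinset hc hc' (Sum.inr i) ∉ S := by
              rw [finSumEquivOfFinset_inr]
              exact Finset.mem_compl.1 (Finset.orderEmbOfFin_mem Sᶜ hc' i)
            simp only [Sum.elim_inr, if_neg hi, subset_refl]
      _ = ∫⁻ x in ⋃ S ∈ Finset.powersetCard n (Finset.univ : Finset (Fin (n + m))), R S,
            wt φ β x := (lintegral_biUnion_finset hdisj (fun S _ => hmeas S) _).symm
      _ ≤ I φ β (fun _ : Fin (n + m) => A ∪ B) := lintegral_mono_set hsub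
  unfold ZL
  have hfac : ((n + m).factorial : ℝ≥0∞)
      = ((n + m).choose n : ℝ≥0∞) * n.factorial * m.factorial := by
    rw [← Nat.add_choose_mul_factorial_mul_factorial n m, ← Nat.choose_symm_add]
    push_cast
    ring
  have hn0 : (n.factorial : ℝ≥0∞) ≠ 0 := by exact_mod_cast n.factorial_ne_zero
  have hm0 : (m.factorial : ℝ≥0∞) ≠ 0 := by exact_mod_cast m.factorial_ne_zero
  have hc0 : ((n + m).choose n : ℝ≥0∞) ≠ 0 := by
    exact_mod_cast (Nat.choose_pos (Nat.le_add_right n m)).ne'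
  calc (n.factorial : ℝ≥0∞)⁻¹ * I φ β (fun _ : Fin n => A)
        * ((m.factorial : ℝ≥0∞)⁻¹ * I φ β (fun _ : Fin m => B))
      = ((n + m).factorial : ℝ≥0∞)⁻¹ * (((n + m).choose n : ℝ≥0∞)
        * (I φ β (fun _ : Fin n => A) * I φ β (fun _ : Fin m => B))) := by
        rw [hfac, ENNReal.mul_inv (Or.inr (by simp)) (Or.inr hm0), ENNReal.mul_inv (Or.inr (by simp)) (Or.inr hn0)]
        have : ((n + m).choose n : ℝ≥0∞)⁻¹ * ((n + m).choose n : ℝ≥0∞) = 1 :=
          ENNReal.inv_mul_cancel hc0 (by simp)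
        calc _ = 1 * ((n.factorial : ℝ≥0∞)⁻¹ * I φ β (fun _ : Fin n => A)
              * ((m.factorial : ℝ≥0∞)⁻¹ * I φ β (fun _ : Fin m => B))) := by rw [one_mul]
          _ = _ := by rw [← this]; ring
    _ ≤ _ := mul_le_mul_right key _


theorem prod_ZL_le_biUnion {σ : Type*} {φ : ℝ → ℝ} (hφ : Measurable φ) {β : ℝ} (hβ : 0 ≤ β)
    (s : Finset σ) (D : σ → Set Pt) (n : σ → ℕ)
    (hD : ∀ k ∈ s, MeasurableSet (D k))
    (hdisj : ∀ k ∈ s, ∀ l ∈ s, k ≠ l → Disjoint (D k) (D l))
    (hint : ∀ k ∈ s, ∀ l ∈ s, k ≠ l → ∀ a ∈ D k, ∀ b ∈ D l, φ (dist a b) ≤ 0) :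
    ∏ k ∈ s, ZL φ β (D k) (n k) ≤ ZL φ β (⋃ k ∈ s, D k) (∑ k ∈ s, n k) := by
  classical
  induction s using Finset.induction_on with
  | empty => simp [ZL_zero]
  | insert a t hat ih =>
    rw [Finset.prod_insert hat, Finset.sum_insert hat, Finset.set_biUnion_insert]
    refine (mul_le_mul_right (ih (fun k hk => hD k (Finset.mem_insert_of_mem hk))
      (fun k hk l hl => hdisj k (Finset.mem_insert_of_mem hk) l (Finset.mem_insert_of_mem hl))
      (fun k hk l hl => hint k (Finset.mem_insert_of_mem hk) l (Finset.mem_insert_of_mem hl))) _).trans ?_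
    have hne : ∀ l ∈ t, a ≠ l := fun l hl h => hat (h ▸ hl)
    refine ZL_mul_le hφ hβ (hD a (Finset.mem_insert_self _ _))
      (Finset.measurableSet_biUnion t fun k hk => hD k (Finset.mem_insert_of_mem hk)) ?_ ?_ _ _
    · rw [Set.disjoint_iUnion₂_right]
      exact fun l hl => hdisj a (Finset.mem_insert_self _ _) l (Finset.mem_insert_of_mem hl) (hne l hl)
    · intro x hx y hy
      obtain ⟨l, hl, hy⟩ := Set.mem_iUnion₂.1 hy
      exact hint a (Finset.mem_insert_self _ _) l (Finset.mem_insert_of_mem hl) (hne l hl) x hx y hy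

theorem prod_ZL_le {σ : Type*} {φ : ℝ → ℝ} (hφ : Measurable φ) {β : ℝ} (hβ : 0 ≤ β)
    (s : Finset σ) (D : σ → Set Pt) (n : σ → ℕ) (A : Set Pt)
    (hD : ∀ k ∈ s, MeasurableSet (D k)) (hA : ∀ k ∈ s, D k ⊆ A)
    (hdisj : ∀ k ∈ s, ∀ l ∈ s, k ≠ l → Disjoint (D k) (D l))
    (hint : ∀ k ∈ s, ∀ l ∈ s, k ≠ l → ∀ a ∈ D k, ∀ b ∈ D l, φ (dist a b) ≤ 0) :
    ∏ k ∈ s, ZL φ β (D k) (n k) ≤ ZL φ β A (∑ k ∈ s, n k) :=
  (prod_ZL_le_biUnion hφ hβ s D n hD hdisj hint).trans
    (ZL_mono φ β (Set.iUnion₂_subset hA) _)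

theorem wt_eq {N : ℕ} (φ : ℝ → ℝ) (β : ℝ) (x : Fin N → Pt) :
    wt φ β x = ENNReal.ofReal (Real.exp (-β * energy φ x)) := by
  unfold wt
  rw [← two_mul_energy]
  congr 2
  ring

/-- The Prelude partition function is the real number attached to `ZL`. -/
theorem partitionFn_eq {φ : ℝ → ℝ} (hφ : Measurable φ) (L : ℝ) (N : ℕ) (β : ℝ) :
    partitionFn φ L N β = (ZL φ β (cube L) N).toReal := by
  unfold partitionFn ZL I
  have hm : Measurable (fun x : Fin N → Pt => Real.exp (-β * energy φ x)) := by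
    have : (fun x : Fin N → Pt => Real.exp (-β * energy φ x))
        = fun x => Real.exp (-(β / 2) * dbl φ x) := by
      ext x; rw [← two_mul_energy]; congr 1; ring
    rw [this]
    exact ((measurable_dbl hφ).const_mul _).exp
  rw [integral_eq_lintegral_of_nonneg_ae (Filter.Eventually.of_forall fun x => (Real.exp_pos _).le)
    hm.aestronglyMeasurable, ENNReal.toReal_mul, ENNReal.toReal_inv, ENNReal.toReal_natCast, one_div]
  simp only [wt_eq]

theorem measurableSet_cube (L : ℝ) : MeasurableSet (cube L) := by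
  have : cube L = ⋂ k : Fin 3, {x : Pt | 0 ≤ x k ∧ x k ≤ L} := by
    ext x; simp [cube]
  rw [this]
  refine MeasurableSet.iInter fun k => ?_
  have h : Measurable (fun x : Pt => x k) := by fun_prop
  exact (measurableSet_le measurable_const h).inter (measurableSet_le h measurable_const)

theorem volume_cube (L : ℝ) : volume (cube L) = ENNReal.ofReal L ^ 3 := by
  have h := (PiLp.volume_preserving_toLp (Fin 3)).measure_preimage
    (measurableSet_cube L).nullMeasurableSet
  rw [← h]
  have : (WithLp.toLp 2 : (Fin 3 → ℝ) → Pt) ⁻¹' (cube L)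
      = Set.pi Set.univ (fun _ : Fin 3 => Set.Icc 0 L) := by
    ext x; simp only [cube, Set.mem_preimage, Set.mem_ofPred_eq, Set.mem_pi, Set.mem_univ,
      true_imp_iff, Set.mem_Icc]
  rw [this, volume_pi_pi]
  simp

/-- finiteness of `I` on sets of finite measure for energies bounded below -/
theorem I_ne_top {ι : Type*} [Fintype ι] {φ : ℝ → ℝ} {β : ℝ} (D : ι → Set Pt)
    (hvol : ∀ i, volume (D i) ≠ ∞) (c : ℝ) (hc : ∀ x : ι → Pt, -c ≤ β / 2 * dbl φ x) :
    I φ β D ≠ ∞ := by
  have h : I φ β D ≤ ENNReal.ofReal (Real.exp c) * ∏ i, volume (D i) := by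
    unfold I
    refine (setLIntegral_mono measurable_const fun x _ =>
      (show wt φ β x ≤ ENNReal.ofReal (Real.exp c) from ?_)).trans ?_
    · exact ENNReal.ofReal_le_ofReal (Real.exp_le_exp.2 (by linarith [hc x]))
    · rw [setLIntegral_const, volume_pi_pi]
  refine ne_top_of_le_ne_top (ENNReal.mul_ne_top ENNReal.ofReal_ne_top ?_) h
  exact ENNReal.prod_ne_top fun i _ => hvol i

end Crest.Agent.R149.Canon
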