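import Crest.Agent.R149.Stmts

/-!
# Row 149, module B: existence of the unit-separation packing density
-/

set_option autoImplicit false

open MeasureTheory Crest.ProbabilityR.Continuum Filter Topology

namespace Crest.Agent.R149.Packing

theorem coord_le_dist (x y : Pt) (k : Fin 3) : |x k - y k| ≤ dist x y := by
  have h := PiLp.norm_apply_le (p := 2) (x - y) k
  rw [dist_eq_norm]
  simpa [Real.norm_eq_abs] using h

theorem dist_lt_one_of_coord (x y : Pt) (h : ∀ k, |x k - y k| ≤ 1 / 2) : dist x y < 1 := by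
  rw [EuclideanSpace.dist_eq]
  rw [Real.sqrt_lt' one_pos]
  simp only [Real.dist_eq, Fin.sum_univ_three]
  have h0 := h 0
  have h1 := h 1
  have h2 := h 2
  have e : ∀ a : ℝ, |a| ≤ 1/2 → |a| ^ 2 ≤ 1 / 4 := by
    intro a ha
    have := abs_nonneg a
    nlinarith
  have := e _ h0
  have := e _ h1
  have := e _ h2
  calc |x 0 - y 0| ^ 2 + |x 1 - y 1| ^ 2 + |x 2 - y 2| ^ 2 ≤ 1 / 4 + 1 / 4 + 1 / 4 := by
        linarith
    _ < 1 ^ 2 := by norm_num

theorem card_le {L : ℝ} (_hL : 0 ≤ L) {X : Finset Pt} (hX : ∀ x ∈ X, x ∈ cube L)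
    (hs : ∀ x ∈ X, ∀ y ∈ X, x ≠ y → 1 ≤ dist x y) : X.card ≤ (⌊2 * L⌋₊ + 1) ^ 3 := by
  classical
  let f : Pt → (Fin 3 → Fin (⌊2 * L⌋₊ + 1)) := fun x k => Fin.ofNat _ ⌊2 * x k⌋₊
  have hcard : (Finset.univ : Finset (Fin 3 → Fin (⌊2 * L⌋₊ + 1))).card = (⌊2 * L⌋₊ + 1) ^ 3 := by
    simp
  rw [← hcard]
  apply Finset.card_le_card_of_injOn f
  · intro x _; simp
  · intro x hx y hy hxy
    by_contra hne
    have h1 := hs x hx y hy hne
    have h2 : dist x y < 1 := by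
      apply dist_lt_one_of_coord
      intro k
      have hxk := hX x hx k
      have hyk := hX y hy k
      have hf : f x k = f y k := congrFun hxy k
      have hx1 : ⌊2 * x k⌋₊ < ⌊2 * L⌋₊ + 1 :=
        Nat.lt_succ_of_le (Nat.floor_le_floor (by linarith [hxk.2]))
      have hy1 : ⌊2 * y k⌋₊ < ⌊2 * L⌋₊ + 1 :=
        Nat.lt_succ_of_le (Nat.floor_le_floor (by linarith [hyk.2]))
      have hf' : ⌊2 * x k⌋₊ = ⌊2 * y k⌋₊ := by
        have := congrArg Fin.val hf
        simp only [f, Fin.ofNat] at this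
        rwa [Nat.mod_eq_of_lt hx1, Nat.mod_eq_of_lt hy1] at this
      have a1 := Nat.floor_le (show 0 ≤ 2 * x k by linarith [hxk.1])
      have a2 := Nat.lt_floor_add_one (2 * x k)
      have b1 := Nat.floor_le (show 0 ≤ 2 * y k by linarith [hyk.1])
      have b2 := Nat.lt_floor_add_one (2 * y k)
      rw [hf'] at a1 a2
      rw [abs_le]
      constructor <;> linarith
    linarith

theorem bddAbove_packingSet {L : ℝ} (hL : 0 ≤ L) : BddAbove (packingSet L) := by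
  refine ⟨(⌊2 * L⌋₊ + 1) ^ 3, ?_⟩
  rintro n ⟨X, rfl, hX, hs⟩
  exact card_le hL hX hs

theorem zero_mem_packingSet (L : ℝ) : 0 ∈ packingSet L := ⟨∅, by simp⟩

theorem packingNumber_mem {L : ℝ} (hL : 0 ≤ L) : packingNumber L ∈ packingSet L :=
  Nat.sSup_mem ⟨0, zero_mem_packingSet L⟩ (bddAbove_packingSet hL)

theorem le_packingNumber {L : ℝ} (hL : 0 ≤ L) {n : ℕ} (hn : n ∈ packingSet L) :
    n ≤ packingNumber L := le_csSup (bddAbove_packingSet hL) hn

theorem packingNumber_le {L : ℝ} (hL : 0 ≤ L) : (packingNumber L : ℝ) ≤ (2 * L + 1) ^ 3 := by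
  obtain ⟨X, hc, hX, hs⟩ := packingNumber_mem hL
  have h1 := card_le hL hX hs
  rw [hc] at h1
  have h2 : ((packingNumber L : ℕ) : ℝ) ≤ (((⌊2 * L⌋₊ + 1) ^ 3 : ℕ) : ℝ) := by exact_mod_cast h1
  have h3 : (⌊2 * L⌋₊ : ℝ) ≤ 2 * L := Nat.floor_le (by linarith)
  push_cast at h2
  refine h2.trans ?_
  have h4 : (0 : ℝ) ≤ (⌊2 * L⌋₊ : ℝ) + 1 := by positivity
  exact pow_le_pow_left₀ h4 (by linarith) 3

theorem one_le_packingNumber {L : ℝ} (hL : 0 ≤ L) : 1 ≤ packingNumber L := by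
  apply le_packingNumber hL
  refine ⟨{0}, by simp, ?_, ?_⟩
  · intro x hx
    rw [Finset.mem_singleton] at hx
    subst hx
    intro k
    simp [hL]
  · intro x hx y hy hne
    rw [Finset.mem_singleton] at hx hy
    exact absurd (hx.trans hy.symm) hne

theorem packingNumber_mono {L L' : ℝ} (hL : 0 ≤ L) (h : L ≤ L') :
    packingNumber L ≤ packingNumber L' := by
  obtain ⟨X, hc, hX, hs⟩ := packingNumber_mem hL
  apply le_packingNumber (hL.trans h)
  exact ⟨X, hc, fun x hx k => ⟨(hX x hx k).1, (hX x hx k).2.trans h⟩, hs⟩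

/-- Superadditivity. -/
theorem packingNumber_super {L : ℝ} (hL : 0 ≤ L) (j : ℕ) (hj : 1 ≤ j) :
    j ^ 3 * packingNumber L ≤ packingNumber (j * (L + 1) - 1) := by
  classical
  obtain ⟨X, hc, hX, hs⟩ := packingNumber_mem hL
  have hj' : (1 : ℝ) ≤ j := by exact_mod_cast hj
  have hL' : 0 ≤ j * (L + 1) - 1 := by nlinarith
  apply le_packingNumber hL'
  let t : (Fin 3 → Fin j) → Pt := fun v => WithLp.toLp 2 (fun k => (L + 1) * ((v k : ℕ) : ℝ))
  have ht : ∀ v k, t v k = (L + 1) * ((v k : ℕ) : ℝ) := fun v k => rfl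
  let Y : (Fin 3 → Fin j) → Finset Pt := fun v => X.map (addRightEmbedding (t v))
  have hY : ∀ v y, y ∈ Y v → ∃ x ∈ X, y = x + t v := by
    intro v y hy
    simp only [Y, Finset.mem_map, addRightEmbedding_apply] at hy
    obtain ⟨x, hx, rfl⟩ := hy
    exact ⟨x, hx, rfl⟩
  -- distances between different translates
  have hdist : ∀ v w, v ≠ w → ∀ y ∈ Y v, ∀ z ∈ Y w, 1 ≤ dist y z := by
    intro v w hvw y hy z hz
    obtain ⟨x, hx, rfl⟩ := hY v y hy
    obtain ⟨x', hx', rfl⟩ := hY w z hz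
    obtain ⟨k, hk⟩ : ∃ k, v k ≠ w k := Function.ne_iff.mp hvw
    refine le_trans ?_ (coord_le_dist _ _ k)
    have e1 : (x + t v) k = x k + (L + 1) * ((v k : ℕ) : ℝ) := by
      rw [PiLp.add_apply, ht]
    have e2 : (x' + t w) k = x' k + (L + 1) * ((w k : ℕ) : ℝ) := by
      rw [PiLp.add_apply, ht]
    rw [e1, e2]
    have hxk := hX x hx k
    have hxk' := hX x' hx' k
    have hk' : (v k : ℕ) ≠ (w k : ℕ) := fun h => hk (Fin.ext h)
    rcases Nat.lt_or_gt_of_ne hk' with h | h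
    · have h' : ((v k : ℕ) : ℝ) + 1 ≤ ((w k : ℕ) : ℝ) := by exact_mod_cast h
      rw [abs_sub_comm]
      refine le_trans ?_ (le_abs_self _)
      nlinarith [hxk.1, hxk.2, hxk'.1, hxk'.2]
    · have h' : ((w k : ℕ) : ℝ) + 1 ≤ ((v k : ℕ) : ℝ) := by exact_mod_cast h
      refine le_trans ?_ (le_abs_self _)
      nlinarith [hxk.1, hxk.2, hxk'.1, hxk'.2]
  have hdisj : ∀ v ∈ (Finset.univ : Finset (Fin 3 → Fin j)), ∀ w ∈ Finset.univ, v ≠ w →
      Disjoint (Y v) (Y w) := by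
    intro v _ w _ hvw
    rw [Finset.disjoint_left]
    intro y hy hy'
    have := hdist v w hvw y hy y hy'
    simp at this
    linarith
  refine ⟨Finset.univ.biUnion Y, ?_, ?_, ?_⟩
  · rw [Finset.card_biUnion hdisj]
    simp [Y, hc]
  · intro y hy
    rw [Finset.mem_biUnion] at hy
    obtain ⟨v, _, hyv⟩ := hy
    obtain ⟨x, hx, rfl⟩ := hY v y hyv
    intro k
    have e1 : (x + t v) k = x k + (L + 1) * ((v k : ℕ) : ℝ) := by
      rw [PiLp.add_apply, ht]
    rw [e1]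
    have hxk := hX x hx k
    have hv : ((v k : ℕ) : ℝ) + 1 ≤ j := by exact_mod_cast (v k).2
    have hv0 : (0 : ℝ) ≤ ((v k : ℕ) : ℝ) := by positivity
    constructor
    · nlinarith [hxk.1]
    · nlinarith [hxk.2]
  · intro y hy z hz hyz
    rw [Finset.mem_biUnion] at hy hz
    obtain ⟨v, _, hyv⟩ := hy
    obtain ⟨w, _, hzw⟩ := hz
    by_cases hvw : v = w
    · subst hvw
      obtain ⟨x, hx, rfl⟩ := hY v y hyv
      obtain ⟨x', hx', rfl⟩ := hY v z hzw
      rw [dist_add_right]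
      exact hs x hx x' hx' (fun h => hyz (by rw [h]))
    · exact hdist v w hvw y hyv z hzw

/-- The normalised packing number. -/
noncomputable def pn (L : ℝ) : ℝ := (packingNumber L : ℝ) / (L + 1) ^ 3

theorem pn_nonneg {L : ℝ} (hL : 0 ≤ L) : 0 ≤ pn L := by
  unfold pn; positivity

theorem pn_le {L : ℝ} (hL : 0 ≤ L) : pn L ≤ 8 := by
  unfold pn
  rw [div_le_iff₀ (by positivity)]
  refine (packingNumber_le hL).trans ?_
  have : (2 * L + 1) ^ 3 ≤ (2 * (L + 1)) ^ 3 := pow_le_pow_left₀ (by linarith) (by linarith) 3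
  calc (2 * L + 1) ^ 3 ≤ (2 * (L + 1)) ^ 3 := this
    _ = 8 * (L + 1) ^ 3 := by ring

/-- The packing density. -/
noncomputable def pd : ℝ := sSup (pn '' Set.Ici 0)

theorem bdd_pn : BddAbove (pn '' Set.Ici 0) := by
  refine ⟨8, ?_⟩
  rintro _ ⟨L, hL, rfl⟩
  exact pn_le hL

theorem pn_le_pd {L : ℝ} (hL : 0 ≤ L) : pn L ≤ pd := le_csSup bdd_pn ⟨L, hL, rfl⟩

theorem pd_le : pd ≤ 8 := by
  refine csSup_le (⟨pn 0, 0, Set.mem_Ici.mpr le_rfl, rfl⟩ : (pn '' Set.Ici 0).Nonempty) ?_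
  rintro _ ⟨L, hL, rfl⟩
  exact pn_le hL

theorem pd_pos : 0 < pd := by
  refine lt_of_lt_of_le ?_ (pn_le_pd (le_refl (0 : ℝ)))
  unfold pn
  have := one_le_packingNumber (le_refl (0 : ℝ))
  have h : (0 : ℝ) < packingNumber 0 := by exact_mod_cast this
  positivity

theorem pn_lower {L L' : ℝ} (hL : 0 ≤ L) (h : L ≤ L') :
    ((1 - (L + 1) / (L' + 1)) ^ 3) * pn L ≤ pn L' := by
  have hL' : 0 ≤ L' := hL.trans h
  have hp : 0 < L + 1 := by linarith
  have hp' : 0 < L' + 1 := by linarith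
  set j : ℕ := ⌊(L' + 1) / (L + 1)⌋₊ with hj
  have hq : 1 ≤ (L' + 1) / (L + 1) := by rw [le_div_iff₀ hp]; linarith
  have hj1 : 1 ≤ j := (Nat.one_le_floor_iff _).mpr hq
  have hjle : (j : ℝ) ≤ (L' + 1) / (L + 1) := Nat.floor_le (by positivity)
  have hjge : (L' + 1) / (L + 1) - 1 ≤ j := (Nat.sub_one_lt_floor _).le
  have hj1' : (1 : ℝ) ≤ j := by exact_mod_cast hj1
  have h1 : (j : ℝ) * (L + 1) - 1 ≤ L' := by
    rw [le_div_iff₀ hp] at hjle
    linarith
  have h0 : 0 ≤ (j : ℝ) * (L + 1) - 1 := by nlinarith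
  have h2 : (j : ℝ) ^ 3 * packingNumber L ≤ packingNumber L' := by
    have := (packingNumber_super hL j hj1).trans (packingNumber_mono h0 h1)
    exact_mod_cast this
  unfold pn
  rw [le_div_iff₀ (by positivity)]
  refine le_trans ?_ h2
  have h3 : (1 - (L + 1) / (L' + 1)) * (L' + 1) / (L + 1) = (L' + 1) / (L + 1) - 1 := by
    field_simp
  have h4 : (1 - (L + 1) / (L' + 1)) ^ 3 * ((packingNumber L : ℝ) / (L + 1) ^ 3) * (L' + 1) ^ 3
      = ((1 - (L + 1) / (L' + 1)) * (L' + 1) / (L + 1)) ^ 3 * packingNumber L := by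
    field_simp
  rw [h4, h3]
  apply mul_le_mul_of_nonneg_right _ (by positivity)
  exact pow_le_pow_left₀ (by linarith) hjge 3

theorem tendsto_pn : Tendsto pn atTop (𝓝 pd) := by
  rw [Metric.tendsto_nhds]
  intro ε hε
  obtain ⟨_, ⟨L, hL, rfl⟩, hlt⟩ := exists_lt_of_lt_csSup (s := pn '' Set.Ici 0)
    ⟨pn 0, 0, Set.mem_Ici.mpr le_rfl, rfl⟩ (show pd - ε / 2 < pd by linarith)
  have hL0 : (0 : ℝ) ≤ L := hL
  have hlim : Tendsto (fun L' : ℝ => (1 - (L + 1) / (L' + 1)) ^ 3 * pn L) atTop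
      (𝓝 ((1 - 0) ^ 3 * pn L)) := by
    apply Tendsto.mul_const
    apply Tendsto.pow
    apply Tendsto.sub tendsto_const_nhds
    apply Tendsto.div_atTop tendsto_const_nhds
    exact tendsto_atTop_add_const_right _ _ tendsto_id
  have h1 : ∀ᶠ L' : ℝ in atTop, pn L - ε / 2 < (1 - (L + 1) / (L' + 1)) ^ 3 * pn L := by
    apply hlim.eventually_const_lt
    simp
    linarith
  filter_upwards [h1, eventually_ge_atTop L] with L' h2 h3
  have h4 := pn_lower hL0 h3
  have h5 := pn_le_pd (hL0.trans h3)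
  rw [Real.dist_eq, abs_lt]
  constructor <;> linarith

theorem packing : PackingStmt := by
  refine ⟨pd, pd_pos, pd_le, ?_⟩
  have h1 : Tendsto (fun L : ℝ => (1 + 1 / L) ^ 3 * pn L) atTop (𝓝 ((1 + 0) ^ 3 * pd)) := by
    apply Tendsto.mul _ tendsto_pn
    apply Tendsto.pow
    apply Tendsto.add tendsto_const_nhds
    exact tendsto_const_nhds.div_atTop tendsto_id
  have h2 : (1 + 0 : ℝ) ^ 3 * pd = pd := by ring
  rw [h2] at h1
  apply h1.congr'
  filter_upwards [eventually_gt_atTop 0] with L hL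
  unfold pn
  have : L + 1 ≠ 0 := by positivity
  field_simp

end Crest.Agent.R149.Packing

namespace Crest.Agent.R149

theorem packing : PackingStmt := Packing.packing

end Crest.Agent.R149
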