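import Crest.Agent.R149.Stmts

/-!
# Row 149: superstability from Turán's theorem
-/

set_option autoImplicit false

open MeasureTheory Crest.ProbabilityR.Continuum

namespace Crest.Agent.R149.SuperStab

/-- Turán bound: at most `(K-1) n^2 / K` ordered edges. -/
theorem turan_bound {V : Type*} [Fintype V] (G : SimpleGraph V) [DecidableRel G.Adj] {K : ℕ}
    (hK : 1 ≤ K) (cf : G.CliqueFree (K + 1)) :
    2 * K * G.edgeFinset.card ≤ (K - 1) * Fintype.card V ^ 2 := by
  classical
  obtain ⟨H, _, maxH⟩ := SimpleGraph.exists_isTuranMaximal (V := V) hK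
  have h1 : G.edgeFinset.card ≤ H.edgeFinset.card := maxH.2 cf
  have h2 := ((SimpleGraph.isTuranMaximal_iff_nonempty_iso_turanGraph hK).mp maxH).some.card_edgeFinset_eq
  have h3 := SimpleGraph.mul_card_edgeFinset_turanGraph_le (n := Fintype.card V) (r := K)
  calc 2 * K * G.edgeFinset.card ≤ 2 * K * H.edgeFinset.card := Nat.mul_le_mul_left _ h1
    _ = 2 * K * (SimpleGraph.turanGraph (Fintype.card V) K).edgeFinset.card := by rw [h2]
    _ ≤ _ := h3

/-- number of ordered adjacent pairs -/
theorem sum_adj {V : Type*} [Fintype V] [DecidableEq V] (G : SimpleGraph V) [DecidableRel G.Adj] :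
    (∑ i : V, ∑ j : V, if G.Adj i j then (1 : ℝ) else 0) = 2 * G.edgeFinset.card := by
  have h := G.sum_degrees_eq_twice_card_edges
  have h2 : ∀ i : V, (∑ j : V, if G.Adj i j then (1 : ℝ) else 0) = G.degree i := by
    intro i
    rw [Finset.sum_boole, ← SimpleGraph.card_neighborFinset_eq_degree]
    congr 2
    ext j
    simp
  simp only [h2]
  exact_mod_cast h

theorem local_bound {V : Type*} [Fintype V] [DecidableEq V] {c : ℝ → ℝ} {K : ℕ} {M : ℝ}
    (hc : ∀ t, 0 ≤ c t) (hK : 1 ≤ K) (hM : 0 ≤ M) (h : CoreK c K M) (y : V → Pt)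
    (hy : ∀ i j, dist (y i) (y j) < 1) :
    M * ((Fintype.card V : ℝ) ^ 2 / K - Fintype.card V)
      ≤ ∑ i : V, ∑ j : V, if i = j then 0 else c (dist (y i) (y j)) := by
  classical
  -- good graph
  let G : SimpleGraph V :=
    { Adj := fun i j => i ≠ j ∧ c (dist (y i) (y j)) < M
      symm := ⟨fun i j hij => ⟨hij.1.symm, by rw [dist_comm]; exact hij.2⟩⟩
      loopless := ⟨fun i hi => hi.1 rfl⟩ }
  have cf : G.CliqueFree (K + 1) := by
    rw [SimpleGraph.cliqueFree_iff]
    refine ⟨fun f => ?_⟩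
    obtain ⟨i, j, hij, hM'⟩ := h (fun i => y (f i)) (fun i j => hy _ _)
    have hadj : G.Adj (f i) (f j) := f.toHom.map_adj (by simpa using hij)
    exact absurd hM' (not_le.2 hadj.2)
  have h1 := turan_bound G hK cf
  have h2 := sum_adj G
  have hterm : ∀ i j : V, M * ((if i = j then (0 : ℝ) else 1) - if G.Adj i j then (1 : ℝ) else 0)
      ≤ if i = j then 0 else c (dist (y i) (y j)) := by
    intro i j
    by_cases hij : i = j
    · subst hij
      simp
    · by_cases hadj : G.Adj i j
      · simp [hij, hadj, hc]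
      · have : M ≤ c (dist (y i) (y j)) := by
          by_contra hlt
          exact hadj ⟨hij, not_le.1 hlt⟩
        simpa [hij, hadj] using this
  refine le_trans ?_ (Finset.sum_le_sum fun i _ => Finset.sum_le_sum fun j _ => hterm i j)
  simp only [← Finset.mul_sum, Finset.sum_sub_distrib]
  refine mul_le_mul_of_nonneg_left ?_ hM
  rw [h2]
  have h3 : (∑ i : V, ∑ j : V, if i = j then (0 : ℝ) else 1)
      = (Fintype.card V : ℝ) ^ 2 - Fintype.card V := by
    have : ∀ i j : V, (if i = j then (0 : ℝ) else 1) = 1 - if i = j then (1 : ℝ) else 0 := by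
      intro i j; split_ifs <;> simp
    simp only [this, Finset.sum_sub_distrib]
    simp [sq]
  rw [h3]
  have hK0 : (0 : ℝ) < K := by exact_mod_cast hK
  have h4 : 2 * (K : ℝ) * G.edgeFinset.card ≤ (K - 1) * (Fintype.card V : ℝ) ^ 2 := by
    have : ((2 * K * G.edgeFinset.card : ℕ) : ℝ) ≤ (((K - 1) * Fintype.card V ^ 2 : ℕ) : ℝ) := by
      exact_mod_cast h1
    push_cast [Nat.cast_sub hK] at this
    simpa using this
  have h5 : (Fintype.card V : ℝ) ^ 2 / K * K = (Fintype.card V : ℝ) ^ 2 := by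
    field_simp
  nlinarith [h4, h5, hK0]

theorem dist_lt_one_of_cell {x y : Pt} (h : cell (1 / 2) 0 x = cell (1 / 2) 0 y) :
    dist x y < 1 := by
  have hk : ∀ k, |x k - y k| < 1 / 2 := by
    intro k
    have hc := congrFun h k
    simp only [cell, Pi.zero_apply, add_zero] at hc
    have h1 := Int.abs_sub_lt_one_of_floor_eq_floor hc
    have h2 : x k / (1 / 2) - y k / (1 / 2) = 2 * (x k - y k) := by ring
    rw [h2, abs_mul, abs_of_pos (by norm_num : (0:ℝ) < 2)] at h1
    linarith
  rw [EuclideanSpace.dist_eq, Real.sqrt_lt' (by norm_num)]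
  have h3 : ∀ k, dist (x k) (y k) ^ 2 ≤ (1 / 2) ^ 2 := by
    intro k
    rw [Real.dist_eq]
    exact pow_le_pow_left₀ (abs_nonneg _) (hk k).le 2
  calc ∑ k, dist (x k) (y k) ^ 2 ≤ ∑ _k : Fin 3, (1 / 2 : ℝ) ^ 2 := Finset.sum_le_sum fun k _ => h3 k
    _ < 1 ^ 2 := by simp; norm_num

theorem U_eq (c : ℝ → ℝ) {ι : Type} [Fintype ι] [DecidableEq ι] (x : ι → Pt) :
    U c x = (∑ i, ∑ j, if i = j then 0 else c (dist (x i) (x j))) / 2 := by
  unfold U SS
  congr 1
  have : ∀ i j, c (dist (x i) (x j)) = (if i = j then 0 else c (dist (x i) (x j)))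
      + if i = j then c 0 else 0 := by
    intro i j
    by_cases h : i = j
    · subst h; simp
    · simp [h]
  have h2 : ∑ i, ∑ j, c (dist (x i) (x j))
      = (∑ i, ∑ j, if i = j then 0 else c (dist (x i) (x j))) + Fintype.card ι * c 0 := by
    calc ∑ i, ∑ j, c (dist (x i) (x j))
        = ∑ i, ∑ j, ((if i = j then 0 else c (dist (x i) (x j))) + if i = j then c 0 else 0) :=
          Finset.sum_congr rfl fun i _ => Finset.sum_congr rfl fun j _ => this i j
      _ = _ := by
          simp only [Finset.sum_add_distrib]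
          simp
  rw [h2]; ring

theorem superStab : SuperStabStmt := by
  classical
  intro c K M hc hK hM h ι _ x
  rw [U_eq]
  set κ : ι → (Fin 3 → ℤ) := fun i => cell (1 / 2) 0 (x i) with hκ
  set S : Finset (Fin 3 → ℤ) := Finset.univ.image κ with hS
  have hmaps : ∀ i ∈ (Finset.univ : Finset ι), κ i ∈ S := fun i hi => Finset.mem_image_of_mem κ hi
  -- fiberwise decomposition
  have fib : ∀ f : ι → ι → ℝ, (∑ i, ∑ j, if κ i = κ j then f i j else 0)
      = ∑ v ∈ S, ∑ i : {i // κ i = v}, ∑ j : {i // κ i = v}, f i j := by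
    intro f
    rw [← Finset.sum_fiberwise_of_maps_to hmaps]
    refine Finset.sum_congr rfl fun v _ => ?_
    rw [← Finset.sum_subtype (Finset.univ.filter fun i => κ i = v) (by intro i; simp)
      (fun i => ∑ j : {i // κ i = v}, f i j)]
    refine Finset.sum_congr rfl fun i hi => ?_
    have hi : κ i = v := (Finset.mem_filter.1 hi).2
    rw [← Finset.sum_filter, ← Finset.sum_subtype (Finset.univ.filter fun j => κ i = κ j)
      (by intro j; simp [hi, eq_comm]) (fun j => f i j)]
  have hN2 : N2 (1 / 2) 0 x = ∑ v ∈ S, (Fintype.card {i // κ i = v} : ℝ) ^ 2 := by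
    unfold N2
    have := fib (fun _ _ => 1)
    refine this.trans (Finset.sum_congr rfl fun v _ => ?_)
    simp [sq]
  have hcard : (Fintype.card ι : ℝ) = ∑ v ∈ S, (Fintype.card {i // κ i = v} : ℝ) := by
    have h1 : ∑ v ∈ S, ∑ i ∈ Finset.univ.filter (fun i => κ i = v), (1 : ℝ) = ∑ i : ι, (1 : ℝ) :=
      Finset.sum_fiberwise_of_maps_to hmaps _
    have h2 : ∀ v, ∑ i ∈ Finset.univ.filter (fun i => κ i = v), (1 : ℝ)
        = (Fintype.card {i // κ i = v} : ℝ) := by
      intro v
      rw [Fintype.card_subtype]; simp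
    simp only [h2] at h1
    rw [h1]; simp
  have hloc : ∀ v ∈ S, M * ((Fintype.card {i // κ i = v} : ℝ) ^ 2 / K - Fintype.card {i // κ i = v})
      ≤ ∑ i : {i // κ i = v}, ∑ j : {i // κ i = v},
        if (i : ι) = j then 0 else c (dist (x i) (x j)) := by
    intro v _
    refine (local_bound hc hK hM h (fun i : {i // κ i = v} => x i) ?_).trans (le_of_eq ?_)
    · intro i j
      exact dist_lt_one_of_cell (i.2.trans j.2.symm)
    · refine Finset.sum_congr rfl fun i _ => Finset.sum_congr rfl fun j _ => ?_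
      simp [Subtype.ext_iff]
  have hsum := Finset.sum_le_sum hloc
  rw [← fib (fun i j => if i = j then 0 else c (dist (x i) (x j)))] at hsum
  have hle : (∑ i, ∑ j, if κ i = κ j then (if i = j then 0 else c (dist (x i) (x j))) else 0)
      ≤ ∑ i, ∑ j, if i = j then 0 else c (dist (x i) (x j)) := by
    refine Finset.sum_le_sum fun i _ => Finset.sum_le_sum fun j _ => ?_
    by_cases h1 : κ i = κ j
    · simp [h1]
    · simp only [h1, if_false]
      split_ifs
      · exact le_rfl
      · exact hc _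
  have h3 := hsum.trans hle
  rw [← Finset.mul_sum, Finset.sum_sub_distrib, ← Finset.sum_div, ← hN2, ← hcard] at h3
  have h4 : M * (N2 (1 / 2) 0 x / (2 * K) - Fintype.card ι / 2)
      = M * (N2 (1 / 2) 0 x / K - Fintype.card ι) / 2 := by
    have hK0 : (0 : ℝ) < K := by exact_mod_cast hK
    field_simp
  rw [h4]
  linarith

end Crest.Agent.R149.SuperStab
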