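import Crest.Agent.R149.Stmts
import Crest.Agent.R149.Canon
import Crest.Agent.R149.SuperStab
import Crest.Agent.R149.Packing

/-!
# Row 149: lower bound for the pressure of the base model (trial configurations)
-/

set_option autoImplicit false

open MeasureTheory Crest.ProbabilityR.Continuum Filter Topology
open scoped ENNReal

namespace Crest.Agent.R149.BaseLower

open Crest.Agent.R149.Canon

theorem U_eq_dbl (c : ℝ → ℝ) {ι : Type} [Fintype ι] (x : ι → Pt) : U c x = dbl c x / 2 := by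
  classical
  rw [SuperStab.U_eq, dbl_def]

theorem A_zero {ι : Type} [Fintype ι] (x : ι → Pt) : A (fun _ => 0) x = 0 := by
  simp [A, SS]

theorem ZF_eq_ZL (c : ℝ → ℝ) (β : ℝ) (S : Set Pt) (n : ℕ) :
    ZF (HF c (fun _ => 0) β) S n = ZL c β S n := by
  unfold ZF ZL I
  congr 1
  refine lintegral_congr fun x => ?_
  unfold wt HF Ham
  rw [U_eq_dbl, A_zero]
  congr 2
  ring

theorem ZL_one (c : ℝ → ℝ) (β : ℝ) (S : Set Pt) : ZL c β S 1 = volume S := by
  unfold ZL I wt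
  have : ∀ x : Fin 1 → Pt, dbl c x = 0 := fun x => by rw [dbl_def]; simp
  simp [this, volume_pi_pi]

/-- the volume of a cluster region -/
theorem cluster_volume {k : ℕ} (w : Fin k → Pt) (u : Pt) (a b : ℝ) :
    volume {x : Fin (k + 1) → Pt | dist (x 0) u < a ∧ ∀ i : Fin k, dist (x i.succ) (x 0 + w i) < b}
      = volume (Metric.ball u a) * ∏ _i : Fin k, volume (Metric.ball (0 : Pt) b) := by
  set G' : Set (Pt × (Fin k → Pt)) := {q | dist q.1 u < a ∧ ∀ i : Fin k, dist (q.2 i) (q.1 + w i) < b}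
    with hG'
  have hG'm : MeasurableSet G' := by
    have : G' = {q : Pt × (Fin k → Pt) | dist q.1 u < a} ∩
        ⋂ i : Fin k, {q : Pt × (Fin k → Pt) | dist (q.2 i) (q.1 + w i) < b} := by
      ext q; simp [hG']
    rw [this]
    refine MeasurableSet.inter ?_ (MeasurableSet.iInter fun i => ?_)
    · exact (isOpen_lt (by fun_prop) (by fun_prop)).measurableSet
    · exact (isOpen_lt (by fun_prop) (by fun_prop)).measurableSet
  have hmp := volume_preserving_piFinSuccAbove (fun _ : Fin (k + 1) => Pt) 0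
  have hpre : {x : Fin (k + 1) → Pt | dist (x 0) u < a ∧ ∀ i : Fin k, dist (x i.succ) (x 0 + w i) < b}
      = (MeasurableEquiv.piFinSuccAbove (fun _ : Fin (k + 1) => Pt) 0) ⁻¹' G' := by
    ext x
    simp only [hG', Set.mem_ofPred_eq, Set.mem_preimage]
    rfl
  rw [hpre, hmp.measure_preimage hG'm.nullMeasurableSet, Measure.volume_eq_prod,
    Measure.prod_apply hG'm]
  have hslice : ∀ q : Pt, volume (Prod.mk q ⁻¹' G')
      = (Metric.ball u a).indicator (fun _ => ∏ _i : Fin k, volume (Metric.ball (0 : Pt) b)) q := by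
    intro q
    by_cases hq : q ∈ Metric.ball u a
    · rw [Set.indicator_of_mem hq]
      have : Prod.mk q ⁻¹' G' = Set.pi Set.univ (fun i : Fin k => Metric.ball (q + w i) b) := by
        ext z
        simp only [hG', Set.mem_preimage, Set.mem_ofPred_eq, Set.mem_pi, Set.mem_univ, true_imp_iff,
          Metric.mem_ball]
        exact ⟨fun h => h.2, fun h => ⟨hq, h⟩⟩
      rw [this, volume_pi_pi]
      refine Finset.prod_congr rfl fun i _ => ?_
      exact Measure.addHaar_ball_center _ _ _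
    · rw [Set.indicator_of_notMem hq]
      have : Prod.mk q ⁻¹' G' = ∅ := by
        ext z
        simp only [hG', Set.mem_preimage, Set.mem_ofPred_eq, Set.mem_empty_iff_false, iff_false]
        exact fun h => hq h.1
      rw [this, measure_empty]
  simp only [hslice]
  rw [lintegral_indicator Metric.isOpen_ball.measurableSet, setLIntegral_const, mul_comm]

theorem cluster_weight {c : ℝ → ℝ} (β : ℝ) {k : ℕ} {θ₂ θ₃ δ ε D τ : ℝ} (hc : Measurable c)
    (y : Fin (k + 1) → Pt) (hδ : 0 < δ) (hε : 0 ≤ ε)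
    (win : ∀ r, θ₂ * δ ≤ r → r ≤ θ₃ * δ → c r = 0)
    (h1 : ∀ i j, i ≠ j → θ₂ + 2 * ε ≤ dist (y i) (y j))
    (h2 : ∀ i j, i ≠ j → dist (y i) (y j) ≤ θ₃ - 2 * ε)
    (hD : ∀ i, dist (y i) (y 0) ≤ D) (hτ : δ * (D + ε) ≤ τ / 2) (u : Pt) :
    ((k + 1).factorial : ℝ≥0∞)⁻¹ * (volume (Metric.ball u (τ / 2))
        * volume (Metric.ball (0 : Pt) (ε * δ)) ^ k)
      ≤ ZL c β (Metric.ball u τ) (k + 1) := by
  unfold ZL
  refine mul_le_mul_right ?_ _
  have hvol := cluster_volume (fun i : Fin k => δ • (y i.succ - y 0)) u (τ / 2) (ε * δ)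
  rw [Finset.prod_const, Finset.card_univ, Fintype.card_fin] at hvol
  rw [← hvol]
  set G : Set (Fin (k + 1) → Pt) := {x | dist (x 0) u < τ / 2 ∧
    ∀ i : Fin k, dist (x i.succ) (x 0 + δ • (y i.succ - y 0)) < ε * δ} with hG
  have hεδ : 0 ≤ ε * δ := mul_nonneg hε hδ.le
  -- uniform form
  have hall : ∀ x ∈ G, ∀ i, dist (x i) (x 0 + δ • (y i - y 0)) ≤ ε * δ := by
    intro x hx i
    refine Fin.cases ?_ (fun i => ?_) i
    · simpa using hεδ
    · exact (hx.2 i).le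
  have hsub : G ⊆ Set.pi Set.univ (fun _ : Fin (k + 1) => Metric.ball u τ) := by
    intro x hx i _
    rw [Metric.mem_ball]
    have e1 := hall x hx i
    have e2 : dist (x 0 + δ • (y i - y 0)) (x 0) ≤ δ * D := by
      rw [dist_eq_norm, add_sub_cancel_left, norm_smul, Real.norm_of_nonneg hδ.le, ← dist_eq_norm]
      exact mul_le_mul_of_nonneg_left (hD i) hδ.le
    have e3 : dist (x 0) u < τ / 2 := hx.1
    calc dist (x i) u ≤ dist (x i) (x 0 + δ • (y i - y 0)) + dist (x 0 + δ • (y i - y 0)) (x 0)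
          + dist (x 0) u := dist_triangle4 _ _ _ _
      _ < ε * δ + δ * D + τ / 2 := by linarith
      _ ≤ τ := by nlinarith
  have hwt : ∀ x ∈ G, wt c β x = 1 := by
    intro x hx
    have hz : dbl c x = 0 := by
      classical
      rw [dbl_def]
      refine Finset.sum_eq_zero fun i _ => Finset.sum_eq_zero fun j _ => ?_
      by_cases hij : i = j
      · simp [hij]
      · rw [if_neg hij]
        have e1 := hall x hx i
        have e2 := hall x hx j
        have e3 : dist (x 0 + δ • (y i - y 0)) (x 0 + δ • (y j - y 0)) = δ * dist (y i) (y j) := by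
          rw [dist_eq_norm, add_sub_add_left_eq_sub, ← smul_sub, norm_smul,
            Real.norm_of_nonneg hδ.le, sub_sub_sub_cancel_right, ← dist_eq_norm]
        have e4 := h1 i j hij
        have e5 := h2 i j hij
        have e6 : dist (x i) (x j) ≤ ε * δ + δ * dist (y i) (y j) + ε * δ := by
          calc dist (x i) (x j) ≤ dist (x i) (x 0 + δ • (y i - y 0))
                + dist (x 0 + δ • (y i - y 0)) (x 0 + δ • (y j - y 0))
                + dist (x 0 + δ • (y j - y 0)) (x j) := dist_triangle4 _ _ _ _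
            _ ≤ _ := by rw [e3, dist_comm _ (x j)]; linarith
        have e7 : δ * dist (y i) (y j) ≤ ε * δ + dist (x i) (x j) + ε * δ := by
          rw [← e3]
          calc dist (x 0 + δ • (y i - y 0)) (x 0 + δ • (y j - y 0))
                ≤ dist (x 0 + δ • (y i - y 0)) (x i) + dist (x i) (x j)
                + dist (x j) (x 0 + δ • (y j - y 0)) := dist_triangle4 _ _ _ _
            _ ≤ _ := by rw [dist_comm _ (x i)]; linarith
        apply win
        · nlinarith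
        · nlinarith
    unfold wt
    rw [hz]; simp
  unfold I
  calc volume G = ∫⁻ x in G, 1 := by simp
    _ ≤ ∫⁻ x in G, wt c β x :=
        setLIntegral_mono (measurable_wt hc β) fun x hx => (hwt x hx).ge
    _ ≤ _ := lintegral_mono_set hsub

/-- sites: balls of radius `τ` around well separated points of the cube -/
theorem sites_bound {c : ℝ → ℝ} {β ξ τ L : ℝ} (hc : Measurable c) (hβ : 0 ≤ β)
    (hξ : 0 ≤ ξ) (far : ∀ r, 1 + ξ ≤ r → c r = 0) (X : Finset Pt)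
    (hX : ∀ x ∈ X, Metric.ball x τ ⊆ cube L)
    (hsep : ∀ x ∈ X, ∀ y ∈ X, x ≠ y → 1 + ξ + 2 * τ ≤ dist x y)
    (n : ℕ) (v : ℝ≥0∞) (hv : ∀ x ∈ X, v ≤ ZL c β (Metric.ball x τ) n) :
    v ^ X.card ≤ ZL c β (cube L) (X.card * n) := by
  have hd : ∀ x ∈ X, ∀ y ∈ X, x ≠ y → ∀ a ∈ Metric.ball x τ, ∀ b ∈ Metric.ball y τ,
      1 + ξ ≤ dist a b := by
    intro x hx y hy hxy a ha b hb
    have h := hsep x hx y hy hxy
    rw [Metric.mem_ball] at ha hb
    have := dist_triangle4 x a b y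
    rw [dist_comm x a] at this
    linarith
  have h := prod_ZL_le hc hβ X (fun x => Metric.ball x τ) (fun _ => n) (cube L)
    (fun x _ => Metric.isOpen_ball.measurableSet) hX
    (fun x hx y hy hxy => by
      rw [Set.disjoint_left]
      intro a ha hb
      have := hd x hx y hy hxy a ha a hb
      rw [dist_self] at this
      linarith)
    (fun x hx y hy hxy a ha b hb => (far _ (hd x hx y hy hxy a ha b hb)).le)
  rw [Finset.sum_const, smul_eq_mul] at h
  refine le_trans ?_ h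
  rw [← Finset.prod_const]
  exact Finset.prod_le_prod' hv

theorem mem_cube_of_ball {x z : Pt} {τ a : ℝ} (hz : z ∈ Metric.ball x τ)
    (h : ∀ k, τ ≤ x k ∧ x k ≤ a - τ) : z ∈ cube a := by
  intro k
  have h1 := Packing.coord_le_dist z x k
  rw [Metric.mem_ball] at hz
  have h2 := abs_le.1 (h1.trans hz.le)
  have h3 := h k
  constructor <;> linarith

/-- sites from a packing -/
theorem exists_sites {ℓ s τ L : ℝ} (hℓ : 0 ≤ ℓ) (hs : 0 < s) (hL : s * ℓ + 2 * τ ≤ L) :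
    ∃ X : Finset Pt, X.card = packingNumber ℓ ∧ (∀ x ∈ X, Metric.ball x τ ⊆ cube L) ∧
      ∀ x ∈ X, ∀ y ∈ X, x ≠ y → s ≤ dist x y := by
  classical
  obtain ⟨X, hcard, hX, hsep⟩ := Packing.packingNumber_mem hℓ
  let t : Pt := WithLp.toLp 2 (fun _ => τ)
  have ht : ∀ k, t k = τ := fun k => rfl
  let f : Pt → Pt := fun x => s • x + t
  have hf : ∀ x y, dist (f x) (f y) = s * dist x y := by
    intro x y
    simp only [f, dist_add_right]
    rw [dist_smul₀, Real.norm_of_nonneg hs.le]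
  have hinj : Function.Injective f := by
    intro x y hxy
    have h0 : s * dist x y = 0 := by rw [← hf, hxy, dist_self]
    rcases mul_eq_zero.1 h0 with h | h
    · exact absurd h hs.ne'
    · exact dist_eq_zero.1 h
  refine ⟨X.image f, ?_, ?_, ?_⟩
  · rw [Finset.card_image_of_injective _ hinj, hcard]
  · intro z hz
    obtain ⟨x, hx, rfl⟩ := Finset.mem_image.1 hz
    intro w hw
    refine mem_cube_of_ball hw fun k => ?_
    have h1 := hX x hx k
    have h2 : f x k = s * x k + τ := by simp [f, ht]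
    rw [h2]
    constructor
    · nlinarith [mul_nonneg hs.le h1.1]
    · nlinarith [mul_le_mul_of_nonneg_left h1.2 hs.le]
  · intro z hz w hw hzw
    obtain ⟨x, hx, rfl⟩ := Finset.mem_image.1 hz
    obtain ⟨y, hy, rfl⟩ := Finset.mem_image.1 hw
    have hxy : x ≠ y := fun h => hzw (by rw [h])
    rw [hf]
    nlinarith [hsep x hx y hy hxy]

/-- The supremand of the pressure. -/
noncomputable def term (c α : ℝ → ℝ) (β h : ℝ) (q : ℕ × ℕ) : ℝ :=
  (h * q.2 + LZ c α β ((q.1 : ℝ) + 1) q.2) / ((q.1 : ℝ) + 3) ^ 3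

theorem term_le {c α : ℝ → ℝ} {B β : ℝ} (hp : LZProps c α B β) (h : ℝ) (q : ℕ × ℕ) :
    term c α β h q ≤ Real.exp (h + β * B) := by
  unfold term
  have hq : (0 : ℝ) ≤ (q.1 : ℝ) := Nat.cast_nonneg _
  have hpos : (0 : ℝ) < ((q.1 : ℝ) + 3) ^ 3 := by positivity
  rw [div_le_iff₀ hpos]
  have h1 := hp.upper ((q.1 : ℝ) + 1) q.2 h (by positivity)
  have h2 : ((q.1 : ℝ) + 1) ^ 3 ≤ ((q.1 : ℝ) + 3) ^ 3 := by gcongr; norm_num
  calc h * q.2 + LZ c α β ((q.1 : ℝ) + 1) q.2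
      ≤ ((q.1 : ℝ) + 1) ^ 3 * Real.exp (h + β * B) := h1
    _ ≤ ((q.1 : ℝ) + 3) ^ 3 * Real.exp (h + β * B) := by gcongr
    _ = _ := mul_comm _ _

theorem term_le_Pr {c α : ℝ → ℝ} {B β : ℝ} (hp : LZProps c α B β) (h : ℝ) (q : ℕ × ℕ) :
    term c α β h q ≤ Pr c α β h :=
  le_ciSup (f := fun q : ℕ × ℕ => (h * q.2 + LZ c α β ((q.1 : ℝ) + 1) q.2) / ((q.1 : ℝ) + 3) ^ 3)
    ⟨Real.exp (h + β * B), by rintro _ ⟨q, rfl⟩; exact term_le hp h q⟩ q

theorem LZ_ge {c : ℝ → ℝ} {B β L : ℝ} {n m : ℕ} {v : ℝ} (hp : LZProps c (fun _ => 0) B β)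
    (hL : 0 < L) (hv : 0 < v) (h : ENNReal.ofReal v ^ m ≤ ZL c β (cube L) n) :
    m * Real.log v ≤ LZ c (fun _ => 0) β L n := by
  unfold LZ
  rw [← Real.log_pow]
  refine Real.log_le_log (pow_pos hv m) ?_
  have h0 : ENNReal.ofReal v ^ m ≤ ZF (HF c (fun _ => 0) β) (cube L) n := by
    rw [ZF_eq_ZL]; exact h
  have h1 := ENNReal.toReal_mono (hp.fin L n hL) h0
  rwa [ENNReal.toReal_pow, ENNReal.toReal_ofReal hv.le] at h1

theorem volume_ball_eq (u : Pt) {r : ℝ} (hr : 0 ≤ r) :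
    volume (Metric.ball u r) = ENNReal.ofReal (r ^ 3 * (Real.pi * 4 / 3)) := by
  rw [EuclideanSpace.volume_ball_fin_three, ENNReal.ofReal_mul (pow_nonneg hr 3),
    ENNReal.ofReal_pow hr]

theorem exists_eps {K : ℕ} {θ₂ θ₃ : ℝ} (y : Fin K → Pt)
    (hy : ∀ i j, i ≠ j → θ₂ < dist (y i) (y j) ∧ dist (y i) (y j) < θ₃) :
    ∃ ε : ℝ, 0 < ε ∧ ∀ i j, i ≠ j → θ₂ + 2 * ε ≤ dist (y i) (y j) ∧ dist (y i) (y j) ≤ θ₃ - 2 * ε := by
  have h : ∀ i j, ∀ᶠ ε in 𝓝[>] (0 : ℝ), i ≠ j →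
      θ₂ + 2 * ε ≤ dist (y i) (y j) ∧ dist (y i) (y j) ≤ θ₃ - 2 * ε := by
    intro i j
    by_cases hij : i = j
    · exact Eventually.of_forall fun _ h => absurd hij h
    have h1 : Tendsto (fun ε : ℝ => θ₂ + 2 * ε) (𝓝[>] 0) (𝓝 (θ₂ + 2 * 0)) :=
      (Continuous.tendsto (by fun_prop) 0).mono_left nhdsWithin_le_nhds
    have h2 : Tendsto (fun ε : ℝ => θ₃ - 2 * ε) (𝓝[>] 0) (𝓝 (θ₃ - 2 * 0)) :=
      (Continuous.tendsto (by fun_prop) 0).mono_left nhdsWithin_le_nhds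
    have h3 := h1.eventually (Iio_mem_nhds (show θ₂ + 2 * 0 < dist (y i) (y j) by
      simpa using (hy i j hij).1))
    have h4 := h2.eventually (Ioi_mem_nhds (show dist (y i) (y j) < θ₃ - 2 * 0 by
      simpa using (hy i j hij).2))
    filter_upwards [h3, h4] with ε h5 h6 _
    exact ⟨le_of_lt h5, le_of_lt h6⟩
  have h' := (Filter.eventually_all.2 fun i => Filter.eventually_all.2 fun j => h i j).and
    self_mem_nhdsWithin
  obtain ⟨ε, hε, hε0⟩ := h'.exists
  exact ⟨ε, hε0, hε⟩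

theorem coreOK_stab {c : ℝ → ℝ} (hc : CoreOK c) : Stab c (fun _ => 0) 0 := by
  classical
  refine ⟨le_rfl, fun ι _ x => ?_⟩
  rw [A_zero, SuperStab.U_eq]
  have : 0 ≤ ∑ i, ∑ j, if i = j then 0 else c (dist (x i) (x j)) :=
    Finset.sum_nonneg fun i _ => Finset.sum_nonneg fun j _ => by
      split_ifs
      · exact le_rfl
      · exact hc.nonneg _
  simp only [zero_mul, add_zero]
  positivity

theorem attrOK_zero : AttrOK (fun _ => 0) :=
  ⟨measurable_const, fun _ => le_rfl, ⟨0, fun _ => le_rfl⟩⟩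

theorem exists_xi {p η : ℝ} (hp : 0 < p) (hη : 0 < η) :
    ∃ ξ : ℝ, 0 < ξ ∧ ξ ≤ 1 ∧ p - η < p / (1 + 3 * ξ) ^ 3 ∧ p / (1 + 3 * ξ) ^ 3 < p := by
  refine ⟨min 1 (η / (18 * p)), lt_min one_pos (by positivity), min_le_left _ _, ?_, ?_⟩
  · set ξ := min 1 (η / (18 * p)) with hξ
    have h0 : 0 < ξ := lt_min one_pos (by positivity)
    have h1 : ξ ≤ η / (18 * p) := min_le_right _ _
    have h2 : ξ * (18 * p) ≤ η := by rwa [le_div_iff₀ (by positivity)] at h1
    rw [lt_div_iff₀ (by positivity)]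
    have h3 : (p - η) * (1 + 3 * ξ) ^ 3 ≤ (p * (1 - 18 * ξ)) * (1 + 3 * ξ) ^ 3 :=
      mul_le_mul_of_nonneg_right (by nlinarith) (by positivity)
    refine h3.trans_lt ?_
    have h4 : (1 - 18 * ξ) * (1 + 3 * ξ) ^ 3 < 1 := by
      nlinarith [h0, mul_pos h0 h0, mul_pos (mul_pos h0 h0) h0, mul_pos (mul_pos h0 h0) (mul_pos h0 h0)]
    nlinarith
  · set ξ := min 1 (η / (18 * p)) with hξ
    have h0 : 0 < ξ := lt_min one_pos (by positivity)
    rw [div_lt_iff₀ (by positivity)]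
    have : 1 < (1 + 3 * ξ) ^ 3 := one_lt_pow₀ (by linarith) (by norm_num)
    nlinarith

theorem exists_ell {p η ξ : ℝ} (hξ : 0 < ξ)
    (h1 : p - η < p / (1 + 3 * ξ) ^ 3) (h2 : p / (1 + 3 * ξ) ^ 3 < p)
    (hp : Tendsto (fun L : ℝ => (packingNumber L : ℝ) / L ^ 3) atTop (𝓝 p)) :
    ∃ ℓ : ℝ, 0 < ℓ ∧
      p - η ≤ (packingNumber ℓ : ℝ) / ((⌈(1 + 3 * ξ) * ℓ + 2 * ξ⌉₊ : ℝ) + 2) ^ 3 ∧
      (packingNumber ℓ : ℝ) / ((⌈(1 + 3 * ξ) * ℓ + 2 * ξ⌉₊ : ℝ) + 2) ^ 3 ≤ p := by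
  have hs : (0 : ℝ) < 1 + 3 * ξ := by positivity
  have hinv : Tendsto (fun ℓ : ℝ => (2 * ξ + 3) / ℓ) atTop (𝓝 0) :=
    tendsto_const_nhds.div_atTop tendsto_id
  have hA : Tendsto (fun ℓ : ℝ => ((packingNumber ℓ : ℝ) / ℓ ^ 3) / (1 + 3 * ξ) ^ 3) atTop
      (𝓝 (p / (1 + 3 * ξ) ^ 3)) := hp.div_const _
  have hB : Tendsto (fun ℓ : ℝ => ((packingNumber ℓ : ℝ) / ℓ ^ 3)
      / (1 + 3 * ξ + (2 * ξ + 3) / ℓ) ^ 3) atTop (𝓝 (p / (1 + 3 * ξ + 0) ^ 3)) := by
    refine hp.div ((tendsto_const_nhds.add hinv).pow 3) ?_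
    positivity
  rw [add_zero] at hB
  have e1 := hA.eventually (Iio_mem_nhds h2)
  have e2 := hB.eventually (Ioi_mem_nhds h1)
  obtain ⟨ℓ, ⟨h3, h4⟩, h5⟩ := ((e1.and e2).and (eventually_gt_atTop 0)).exists
  refine ⟨ℓ, h5, ?_, ?_⟩
  · refine le_of_lt (lt_of_lt_of_le h4 ?_)
    have h6 : (packingNumber ℓ : ℝ) / ℓ ^ 3 / (1 + 3 * ξ + (2 * ξ + 3) / ℓ) ^ 3
        = (packingNumber ℓ : ℝ) / ((1 + 3 * ξ) * ℓ + (2 * ξ + 3)) ^ 3 := by
      rw [div_div, ← mul_pow]
      congr 2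
      field_simp
    rw [h6]
    have h7 : (⌈(1 + 3 * ξ) * ℓ + 2 * ξ⌉₊ : ℝ) < (1 + 3 * ξ) * ℓ + 2 * ξ + 1 :=
      Nat.ceil_lt_add_one (by positivity)
    refine div_le_div_of_nonneg_left (Nat.cast_nonneg _) (by positivity) ?_
    exact pow_le_pow_left₀ (by positivity) (by linarith) 3
  · refine le_trans ?_ (le_of_lt h3)
    rw [div_div, ← mul_pow]
    have h7 : (1 + 3 * ξ) * ℓ + 2 * ξ ≤ (⌈(1 + 3 * ξ) * ℓ + 2 * ξ⌉₊ : ℝ) := Nat.le_ceil _
    refine div_le_div_of_nonneg_left (Nat.cast_nonneg _) (by positivity) ?_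
    exact pow_le_pow_left₀ (by positivity) (by nlinarith) 3

theorem baseLower (hLZ : LZPropsStmt) : BaseLowerStmt := by
  intro K θ₂ θ₃ p η hK hp hpack hη
  obtain ⟨ξ, hξ, hξ1, hx1, hx2⟩ := exists_xi hp hη
  obtain ⟨ℓ, hℓ, hl1, hl2⟩ := exists_ell hξ hx1 hx2 hpack
  obtain ⟨y, hy⟩ := hK.ex
  obtain ⟨k, rfl⟩ : ∃ k, K = k + 1 := ⟨K - 1, by have := hK.two_le; omega⟩
  obtain ⟨ε, hε, hyε⟩ := exists_eps y hy
  set D : ℝ := ∑ i, dist (y i) (y 0) with hD
  have hDi : ∀ i, dist (y i) (y 0) ≤ D := fun i =>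
    Finset.single_le_sum (f := fun i => dist (y i) (y 0)) (fun _ _ => dist_nonneg) (Finset.mem_univ i)
  set V : ℝ := Real.pi * 4 / 3 with hV
  have hVpos : 0 < V := by positivity
  set w1 : ℝ := ξ ^ 3 * V with hw1
  have hw1pos : 0 < w1 := by positivity
  set CK : ℝ := ((k + 1).factorial : ℝ)⁻¹ * ((ξ / 2) ^ 3 * V) * (ε ^ 3 * V) ^ k with hCK
  have hCKpos : 0 < CK := by
    have : (0 : ℝ) < (k + 1).factorial := by exact_mod_cast Nat.factorial_pos _
    positivity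
  -- the threshold
  have ev : ∀ᶠ Λ : ℝ in atTop, Real.exp (-Λ / 3) * (D + ε) ≤ ξ / 2 ∧ p * |Real.log w1| ≤ Λ * η ∧
      p * |Real.log CK| ≤ Λ * η ∧ 0 < Λ := by
    have t1 : Tendsto (fun Λ : ℝ => Real.exp (-Λ / 3) * (D + ε)) atTop (𝓝 (0 * (D + ε))) := by
      refine Tendsto.mul_const _ ?_
      refine Real.tendsto_exp_atBot.comp ?_
      refine Tendsto.atBot_div_const (by norm_num) tendsto_neg_atTop_atBot
    rw [zero_mul] at t1
    have t2 : Tendsto (fun Λ : ℝ => Λ * η) atTop atTop := tendsto_id.atTop_mul_const hη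
    filter_upwards [t1.eventually (Iio_mem_nhds (show (0:ℝ) < ξ / 2 by positivity)),
      t2.eventually_ge_atTop (p * |Real.log w1|), t2.eventually_ge_atTop (p * |Real.log CK|),
      eventually_gt_atTop 0] with Λ a1 a2 a3 a4
    exact ⟨le_of_lt a1, a2, a3, a4⟩
  obtain ⟨Λ0, hΛ0⟩ := eventually_atTop.1 ev
  refine ⟨ξ, Λ0, hξ, hξ1, fun Λ hΛ M c hc => ?_⟩
  obtain ⟨b1, b2, b3, b4⟩ := hΛ0 Λ hΛ
  set Ln : ℕ := ⌈(1 + 3 * ξ) * ℓ + 2 * ξ⌉₊ with hLn
  have hLn1 : 1 ≤ Ln := Nat.one_le_ceil_iff.2 (by positivity)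
  set p' : ℝ := (packingNumber ℓ : ℝ) / ((Ln : ℝ) + 2) ^ 3 with hp'
  have hp'0 : 0 ≤ p' := by positivity
  refine ⟨p', hl1, hl2, fun β h hβ => ?_⟩
  have hprops : LZProps c (fun _ => 0) 0 β := hLZ c _ 0 β hc.toCoreOK attrOK_zero
    (coreOK_stab hc.toCoreOK) hβ
  set δ : ℝ := Real.exp (-Λ / 3) with hδ
  have hδ0 : 0 < δ := Real.exp_pos _
  obtain ⟨X, hXcard, hXcube, hXsep⟩ := exists_sites (ℓ := ℓ) (s := 1 + 3 * ξ) (τ := ξ) (L := Ln)
    hℓ.le (by positivity) (Nat.le_ceil _)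
  have hsep : ∀ x ∈ X, ∀ y ∈ X, x ≠ y → 1 + ξ + 2 * ξ ≤ dist x y := by
    intro x hx y hy hxy
    have := hXsep x hx y hy hxy
    linarith
  have hLpos : (0 : ℝ) < Ln := by exact_mod_cast hLn1
  -- general consequence
  have main : ∀ (n : ℕ) (v : ℝ), 0 < v →
      (∀ x ∈ X, ENNReal.ofReal v ≤ ZL c β (Metric.ball x ξ) n) →
      p' * (Λ * h * n + Real.log v) ≤ Pr c (fun _ => 0) β (Λ * h) := by
    intro n v hv hx
    have h1 := sites_bound (β := β) hc.meas hβ.le hξ.le hc.far' X hXcube hsep n _ hx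
    have h2 := LZ_ge hprops hLpos hv h1
    have h3 := term_le_Pr hprops (Λ * h) (Ln - 1, X.card * n)
    refine le_trans ?_ h3
    have h4 : (((Ln - 1 : ℕ) : ℝ) + 1) = Ln := by
      rw [Nat.cast_sub hLn1]; simp
    have h5 : (((Ln - 1 : ℕ) : ℝ) + 3) = Ln + 2 := by
      rw [Nat.cast_sub hLn1]; push_cast; ring
    unfold term
    simp only [h4, h5]
    rw [hp', div_mul_eq_mul_div]
    refine div_le_div_of_nonneg_right ?_ (by positivity)
    rw [← hXcard]
    push_cast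
    nlinarith [h2]
  have t0 : Λ * (0 - η) ≤ Pr c (fun _ => 0) β (Λ * h) := by
    have h3 := term_le_Pr hprops (Λ * h) (Ln - 1, 0)
    refine le_trans ?_ h3
    unfold term
    simp only [hprops.zero, Nat.cast_zero, mul_zero, add_zero, zero_div]
    nlinarith
  have t1 : Λ * (p' * h - η) ≤ Pr c (fun _ => 0) β (Λ * h) := by
    refine le_trans ?_ (main 1 w1 hw1pos fun x _ => ?_)
    · have : -(Λ * η) ≤ p' * Real.log w1 := by
        have h1 : p' * |Real.log w1| ≤ p * |Real.log w1| :=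
          mul_le_mul_of_nonneg_right hl2 (abs_nonneg _)
        have h2 : p' * (-|Real.log w1|) ≤ p' * Real.log w1 :=
          mul_le_mul_of_nonneg_left (neg_abs_le _) hp'0
        linarith
      push_cast
      nlinarith
    · rw [ZL_one, volume_ball_eq x hξ.le]
  have t2 : Λ * (p' * (((k + 1 : ℕ) : ℝ) * h - (((k + 1 : ℕ) : ℝ) - 1)) - η)
      ≤ Pr c (fun _ => 0) β (Λ * h) := by
    have hv : 0 < CK * (δ ^ 3) ^ k := by positivity
    refine le_trans ?_ (main (k + 1) (CK * (δ ^ 3) ^ k) hv fun x _ => ?_)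
    · have hlog : Real.log (CK * (δ ^ 3) ^ k) = Real.log CK - k * Λ := by
        rw [Real.log_mul hCKpos.ne' (by positivity), Real.log_pow, Real.log_pow, hδ, Real.log_exp]
        push_cast; ring
      rw [hlog]
      have : -(Λ * η) ≤ p' * Real.log CK := by
        have h1 : p' * |Real.log CK| ≤ p * |Real.log CK| :=
          mul_le_mul_of_nonneg_right hl2 (abs_nonneg _)
        have h2 : p' * (-|Real.log CK|) ≤ p' * Real.log CK :=
          mul_le_mul_of_nonneg_left (neg_abs_le _) hp'0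
        linarith
      push_cast
      nlinarith
    · have hcw := cluster_weight β (τ := ξ) hc.meas y hδ0 hε.le hc.win
        (fun i j hij => (hyε i j hij).1) (fun i j hij => (hyε i j hij).2) hDi b1 x
      refine le_trans (le_of_eq ?_) hcw
      rw [volume_ball_eq x (by positivity), volume_ball_eq 0 (by positivity),
        ← ENNReal.ofReal_pow (by positivity), ← ENNReal.ofReal_mul (by positivity),
        ← ENNReal.ofReal_natCast, ← ENNReal.ofReal_inv_of_pos (by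
          exact_mod_cast Nat.factorial_pos _), ← ENNReal.ofReal_mul (by positivity)]
      congr 1
      rw [hCK]
      ring
  unfold MF0
  rcases max_choice 0 (max (p' * h) (p' * (((k + 1 : ℕ) : ℝ) * h - (((k + 1 : ℕ) : ℝ) - 1)))) with e | e
  · rw [e]; exact t0
  · rw [e]
    rcases max_choice (p' * h) (p' * (((k + 1 : ℕ) : ℝ) * h - (((k + 1 : ℕ) : ℝ) - 1))) with e | e
    · rw [e]; exact t1
    · rw [e]; exact t2

end Crest.Agent.R149.BaseLower
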