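import Crest.Agent.R149.Stmts
import Crest.Agent.R149.Packing

/-!
Base upper bound for R149: for a nonnegative radial potential `ψ`, the canonical partition
function of `N` particles in the cube of side `L` is at most
`(P + 1) * exp (L^3 + P) * v ^ (N - P)`, where `P` bounds the cardinality of every
`1`-separated subset of the cube and `v = ∫_{|y|<1} exp (-β ψ |y|) dy ≤ 1`.

The last section proves `BaseUpperStmt` (module I of `Stmts.lean`).
-/

set_option autoImplicit false

namespace Crest.Agent.R149.BaseUpper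

open MeasureTheory Crest.ProbabilityR.Continuum Filter Topology
open scoped ENNReal

/-! ### Fubini for lower integrals of products -/

theorem lintegral_fin_prod {n : ℕ} (f : Fin n → Pt → ℝ≥0∞) (hf : ∀ i, Measurable (f i)) :
    ∫⁻ x : Fin n → Pt, ∏ i, f i (x i) = ∏ i, ∫⁻ y, f i y := by
  induction n with
  | zero => simp [volume_pi]
  | succ n ih =>
    have hmp := (volume_preserving_piFinSuccAbove (fun _ : Fin (n + 1) => Pt) 0).symm
    rw [← hmp.lintegral_comp_emb (MeasurableEquiv.measurableEmbedding _)]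
    simp_rw [MeasurableEquiv.piFinSuccAbove_symm_apply, Fin.insertNthEquiv,
      Fin.prod_univ_succ, Fin.insertNth_zero]
    simp only [Equiv.coe_fn_mk, Fin.cons_zero, Fin.cons_succ, cast_eq]
    rw [Measure.volume_eq_prod]
    have hg : Measurable (fun y : Fin n → Pt => ∏ i, f i.succ (y i)) :=
      Finset.measurable_prod _ (fun i _ => (hf _).comp (measurable_pi_apply _))
    have h2 := lintegral_prod_mul (μ := (volume : Measure Pt))
      (ν := (volume : Measure (Fin n → Pt))) (hf 0).aemeasurable hg.aemeasurable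
    rw [ih _ (fun i => hf _)] at h2
    exact h2

theorem lintegral_pi_prod {ι : Type*} [Fintype ι] (f : ι → Pt → ℝ≥0∞)
    (hf : ∀ i, Measurable (f i)) :
    ∫⁻ x : ι → Pt, ∏ i, f i (x i) = ∏ i, ∫⁻ y, f i y := by
  classical
  let e := (Fintype.equivFin ι).symm
  have hmp := volume_measurePreserving_piCongrLeft (fun _ : ι => Pt) e
  rw [← hmp.lintegral_comp_emb (MeasurableEquiv.measurableEmbedding _)]
  simp_rw [← e.prod_comp, MeasurableEquiv.coe_piCongrLeft, Equiv.piCongrLeft_apply_apply]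
  exact lintegral_fin_prod _ (fun i => hf _)

/-! ### The cube -/

theorem measurableSet_cube (L : ℝ) : MeasurableSet (cube L) := by
  have : cube L = ⋂ k : Fin 3, {x : Pt | 0 ≤ x k ∧ x k ≤ L} := by
    ext x; simp [cube]
  rw [this]
  refine MeasurableSet.iInter (fun k => ?_)
  have hk : Measurable (fun x : Pt => x k) := by fun_prop
  exact (measurableSet_le measurable_const hk).inter (measurableSet_le hk measurable_const)

theorem volume_cube (L : ℝ) (hL : 0 ≤ L) : volume (cube L) = ENNReal.ofReal (L ^ 3) := by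
  have h := (EuclideanSpace.volume_preserving_symm_measurableEquiv_toLp (Fin 3)).measure_preimage
    (s := Set.pi Set.univ (fun _ : Fin 3 => Set.Icc (0 : ℝ) L))
    (MeasurableSet.univ_pi (fun _ => measurableSet_Icc)).nullMeasurableSet
  have h2 : (⇑(MeasurableEquiv.toLp 2 (Fin 3 → ℝ)).symm ⁻¹'
      Set.pi Set.univ (fun _ : Fin 3 => Set.Icc (0 : ℝ) L)) = cube L := by
    ext x
    simp only [Set.mem_preimage, Set.mem_pi, Set.mem_univ, forall_true_left, Set.mem_Icc, cube,
      Set.mem_ofPred_eq]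
    rfl
  rw [h2] at h
  rw [h, volume_pi_pi]
  simp [Real.volume_Icc, ENNReal.ofReal_pow hL]

/-! ### Combinatorics -/

/-- The truncated weight. -/
noncomputable def wt (ψ : ℝ → ℝ) (β : ℝ) (y : Pt) : ℝ≥0∞ :=
  (Metric.ball (0 : Pt) 1).indicator (fun y => ENNReal.ofReal (Real.exp (-β * ψ ‖y‖))) y

theorem measurable_wt {ψ : ℝ → ℝ} (hψ : Measurable ψ) (β : ℝ) : Measurable (wt ψ β) := by
  refine Measurable.indicator ?_ measurableSet_ball
  exact ENNReal.measurable_ofReal.comp (Real.measurable_exp.comp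
    ((hψ.comp measurable_norm).const_mul _))

/-- A maximal independent index set for a symmetric relation. -/
theorem exists_maximal_free {ι : Type*} [Fintype ι] (r : ι → ι → Prop)
    (hr : ∀ i j, r i j → r j i) :
    ∃ T : Finset ι, (∀ i ∈ T, ∀ j ∈ T, i ≠ j → ¬ r i j) ∧
      ∃ τ : {i // i ∉ T} → {i // i ∈ T}, ∀ i : {i // i ∉ T}, r i (τ i) := by
  classical
  let F : Finset (Finset ι) :=
    Finset.univ.filter (fun S => ∀ i ∈ S, ∀ j ∈ S, i ≠ j → ¬ r i j)
  have hne : F.Nonempty := ⟨∅, by simp [F]⟩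
  obtain ⟨S, hS, hmax⟩ := F.exists_max_image Finset.card hne
  have hsep : ∀ i ∈ S, ∀ j ∈ S, i ≠ j → ¬ r i j := by
    simpa [F] using hS
  refine ⟨S, hsep, ?_⟩
  have key : ∀ i : {i // i ∉ S}, ∃ j : {j // j ∈ S}, r i j := by
    rintro ⟨i, hi⟩
    by_contra hcon
    push Not at hcon
    have hins : insert i S ∈ F := by
      simp only [F, Finset.mem_filter, Finset.mem_univ, true_and]
      intro a ha b hb hab
      rw [Finset.mem_insert] at ha hb
      rcases ha with rfl | ha
      · rcases hb with rfl | hb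
        · exact absurd rfl hab
        · exact hcon ⟨b, hb⟩
      · rcases hb with rfl | hb
        · intro h; exact hcon ⟨a, ha⟩ (hr _ _ h)
        · exact hsep a ha b hb hab
    have := hmax _ hins
    rw [Finset.card_insert_of_notMem hi] at this
    omega
  choose σ hσ using key
  exact ⟨σ, hσ⟩

/-- A maximal `1`-separated index set. -/
theorem exists_maximal_separated {N : ℕ} (x : Fin N → Pt) :
    ∃ S : Finset (Fin N), (∀ i ∈ S, ∀ j ∈ S, i ≠ j → 1 ≤ dist (x i) (x j)) ∧
      ∃ σ : {i // i ∉ S} → {i // i ∈ S}, ∀ i : {i // i ∉ S}, dist (x i) (x (σ i)) < 1 := by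
  obtain ⟨T, hT, σ, hσ⟩ := exists_maximal_free (fun i j : Fin N => dist (x i) (x j) < 1)
    (fun i j h => by rwa [dist_comm])
  exact ⟨T, fun i hi j hj hij => not_lt.mp (hT i hi j hj hij), σ, hσ⟩

/-- Dropping all the interactions but those of `i ∉ S` with `σ i`. -/
theorem sum_le_energy {ψ : ℝ → ℝ} (hpos : ∀ r, 0 ≤ r → 0 ≤ ψ r)
    {N : ℕ} (x : Fin N → Pt) (S : Finset (Fin N)) (σ : {i // i ∉ S} → {i // i ∈ S}) :
    ∑ i : {i // i ∉ S}, ψ (dist (x i) (x (σ i))) ≤ energy ψ x := by
  classical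
  have hne : ∀ i : {i // i ∉ S}, (i : Fin N) ≠ (σ i : Fin N) := by
    intro i h
    exact i.2 (h ▸ (σ i).2)
  -- the pair attached to `i`
  let e : {i // i ∉ S} → {p : Fin N × Fin N // p.1 < p.2} := fun i =>
    if h : (i : Fin N) < (σ i : Fin N) then ⟨((i : Fin N), (σ i : Fin N)), h⟩
    else ⟨((σ i : Fin N), (i : Fin N)), lt_of_le_of_ne (not_lt.mp h) (hne i).symm⟩
  have he1 : ∀ i, dist (x (e i).1.1) (x (e i).1.2) = dist (x i) (x (σ i)) := by
    intro i
    by_cases h : (i : Fin N) < (σ i : Fin N)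
    · simp only [e, dif_pos h]
    · simp only [e, dif_neg h]; rw [dist_comm]
  have he2 : Function.Injective e := by
    intro i j hij
    have h1 : (e i).1.1 = (e j).1.1 := by rw [hij]
    have h2 : (e i).1.2 = (e j).1.2 := by rw [hij]
    by_cases hi : (i : Fin N) < (σ i : Fin N) <;> by_cases hj : (j : Fin N) < (σ j : Fin N)
    · simp only [e, dif_pos hi, dif_pos hj] at h1
      exact Subtype.ext h1
    · simp only [e, dif_pos hi, dif_neg hj] at h1
      exact absurd (h1 ▸ (σ j).2) i.2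
    · simp only [e, dif_neg hi, dif_pos hj] at h1
      exact absurd (h1 ▸ (σ i).2) j.2
    · simp only [e, dif_neg hi, dif_neg hj] at h2
      exact Subtype.ext h2
  unfold energy
  calc ∑ i : {i // i ∉ S}, ψ (dist (x i) (x (σ i)))
      = ∑ i : {i // i ∉ S}, ψ (dist (x (e i).1.1) (x (e i).1.2)) := by
        simp_rw [he1]
    _ = ∑ p ∈ Finset.univ.image e, ψ (dist (x p.1.1) (x p.1.2)) := by
        rw [Finset.sum_image (fun a _ b _ h => he2 h)]
    _ ≤ _ := Finset.sum_le_sum_of_subset_of_nonneg (Finset.subset_univ _)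
        (fun p _ _ => hpos _ dist_nonneg)

theorem exp_neg_energy_le {ψ : ℝ → ℝ} (hpos : ∀ r, 0 ≤ r → 0 ≤ ψ r) {β : ℝ} (hβ : 0 ≤ β)
    {N : ℕ} (x : Fin N → Pt) (S : Finset (Fin N)) (σ : {i // i ∉ S} → {i // i ∈ S})
    (hσ : ∀ i : {i // i ∉ S}, dist (x i) (x (σ i)) < 1) :
    ENNReal.ofReal (Real.exp (-β * energy ψ x)) ≤
      ∏ i : {i // i ∉ S}, wt ψ β (x i - x (σ i)) := by
  classical
  have hE := sum_le_energy hpos x S σ
  have hw : ∀ i : {i // i ∉ S}, wt ψ β (x i - x (σ i)) =
      ENNReal.ofReal (Real.exp (-β * ψ (dist (x i) (x (σ i))))) := by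
    intro i
    unfold wt
    rw [Set.indicator_of_mem, dist_eq_norm]
    rw [Metric.mem_ball, dist_zero_right, ← dist_eq_norm]
    exact hσ i
  simp_rw [hw]
  rw [← ENNReal.ofReal_prod_of_nonneg (fun i _ => (Real.exp_pos _).le), ← Real.exp_sum,
    ← Finset.mul_sum]
  apply ENNReal.ofReal_le_ofReal
  apply Real.exp_le_exp.mpr
  nlinarith

/-- Pointwise domination of the Boltzmann weight. -/
theorem boltzmann_le {ψ : ℝ → ℝ} (hpos : ∀ r, 0 ≤ r → 0 ≤ ψ r) {β : ℝ} (hβ : 0 ≤ β)
    {L : ℝ} {P : ℕ}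
    (hP : ∀ X : Finset Pt, (∀ x ∈ X, x ∈ cube L) →
      (∀ x ∈ X, ∀ y ∈ X, x ≠ y → 1 ≤ dist x y) → X.card ≤ P)
    {N : ℕ} (x : Fin N → Pt) (hx : ∀ i, x i ∈ cube L) :
    ENNReal.ofReal (Real.exp (-β * energy ψ x)) ≤
      ∑ S ∈ (Finset.univ : Finset (Finset (Fin N))).filter (fun S => S.card ≤ P),
        ∑ σ : {i // i ∉ S} → {i // i ∈ S}, ∏ i : {i // i ∉ S}, wt ψ β (x i - x (σ i)) := by
  classical
  obtain ⟨S, hsep, σ, hσ⟩ := exists_maximal_separated x
  have hinj : Set.InjOn x (S : Set (Fin N)) := by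
    intro i hi j hj hij
    by_contra hne
    have := hsep i hi j hj hne
    rw [hij, dist_self] at this
    linarith
  have hcard : S.card ≤ P := by
    rw [← Finset.card_image_of_injOn hinj]
    apply hP
    · intro y hy
      rw [Finset.mem_image] at hy
      obtain ⟨i, _, rfl⟩ := hy
      exact hx i
    · intro y hy z hz hyz
      rw [Finset.mem_image] at hy hz
      obtain ⟨i, hi, rfl⟩ := hy
      obtain ⟨j, hj, rfl⟩ := hz
      exact hsep i hi j hj (fun h => hyz (h ▸ rfl))
  calc ENNReal.ofReal (Real.exp (-β * energy ψ x))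
      ≤ ∏ i : {i // i ∉ S}, wt ψ β (x i - x (σ i)) := exp_neg_energy_le hpos hβ x S σ hσ
    _ ≤ ∑ σ : {i // i ∉ S} → {i // i ∈ S}, ∏ i : {i // i ∉ S}, wt ψ β (x i - x (σ i)) :=
        Finset.single_le_sum (f := fun σ : {i // i ∉ S} → {i // i ∈ S} =>
          ∏ i : {i // i ∉ S}, wt ψ β (x i - x (σ i))) (fun _ _ => bot_le) (Finset.mem_univ σ)
    _ ≤ _ := Finset.single_le_sum (f := fun S : Finset (Fin N) =>
          ∑ σ : {i // i ∉ S} → {i // i ∈ S}, ∏ i : {i // i ∉ S}, wt ψ β (x i - x (σ i)))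
          (fun _ _ => bot_le) (by simp [hcard])

/-- Integral of one term. -/
theorem lintegral_term_le {ψ : ℝ → ℝ} (hψ : Measurable ψ) (β : ℝ) {L : ℝ} (hL : 0 ≤ L)
    {N : ℕ} (S : Finset (Fin N)) (σ : {i // i ∉ S} → {i // i ∈ S}) :
    ∫⁻ x in Set.pi Set.univ (fun _ : Fin N => cube L),
        ∏ i : {i // i ∉ S}, wt ψ β (x i - x (σ i)) ≤
      ENNReal.ofReal (L ^ 3) ^ S.card * (∫⁻ y, wt ψ β y) ^ (N - S.card) := by
  classical
  let G : (({i // i ∈ S} → Pt) × ({i // i ∉ S} → Pt)) → ℝ≥0∞ := fun ab =>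
    (∏ i : {i // i ∈ S}, (cube L).indicator 1 (ab.1 i)) *
      ∏ i : {i // i ∉ S}, wt ψ β (ab.2 i - ab.1 (σ i))
  have hG : Measurable G := by
    refine Measurable.mul ?_ ?_
    · refine Finset.measurable_prod _ (fun i _ => ?_)
      have : Measurable ((cube L).indicator (1 : Pt → ℝ≥0∞)) :=
        measurable_one.indicator (measurableSet_cube L)
      exact this.comp ((measurable_pi_apply i).comp measurable_fst)
    · refine Finset.measurable_prod _ (fun i _ => (measurable_wt hψ β).comp ?_)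
      exact ((measurable_pi_apply i).comp measurable_snd).sub
        ((measurable_pi_apply (σ i)).comp measurable_fst)
  have hmp := volume_preserving_piEquivPiSubtypeProd (fun _ : Fin N => Pt) (fun i => i ∈ S)
  rw [← lintegral_indicator (MeasurableSet.univ_pi (fun _ => measurableSet_cube L))]
  calc ∫⁻ x : Fin N → Pt, (Set.pi Set.univ (fun _ : Fin N => cube L)).indicator
        (fun x => ∏ i : {i // i ∉ S}, wt ψ β (x i - x (σ i))) x
      ≤ ∫⁻ x : Fin N → Pt, G ((MeasurableEquiv.piEquivPiSubtypeProd (fun _ : Fin N => Pt)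
          (fun i => i ∈ S)) x) := by
        refine lintegral_mono (fun x => ?_)
        by_cases hx : x ∈ Set.pi Set.univ (fun _ : Fin N => cube L)
        · rw [Set.indicator_of_mem hx]
          have : ∀ i : {i // i ∈ S}, (cube L).indicator (1 : Pt → ℝ≥0∞) (x i) = 1 := by
            intro i
            rw [Set.indicator_of_mem (hx i (Set.mem_univ _))]
            rfl
          show _ ≤ (∏ i : {i // i ∈ S}, (cube L).indicator (1 : Pt → ℝ≥0∞) (x i)) *
            ∏ i : {i // i ∉ S}, wt ψ β (x i - x (σ i))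
          simp_rw [this]
          simp
        · rw [Set.indicator_of_notMem hx]
          exact bot_le
    _ = ∫⁻ ab, G ab := by
        convert hmp.lintegral_comp hG
        rfl
    _ = ∫⁻ a : {i // i ∈ S} → Pt, ∫⁻ b : {i // i ∉ S} → Pt, G (a, b) := by
        rw [Measure.volume_eq_prod, lintegral_prod _ hG.aemeasurable]
    _ = ∫⁻ a : {i // i ∈ S} → Pt, (∏ i : {i // i ∈ S}, (cube L).indicator 1 (a i)) *
          (∫⁻ y, wt ψ β y) ^ (N - S.card) := by
        refine lintegral_congr (fun a => ?_)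
        simp only [G]
        rw [lintegral_const_mul]
        · congr 1
          rw [lintegral_pi_prod (fun i y => wt ψ β (y - a (σ i)))
            (fun i => (measurable_wt hψ β).comp (measurable_id.sub_const _))]
          simp_rw [lintegral_sub_right_eq_self (fun y => wt ψ β y)]
          rw [Finset.prod_const, Finset.card_univ]
          congr 1
          rw [Fintype.card_subtype_compl, Fintype.card_fin, Fintype.card_coe]
        · refine Finset.measurable_prod _ (fun i _ => (measurable_wt hψ β).comp ?_)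
          exact (measurable_pi_apply i).sub_const _
    _ = ENNReal.ofReal (L ^ 3) ^ S.card * (∫⁻ y, wt ψ β y) ^ (N - S.card) := by
        rw [lintegral_mul_const]
        · congr 1
          rw [lintegral_pi_prod (fun _ => (cube L).indicator 1)
            (fun _ => measurable_one.indicator (measurableSet_cube L))]
          rw [lintegral_indicator_one (measurableSet_cube L), volume_cube L hL,
            Finset.prod_const, Finset.card_univ, Fintype.card_coe]
        · refine Finset.measurable_prod _ (fun i _ => ?_)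
          have : Measurable ((cube L).indicator (1 : Pt → ℝ≥0∞)) :=
            measurable_one.indicator (measurableSet_cube L)
          exact this.comp (measurable_pi_apply i)

/-- `m^k / k! ≤ exp m`. -/
theorem pow_div_factorial_le_exp (a : ℝ) (ha : 0 ≤ a) (k : ℕ) :
    a ^ k / (Nat.factorial k : ℝ) ≤ Real.exp a :=
  Real.pow_div_factorial_le_exp a ha k

/-- The integrated bound, in `ℝ≥0∞`. -/
theorem lintegral_boltzmann_le {ψ : ℝ → ℝ} (hψ : Measurable ψ)
    (hpos : ∀ r, 0 ≤ r → 0 ≤ ψ r) {β : ℝ} (hβ : 0 ≤ β)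
    {L : ℝ} (hL : 0 ≤ L) {P : ℕ}
    (hP : ∀ X : Finset Pt, (∀ x ∈ X, x ∈ cube L) →
      (∀ x ∈ X, ∀ y ∈ X, x ≠ y → 1 ≤ dist x y) → X.card ≤ P) (N : ℕ) :
    ∫⁻ x in Set.pi Set.univ (fun _ : Fin N => cube L),
        ENNReal.ofReal (Real.exp (-β * energy ψ x)) ≤
      ∑ S ∈ (Finset.univ : Finset (Finset (Fin N))).filter (fun S => S.card ≤ P),
        (S.card : ℝ≥0∞) ^ (N - S.card) *
          (ENNReal.ofReal (L ^ 3) ^ S.card * (∫⁻ y, wt ψ β y) ^ (N - S.card)) := by
  classical
  have hmeas : ∀ (S : Finset (Fin N)) (σ : {i // i ∉ S} → {i // i ∈ S}),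
      Measurable (fun x : Fin N → Pt => ∏ i : {i // i ∉ S}, wt ψ β (x i - x (σ i))) := by
    intro S σ
    refine Finset.measurable_prod _ (fun i _ => (measurable_wt hψ β).comp ?_)
    exact (measurable_pi_apply _).sub (measurable_pi_apply _)
  calc ∫⁻ x in Set.pi Set.univ (fun _ : Fin N => cube L),
        ENNReal.ofReal (Real.exp (-β * energy ψ x))
      ≤ ∫⁻ x in Set.pi Set.univ (fun _ : Fin N => cube L),
        ∑ S ∈ (Finset.univ : Finset (Finset (Fin N))).filter (fun S => S.card ≤ P),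
        ∑ σ : {i // i ∉ S} → {i // i ∈ S}, ∏ i : {i // i ∉ S}, wt ψ β (x i - x (σ i)) := by
        refine setLIntegral_mono' (MeasurableSet.univ_pi (fun _ => measurableSet_cube L)) ?_
        intro x hx
        exact boltzmann_le hpos hβ hP x (fun i => hx i (Set.mem_univ _))
    _ = ∑ S ∈ (Finset.univ : Finset (Finset (Fin N))).filter (fun S => S.card ≤ P),
        ∑ σ : {i // i ∉ S} → {i // i ∈ S},
          ∫⁻ x in Set.pi Set.univ (fun _ : Fin N => cube L),
            ∏ i : {i // i ∉ S}, wt ψ β (x i - x (σ i)) := by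
        rw [lintegral_finsetSum]
        · refine Finset.sum_congr rfl (fun S _ => ?_)
          rw [lintegral_finsetSum]
          exact fun σ _ => hmeas S σ
        · exact fun S _ => Finset.measurable_sum _ (fun σ _ => hmeas S σ)
    _ ≤ _ := by
        refine Finset.sum_le_sum (fun S _ => ?_)
        calc ∑ σ : {i // i ∉ S} → {i // i ∈ S},
            ∫⁻ x in Set.pi Set.univ (fun _ : Fin N => cube L),
              ∏ i : {i // i ∉ S}, wt ψ β (x i - x (σ i))
            ≤ ∑ σ : {i // i ∉ S} → {i // i ∈ S},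
              (ENNReal.ofReal (L ^ 3) ^ S.card * (∫⁻ y, wt ψ β y) ^ (N - S.card)) :=
              Finset.sum_le_sum (fun σ _ => lintegral_term_le hψ β hL S σ)
          _ = _ := by
              rw [Finset.sum_const, nsmul_eq_mul]
              congr 1
              rw [Finset.card_univ, Fintype.card_fun, Fintype.card_coe,
                Fintype.card_subtype_compl, Fintype.card_fin, Fintype.card_coe]
              push_cast
              rfl

/-- The sum over subsets. -/
theorem sum_bound (N P : ℕ) {a v : ℝ} (ha : 0 ≤ a) (hv : 0 ≤ v) (hv1 : v ≤ 1) :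
    (1 / (Nat.factorial N : ℝ)) *
      ∑ S ∈ (Finset.univ : Finset (Finset (Fin N))).filter (fun S => S.card ≤ P),
        (S.card : ℝ) ^ (N - S.card) * (a ^ S.card * v ^ (N - S.card)) ≤
      (P + 1) * Real.exp (a + P) * v ^ (N - P) := by
  classical
  have h1 : ∑ S ∈ (Finset.univ : Finset (Finset (Fin N))).filter (fun S => S.card ≤ P),
        (S.card : ℝ) ^ (N - S.card) * (a ^ S.card * v ^ (N - S.card)) =
      ∑ m ∈ Finset.range (N + 1), if m ≤ P then
        (N.choose m : ℝ) * ((m : ℝ) ^ (N - m) * (a ^ m * v ^ (N - m))) else 0 := by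
    rw [Finset.sum_filter]
    have := Finset.sum_powerset_apply_card (fun m => if m ≤ P then
        ((m : ℝ) ^ (N - m) * (a ^ m * v ^ (N - m))) else 0) (x := (Finset.univ : Finset (Fin N)))
    rw [Finset.powerset_univ, Finset.card_univ, Fintype.card_fin] at this
    rw [this]
    refine Finset.sum_congr rfl (fun m _ => ?_)
    split_ifs <;> simp
  have h2 : ∀ m ∈ Finset.range (N + 1), (1 / (Nat.factorial N : ℝ)) * (if m ≤ P then
        (N.choose m : ℝ) * ((m : ℝ) ^ (N - m) * (a ^ m * v ^ (N - m))) else 0) ≤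
      if m ≤ P then Real.exp (a + P) * v ^ (N - P) else 0 := by
    intro m hm
    rw [Finset.mem_range] at hm
    have hmN : m ≤ N := by omega
    split_ifs with hmP
    · have hc : (N.choose m : ℝ) = (Nat.factorial N : ℝ) /
          ((Nat.factorial m : ℝ) * (Nat.factorial (N - m) : ℝ)) := Nat.cast_choose ℝ hmN
      have hN : (Nat.factorial N : ℝ) ≠ 0 := by positivity
      have hm0 : (Nat.factorial m : ℝ) ≠ 0 := by positivity
      have hNm : (Nat.factorial (N - m) : ℝ) ≠ 0 := by positivity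
      have e1 : (1 / (Nat.factorial N : ℝ)) *
          ((N.choose m : ℝ) * ((m : ℝ) ^ (N - m) * (a ^ m * v ^ (N - m)))) =
          (a ^ m / (Nat.factorial m : ℝ)) * ((m : ℝ) ^ (N - m) / (Nat.factorial (N - m) : ℝ)) *
            v ^ (N - m) := by
        rw [hc]; field_simp
      rw [e1]
      have b1 := pow_div_factorial_le_exp a ha m
      have b2 := pow_div_factorial_le_exp (m : ℝ) (by positivity) (N - m)
      have b3 : Real.exp (m : ℝ) ≤ Real.exp P := Real.exp_le_exp.mpr (by exact_mod_cast hmP)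
      have b4 : v ^ (N - m) ≤ v ^ (N - P) := pow_le_pow_of_le_one hv hv1 (by omega)
      rw [Real.exp_add]
      have p1 : 0 ≤ a ^ m / (Nat.factorial m : ℝ) := by positivity
      have p2 : 0 ≤ (m : ℝ) ^ (N - m) / (Nat.factorial (N - m) : ℝ) := by positivity
      calc (a ^ m / (Nat.factorial m : ℝ)) * ((m : ℝ) ^ (N - m) / (Nat.factorial (N - m) : ℝ)) *
            v ^ (N - m) ≤ (Real.exp a * Real.exp P) * v ^ (N - P) := by
            apply mul_le_mul _ b4 (by positivity) (by positivity)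
            exact mul_le_mul b1 (b2.trans b3) p2 (Real.exp_pos _).le
        _ = _ := rfl
    · simp
  rw [h1, Finset.mul_sum]
  refine (Finset.sum_le_sum h2).trans ?_
  rw [← Finset.sum_filter, Finset.sum_const, nsmul_eq_mul, mul_assoc]
  have hcard : (((Finset.range (N + 1)).filter (fun m => m ≤ P)).card : ℝ) ≤ P + 1 := by
    have : (Finset.range (N + 1)).filter (fun m => m ≤ P) ⊆ Finset.range (P + 1) := by
      intro m hm
      rw [Finset.mem_filter] at hm
      rw [Finset.mem_range]; omega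
    have := Finset.card_le_card this
    rw [Finset.card_range] at this
    exact_mod_cast this
  exact mul_le_mul_of_nonneg_right hcard (by positivity)

/-- `∫⁻ wt` is the ordinary integral over the unit ball. -/
theorem lintegral_wt {ψ : ℝ → ℝ} (hψ : Measurable ψ) (hpos : ∀ r, 0 ≤ r → 0 ≤ ψ r)
    {β : ℝ} (hβ : 0 ≤ β) :
    ∫⁻ y, wt ψ β y =
      ENNReal.ofReal (∫ y in Metric.ball (0 : Pt) 1, Real.exp (-β * ψ ‖y‖)) := by
  unfold wt
  rw [lintegral_indicator measurableSet_ball, ofReal_integral_eq_lintegral_ofReal]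
  · refine Measure.integrableOn_of_bounded (M := 1) measure_ball_lt_top.ne ?_ ?_
    · exact (Real.measurable_exp.comp
        ((hψ.comp measurable_norm).const_mul _)).aestronglyMeasurable
    · refine Filter.Eventually.of_forall (fun y => ?_)
      rw [Real.norm_eq_abs, abs_of_pos (Real.exp_pos _), Real.exp_le_one_iff]
      have := hpos ‖y‖ (norm_nonneg _)
      nlinarith
  · exact Filter.Eventually.of_forall (fun y => (Real.exp_pos _).le)

theorem energy_nonneg {ψ : ℝ → ℝ} (hpos : ∀ r, 0 ≤ r → 0 ≤ ψ r) {N : ℕ} (x : Fin N → Pt) :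
    0 ≤ energy ψ x :=
  Finset.sum_nonneg (fun _ _ => hpos _ dist_nonneg)

theorem measurable_energy {ψ : ℝ → ℝ} (hψ : Measurable ψ) (N : ℕ) :
    Measurable (fun x : Fin N → Pt => energy ψ x) := by
  unfold energy
  refine Finset.measurable_sum _ (fun p _ => hψ.comp ?_)
  exact (measurable_pi_apply _).dist (measurable_pi_apply _)

theorem volume_pi_cube_lt_top {L : ℝ} (hL : 0 ≤ L) (N : ℕ) :
    volume (Set.pi Set.univ (fun _ : Fin N => cube L)) < ⊤ := by
  rw [volume_pi_pi]
  refine ENNReal.prod_lt_top (fun _ _ => ?_)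
  rw [volume_cube L hL]
  exact ENNReal.ofReal_lt_top

/-- **Base upper bound.** -/
theorem partitionFn_le {ψ : ℝ → ℝ} (hψ : Measurable ψ)
    (hpos : ∀ r, 0 ≤ r → 0 ≤ ψ r) {β : ℝ} (hβ : 0 ≤ β)
    {L : ℝ} (hL : 0 ≤ L) {P : ℕ}
    (hP : ∀ X : Finset Pt, (∀ x ∈ X, x ∈ cube L) →
      (∀ x ∈ X, ∀ y ∈ X, x ≠ y → 1 ≤ dist x y) → X.card ≤ P)
    (hv1 : ∫ y in Metric.ball (0 : Pt) 1, Real.exp (-β * ψ ‖y‖) ≤ 1) (N : ℕ) :
    partitionFn ψ L N β ≤ (P + 1) * Real.exp (L ^ 3 + P) *
      (∫ y in Metric.ball (0 : Pt) 1, Real.exp (-β * ψ ‖y‖)) ^ (N - P) := by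
  classical
  set v : ℝ := ∫ y in Metric.ball (0 : Pt) 1, Real.exp (-β * ψ ‖y‖) with hv
  have hv0 : 0 ≤ v := integral_nonneg (fun _ => (Real.exp_pos _).le)
  have ha : 0 ≤ L ^ 3 := by positivity
  have hint : ∫ x in Set.pi Set.univ (fun _ : Fin N => cube L),
      Real.exp (-β * energy ψ x) ≤
      ∑ S ∈ (Finset.univ : Finset (Finset (Fin N))).filter (fun S => S.card ≤ P),
        (S.card : ℝ) ^ (N - S.card) * ((L ^ 3) ^ S.card * v ^ (N - S.card)) := by
    have hsum0 : 0 ≤ ∑ S ∈ (Finset.univ : Finset (Finset (Fin N))).filter (fun S => S.card ≤ P),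
        (S.card : ℝ) ^ (N - S.card) * ((L ^ 3) ^ S.card * v ^ (N - S.card)) :=
      Finset.sum_nonneg (fun S _ => by positivity)
    rw [← ENNReal.ofReal_le_ofReal_iff hsum0, ofReal_integral_eq_lintegral_ofReal]
    · refine (lintegral_boltzmann_le hψ hpos hβ hL hP N).trans ?_
      rw [lintegral_wt hψ hpos hβ, ← hv, ENNReal.ofReal_sum_of_nonneg
        (fun S _ => by positivity)]
      refine Finset.sum_le_sum (fun S _ => le_of_eq ?_)
      rw [ENNReal.ofReal_mul (by positivity), ENNReal.ofReal_mul (by positivity),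
        ENNReal.ofReal_pow (Nat.cast_nonneg S.card), ENNReal.ofReal_pow ha,
        ENNReal.ofReal_pow hv0, ENNReal.ofReal_natCast]
    · refine Measure.integrableOn_of_bounded (M := 1) (volume_pi_cube_lt_top hL N).ne ?_ ?_
      · exact (Real.measurable_exp.comp ((measurable_energy hψ N).const_mul _)).aestronglyMeasurable
      · refine Filter.Eventually.of_forall (fun x => ?_)
        rw [Real.norm_eq_abs, abs_of_pos (Real.exp_pos _), Real.exp_le_one_iff]
        have := energy_nonneg hpos x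
        nlinarith
    · exact Filter.Eventually.of_forall (fun y => (Real.exp_pos _).le)
  unfold partitionFn
  refine le_trans (mul_le_mul_of_nonneg_left hint (by positivity)) ?_
  exact sum_bound N P ha hv0 hv1

theorem card_le_packingNumber {L : ℝ} (hbdd : BddAbove (packingSet L)) (X : Finset Pt)
    (h1 : ∀ x ∈ X, x ∈ cube L) (h2 : ∀ x ∈ X, ∀ y ∈ X, x ≠ y → 1 ≤ dist x y) :
    X.card ≤ packingNumber L :=
  le_csSup hbdd ⟨X, rfl, h1, h2⟩

/-- Base upper bound with the packing number. -/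
theorem partitionFn_le_packingNumber {ψ : ℝ → ℝ} (hψ : Measurable ψ)
    (hpos : ∀ r, 0 ≤ r → 0 ≤ ψ r) {β : ℝ} (hβ : 0 ≤ β)
    {L : ℝ} (hL : 0 ≤ L) (hbdd : BddAbove (packingSet L))
    (hv1 : ∫ y in Metric.ball (0 : Pt) 1, Real.exp (-β * ψ ‖y‖) ≤ 1) (N : ℕ) :
    partitionFn ψ L N β ≤ (packingNumber L + 1) * Real.exp (L ^ 3 + packingNumber L) *
      (∫ y in Metric.ball (0 : Pt) 1, Real.exp (-β * ψ ‖y‖)) ^ (N - packingNumber L) :=
  partitionFn_le hψ hpos hβ hL (card_le_packingNumber hbdd) hv1 N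

/-- Positivity of the partition function for a nonnegative potential. -/
theorem partitionFn_pos {ψ : ℝ → ℝ} (hψ : Measurable ψ)
    (hpos : ∀ r, 0 ≤ r → 0 ≤ ψ r) {β : ℝ} (hβ : 0 ≤ β) {L : ℝ} (hL : 0 < L) (N : ℕ) :
    0 < partitionFn ψ L N β := by
  unfold partitionFn
  refine mul_pos (by positivity) ?_
  have hne : (volume.restrict (Set.pi Set.univ (fun _ : Fin N => cube L))) ≠ 0 := by
    rw [Ne, Measure.restrict_eq_zero, volume_pi_pi]
    refine (Finset.prod_ne_zero_iff.mpr (fun _ _ => ?_))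
    rw [volume_cube L hL.le]
    simp only [ne_eq, ENNReal.ofReal_eq_zero, not_le]
    positivity
  have : NeZero (volume.restrict (Set.pi Set.univ (fun _ : Fin N => cube L))) := ⟨hne⟩
  refine integral_exp_pos ?_
  refine Measure.integrableOn_of_bounded (M := 1) (volume_pi_cube_lt_top hL.le N).ne ?_ ?_
  · exact (Real.measurable_exp.comp ((measurable_energy hψ N).const_mul _)).aestronglyMeasurable
  · refine Filter.Eventually.of_forall (fun x => ?_)
    rw [Real.norm_eq_abs, abs_of_pos (Real.exp_pos _), Real.exp_le_one_iff]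
    have := energy_nonneg hpos x
    nlinarith

theorem tendsto_log_packing {p : ℝ}
    (hp : Filter.Tendsto (fun L : ℝ => (packingNumber L : ℝ) / L ^ 3) Filter.atTop (nhds p)) :
    Filter.Tendsto (fun L : ℝ => Real.log (packingNumber L + 1) / L ^ 3)
      Filter.atTop (nhds 0) := by
  have hcube : Filter.Tendsto (fun L : ℝ => L ^ 3) Filter.atTop Filter.atTop :=
    Filter.tendsto_pow_atTop (by norm_num)
  have hinv : Filter.Tendsto (fun L : ℝ => 1 / L ^ 3) Filter.atTop (nhds 0) := by
    simp only [one_div]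
    exact hcube.inv_tendsto_atTop
  -- `log (P + 1) ≤ 2 √(P + 1)`, and `√(P+1)/L^3 → 0`
  have h1 : Filter.Tendsto (fun L : ℝ => 2 * Real.sqrt ((packingNumber L / L ^ 3 + 1 / L ^ 3) *
      (1 / L ^ 3))) Filter.atTop (nhds 0) := by
    have : Filter.Tendsto (fun L : ℝ => 2 * Real.sqrt ((packingNumber L / L ^ 3 + 1 / L ^ 3) *
      (1 / L ^ 3))) Filter.atTop (nhds (2 * Real.sqrt ((p + 0) * 0))) :=
      ((hp.add hinv).mul hinv).sqrt.const_mul 2
    simpa using this
  refine squeeze_zero' ?_ ?_ h1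
  · filter_upwards [Filter.eventually_gt_atTop (0 : ℝ)] with L hL
    exact div_nonneg (Real.log_nonneg (by simp)) (by positivity)
  · filter_upwards [Filter.eventually_gt_atTop (0 : ℝ)] with L hL
    have hL3 : 0 < L ^ 3 := by positivity
    have hP1 : (0 : ℝ) < (packingNumber L : ℝ) + 1 := by positivity
    have hs : Real.log (packingNumber L + 1) ≤ 2 * Real.sqrt (packingNumber L + 1) := by
      have h := Real.log_le_sub_one_of_pos (Real.sqrt_pos.mpr hP1)
      rw [Real.log_sqrt hP1.le] at h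
      linarith
    have e : Real.sqrt (((packingNumber L : ℝ) / L ^ 3 + 1 / L ^ 3) * (1 / L ^ 3)) =
        Real.sqrt (packingNumber L + 1) / L ^ 3 := by
      rw [show ((packingNumber L : ℝ) / L ^ 3 + 1 / L ^ 3) * (1 / L ^ 3) =
        ((packingNumber L : ℝ) + 1) / (L ^ 3) ^ 2 by field_simp,
        Real.sqrt_div hP1.le, Real.sqrt_sq hL3.le]
    rw [e, ← mul_div_assoc]
    exact div_le_div_of_nonneg_right hs hL3.le

/-- **Limit form of the base upper bound** (hypothesis H5, upper half): if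
`packingNumber L / L^3 → p`, `∫_{|y|<1} exp (-β ψ |y|) ≤ exp (-M)` with `M ≥ 0`, and
`L^{-3} log Z(L, ⌊ρ L^3⌋) → G`, then `G ≤ 1 + p - M (ρ - p)_+`. -/
theorem limit_le {ψ : ℝ → ℝ} (hψ : Measurable ψ)
    (hpos : ∀ r, 0 ≤ r → 0 ≤ ψ r) {β : ℝ} (hβ : 0 ≤ β) {M p ρ G : ℝ} (hM : 0 ≤ M)
    (hbdd : ∀ L : ℝ, 0 < L → BddAbove (packingSet L))
    (hp : Filter.Tendsto (fun L : ℝ => (packingNumber L : ℝ) / L ^ 3) Filter.atTop (nhds p))
    (hv : ∫ y in Metric.ball (0 : Pt) 1, Real.exp (-β * ψ ‖y‖) ≤ Real.exp (-M))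
    (hG : Filter.Tendsto (fun L : ℝ => (1 / L ^ 3) *
      Real.log (partitionFn ψ L ⌊ρ * L ^ 3⌋₊ β)) Filter.atTop (nhds G)) :
    G ≤ 1 + p - M * max (ρ - p) 0 := by
  set v : ℝ := ∫ y in Metric.ball (0 : Pt) 1, Real.exp (-β * ψ ‖y‖) with hvdef
  have hv0 : 0 ≤ v := integral_nonneg (fun _ => (Real.exp_pos _).le)
  have hv1 : v ≤ 1 := hv.trans (Real.exp_le_one_iff.mpr (by linarith))
  -- the real bound at finite `L`
  have hfin : ∀ L : ℝ, 0 < L → (1 / L ^ 3) * Real.log (partitionFn ψ L ⌊ρ * L ^ 3⌋₊ β) ≤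
      Real.log (packingNumber L + 1) / L ^ 3 + (1 + packingNumber L / L ^ 3) -
        M * max (ρ - 1 / L ^ 3 - packingNumber L / L ^ 3) 0 := by
    intro L hL
    set N := ⌊ρ * L ^ 3⌋₊ with hN
    set P := packingNumber L with hPdef
    have hL3 : 0 < L ^ 3 := by positivity
    have hZ := partitionFn_le_packingNumber hψ hpos hβ hL.le (hbdd L hL) hv1 N
    have hZ0 := partitionFn_pos hψ hpos hβ hL N
    have hZ2 : partitionFn ψ L N β ≤ (P + 1) * Real.exp (L ^ 3 + P) *
        (Real.exp (-M)) ^ (N - P) := by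
      refine hZ.trans ?_
      exact mul_le_mul_of_nonneg_left (pow_le_pow_left₀ hv0 hv _) (by positivity)
    have hlog : Real.log (partitionFn ψ L N β) ≤
        Real.log (P + 1) + (L ^ 3 + P) - M * ((N - P : ℕ) : ℝ) := by
      refine (Real.log_le_log hZ0 hZ2).trans (le_of_eq ?_)
      rw [← Real.exp_nat_mul, Real.log_mul (by positivity) (Real.exp_ne_zero _),
        Real.log_mul (by positivity) (Real.exp_ne_zero _), Real.log_exp, Real.log_exp]
      ring
    have hNP : L ^ 3 * max (ρ - 1 / L ^ 3 - P / L ^ 3) 0 ≤ ((N - P : ℕ) : ℝ) := by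
      rw [mul_max_of_nonneg _ _ hL3.le, mul_zero]
      refine max_le ?_ (Nat.cast_nonneg _)
      have h1 : ρ * L ^ 3 < N + 1 := Nat.lt_floor_add_one _
      have h2 : L ^ 3 * (ρ - 1 / L ^ 3 - P / L ^ 3) = ρ * L ^ 3 - 1 - P := by
        field_simp
      rw [h2]
      have h3 : (N : ℝ) ≤ ((N - P : ℕ) : ℝ) + P := by
        exact_mod_cast (by omega : N ≤ (N - P) + P)
      linarith
    have hfinal : (1 / L ^ 3) * Real.log (partitionFn ψ L N β) ≤
        (1 / L ^ 3) * (Real.log (P + 1) + (L ^ 3 + P) -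
          M * (L ^ 3 * max (ρ - 1 / L ^ 3 - P / L ^ 3) 0)) := by
      refine mul_le_mul_of_nonneg_left ?_ (by positivity)
      have := mul_le_mul_of_nonneg_left hNP hM
      linarith
    refine hfinal.trans (le_of_eq ?_)
    field_simp
  -- pass to the limit
  have hcube : Filter.Tendsto (fun L : ℝ => L ^ 3) Filter.atTop Filter.atTop :=
    Filter.tendsto_pow_atTop (by norm_num)
  have hinv : Filter.Tendsto (fun L : ℝ => 1 / L ^ 3) Filter.atTop (nhds 0) := by
    simp only [one_div]
    exact hcube.inv_tendsto_atTop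
  have hlog0 := tendsto_log_packing hp
  have hlim : Filter.Tendsto (fun L : ℝ => Real.log (packingNumber L + 1) / L ^ 3 +
      (1 + packingNumber L / L ^ 3) - M * max (ρ - 1 / L ^ 3 - packingNumber L / L ^ 3) 0)
      Filter.atTop (nhds (0 + (1 + p) - M * max (ρ - 0 - p) 0)) := by
    refine (hlog0.add (hp.const_add 1)).sub (Filter.Tendsto.const_mul M ?_)
    exact ((hinv.const_sub ρ).sub hp).max tendsto_const_nhds
  have := le_of_tendsto_of_tendsto hG hlim (by
    filter_upwards [Filter.eventually_gt_atTop (0 : ℝ)] with L hL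
    exact hfin L hL)
  simpa using this

/-! ### Clusters: at most `K` points per cluster -/

/-- A configuration in the cube without strong pair has at most `K * packingNumber L` points. -/
theorem card_good_le {K : ℕ} {θ₂ θ₃ ξ δ M : ℝ} {c : ℝ → ℝ} (hK : KGeom K θ₂ θ₃)
    (hc : CoreType c θ₂ θ₃ ξ δ M) {L : ℝ} (hL : 0 ≤ L) {N : ℕ} (x : Fin N → Pt)
    (hx : ∀ i, x i ∈ cube L) (T : Finset (Fin N))
    (hT : ∀ i ∈ T, ∀ j ∈ T, i ≠ j → ¬ (M ≤ c (dist (x i) (x j)))) :
    T.card ≤ K * packingNumber L := by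
  classical
  have hδ := hc.hδ
  have hδ1 := hc.hδ1
  -- distances inside `T`
  have hdist : ∀ i ∈ T, ∀ j ∈ T, i ≠ j → dist (x i) (x j) < 1 →
      δ / 2 < dist (x i) (x j) ∧ dist (x i) (x j) < δ := by
    intro i hi j hj hij hlt
    have hbad := hT i hi j hj hij
    refine ⟨?_, ?_⟩
    · by_contra h
      exact hbad (hc.big1 _ dist_nonneg (not_lt.mp h))
    · by_contra h
      exact hbad (hc.big2 _ (not_lt.mp h) hlt)
  obtain ⟨S, hS, σ, hσ⟩ := exists_maximal_free
    (fun i j : {i // i ∈ T} => dist (x i) (x j) < 1) (fun i j h => by rwa [dist_comm])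
  -- the cluster map
  let π : {i // i ∈ T} → {i // i ∈ T} := fun i => if h : i ∈ S then i else (σ ⟨i, h⟩ : {i // i ∈ T})
  have hπS : ∀ i, π i ∈ S := by
    intro i
    by_cases h : i ∈ S
    · simp only [π, dif_pos h]; exact h
    · simp only [π, dif_neg h]; exact (σ ⟨i, h⟩).2
  have hπd : ∀ i : {i // i ∈ T}, dist (x i) (x (π i)) < δ := by
    intro i
    by_cases h : i ∈ S
    · simp only [π, dif_pos h]
      rw [dist_self]; exact hδ
    · have h1 : dist (x i) (x (π i)) < 1 := by
        simp only [π, dif_neg h]; exact hσ ⟨i, h⟩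
      have hne : i ≠ π i := by
        intro he
        exact h (he ▸ hπS i)
      exact (hdist i i.2 (π i) (π i).2 (fun he => hne (Subtype.ext he)) h1).2
  have hSP : S.card ≤ packingNumber L := by
    have hinj : Set.InjOn (fun i : {i // i ∈ T} => x i) (S : Set {i // i ∈ T}) := by
      intro i hi j hj hij
      by_contra hne
      have := hS i hi j hj hne
      simp only at hij
      rw [hij, dist_self] at this
      exact this one_pos
    rw [← Finset.card_image_of_injOn hinj]
    apply card_le_packingNumber (Packing.bddAbove_packingSet hL)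
    · intro y hy
      rw [Finset.mem_image] at hy
      obtain ⟨i, _, rfl⟩ := hy
      exact hx i
    · intro y hy z hz hyz
      rw [Finset.mem_image] at hy hz
      obtain ⟨i, hi, rfl⟩ := hy
      obtain ⟨j, hj, rfl⟩ := hz
      exact not_lt.mp (hS i hi j hj (fun h => hyz (h ▸ rfl)))
  have hfib : ∀ s ∈ S, (Finset.univ.filter (fun i => π i = s)).card ≤ K := by
    intro s hs
    by_contra hcon
    push Not at hcon
    have hcard : K + 1 ≤ (Finset.univ.filter (fun i => π i = s)).card := hcon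
    let f := Finset.orderEmbOfCardLe _ hcard
    have hf : ∀ k, π (f k) = s := by
      intro k
      have := Finset.orderEmbOfCardLe_mem _ hcard k
      rw [Finset.mem_filter] at this
      exact this.2
    refine hK.nex (fun k => (1 / δ) • x (f k)) ?_
    intro k l hkl
    have hne : f k ≠ f l := fun h => hkl (f.injective h)
    have hd1 := hπd (f k)
    have hd2 := hπd (f l)
    rw [hf k] at hd1
    rw [hf l] at hd2
    have hd : dist (x (f k)) (x (f l)) < 1 := by
      have := dist_triangle_right (x (f k)) (x (f l)) (x s)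
      linarith
    obtain ⟨h1, h2⟩ := hdist _ (f k).2 _ (f l).2 (fun he => hne (Subtype.ext he)) hd
    rw [dist_smul₀, Real.norm_eq_abs, abs_of_pos (by positivity)]
    constructor
    · rw [one_div_mul_eq_div, lt_div_iff₀ hδ]; linarith
    · rw [one_div_mul_eq_div, div_lt_iff₀ hδ]; linarith
  have hle := Finset.card_le_mul_card_image_of_maps_to (s := (Finset.univ : Finset {i // i ∈ T}))
    (t := S) (f := π) (fun i _ => hπS i) K hfib
  rw [Finset.card_univ, Fintype.card_coe] at hle
  exact hle.trans (Nat.mul_le_mul_left K hSP)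

/-- Linear superstability. -/
theorem energy_ge {K : ℕ} {θ₂ θ₃ ξ δ M : ℝ} {c : ℝ → ℝ} (hK : KGeom K θ₂ θ₃)
    (hc : CoreType c θ₂ θ₃ ξ δ M) {L : ℝ} (hL : 0 ≤ L) {N : ℕ} (x : Fin N → Pt)
    (hx : ∀ i, x i ∈ cube L) :
    M * ((N - K * packingNumber L : ℕ) : ℝ) ≤ energy c x := by
  classical
  obtain ⟨T, hT, τ, hτ⟩ := exists_maximal_free (fun i j : Fin N => M ≤ c (dist (x i) (x j)))
    (fun i j h => by rwa [dist_comm])
  have hcard := card_good_le hK hc hL x hx T hT
  have h1 := sum_le_energy (fun r _ => hc.nonneg r) x T τ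
  refine le_trans ?_ h1
  have h2 : ∑ _i : {i // i ∉ T}, M ≤ ∑ i : {i // i ∉ T}, c (dist (x i) (x (τ i))) :=
    Finset.sum_le_sum (fun i _ => hτ i)
  refine le_trans ?_ h2
  rw [Finset.sum_const, Finset.card_univ, nsmul_eq_mul, mul_comm,
    Fintype.card_subtype_compl, Fintype.card_fin, Fintype.card_coe]
  exact mul_le_mul_of_nonneg_right (by exact_mod_cast Nat.sub_le_sub_left hcard N) hc.hM

/-- Trading half of the energy. -/
theorem partitionFn_half {c : ℝ → ℝ} (hcm : Measurable c) (hpos : ∀ r, 0 ≤ c r)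
    {β : ℝ} (hβ : 0 ≤ β) {L : ℝ} (hL : 0 ≤ L) {N : ℕ} {E : ℝ}
    (hE : ∀ x : Fin N → Pt, (∀ i, x i ∈ cube L) → E ≤ energy c x) :
    partitionFn c L N β ≤ Real.exp (-(β / 2) * E) * partitionFn c L N (β / 2) := by
  have hint : ∀ b : ℝ, 0 ≤ b → IntegrableOn (fun x : Fin N → Pt => Real.exp (-b * energy c x))
      (Set.pi Set.univ (fun _ : Fin N => cube L)) := by
    intro b hb
    refine Measure.integrableOn_of_bounded (M := 1) (volume_pi_cube_lt_top hL N).ne ?_ ?_
    · exact (Real.measurable_exp.comp ((measurable_energy hcm N).const_mul _)).aestronglyMeasurable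
    · refine Filter.Eventually.of_forall (fun x => ?_)
      rw [Real.norm_eq_abs, abs_of_pos (Real.exp_pos _), Real.exp_le_one_iff]
      have := energy_nonneg (fun r _ => hpos r) x
      nlinarith
  unfold partitionFn
  rw [mul_left_comm]
  refine mul_le_mul_of_nonneg_left ?_ (by positivity)
  rw [← integral_const_mul]
  refine setIntegral_mono_on (hint β hβ) ((hint (β / 2) (by linarith)).const_mul _)
    (MeasurableSet.univ_pi (fun _ => measurableSet_cube L)) ?_
  intro x hx
  rw [← Real.exp_add]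
  apply Real.exp_le_exp.mpr
  have := hE x (fun i => hx i (Set.mem_univ _))
  nlinarith

/-- The volume of the unit ball, as a real. -/
noncomputable def V1 : ℝ := (volume (Metric.ball (0 : Pt) 1)).toReal

theorem V1_nonneg : 0 ≤ V1 := ENNReal.toReal_nonneg

theorem volume_ball_toReal {r : ℝ} (hr : 0 ≤ r) :
    (volume (Metric.ball (0 : Pt) r)).toReal = r ^ 3 * V1 := by
  rw [Measure.addHaar_ball _ _ hr, ENNReal.toReal_mul, ENNReal.toReal_ofReal (by positivity)]
  simp [V1]

/-- The one-particle weight of a cluster. -/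
theorem integral_core_le {θ₂ θ₃ ξ δ M : ℝ} {c : ℝ → ℝ}
    (hc : CoreType c θ₂ θ₃ ξ δ M) {β : ℝ} (hβ : 0 ≤ β) :
    ∫ y in Metric.ball (0 : Pt) 1, Real.exp (-β * c ‖y‖) ≤
      δ ^ 3 * V1 + Real.exp (-β * M) * V1 := by
  have hδ := hc.hδ
  have hδ1 := hc.hδ1
  have hfin : volume (Metric.ball (0 : Pt) 1) ≠ ⊤ := measure_ball_lt_top.ne
  have h1 : IntegrableOn (fun y : Pt => Real.exp (-β * c ‖y‖)) (Metric.ball (0 : Pt) 1) := by
    refine Measure.integrableOn_of_bounded (M := 1) hfin ?_ ?_
    · exact (Real.measurable_exp.comp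
        ((hc.meas.comp measurable_norm).const_mul _)).aestronglyMeasurable
    · refine Filter.Eventually.of_forall (fun y => ?_)
      rw [Real.norm_eq_abs, abs_of_pos (Real.exp_pos _), Real.exp_le_one_iff]
      have := hc.nonneg ‖y‖
      nlinarith
  have h2 : IntegrableOn (fun y : Pt => (Metric.ball (0 : Pt) δ).indicator (fun _ => (1 : ℝ)) y)
      (Metric.ball (0 : Pt) 1) := by
    apply Integrable.integrableOn
    rw [integrable_indicator_iff measurableSet_ball]
    exact integrableOn_const measure_ball_lt_top.ne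
  have h3 : IntegrableOn (fun _ : Pt => Real.exp (-β * M)) (Metric.ball (0 : Pt) 1) :=
    integrableOn_const hfin
  calc ∫ y in Metric.ball (0 : Pt) 1, Real.exp (-β * c ‖y‖)
      ≤ ∫ y in Metric.ball (0 : Pt) 1,
        ((Metric.ball (0 : Pt) δ).indicator (fun _ => (1 : ℝ)) y + Real.exp (-β * M)) := by
        refine setIntegral_mono_on h1 (h2.add h3) measurableSet_ball ?_
        intro y hy
        rw [Metric.mem_ball, dist_zero_right] at hy
        by_cases hyδ : ‖y‖ < δ
        · rw [Set.indicator_of_mem (by rwa [Metric.mem_ball, dist_zero_right])]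
          have e1 : Real.exp (-β * c ‖y‖) ≤ 1 := by
            rw [Real.exp_le_one_iff]
            have := hc.nonneg ‖y‖
            nlinarith
          have := Real.exp_pos (-β * M)
          linarith
        · rw [Set.indicator_of_notMem (by rwa [Metric.mem_ball, dist_zero_right]), zero_add]
          apply Real.exp_le_exp.mpr
          have := hc.big2 ‖y‖ (not_lt.mp hyδ) hy
          nlinarith
    _ = (∫ y in Metric.ball (0 : Pt) 1, (Metric.ball (0 : Pt) δ).indicator (fun _ => (1 : ℝ)) y) +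
          ∫ _y in Metric.ball (0 : Pt) 1, Real.exp (-β * M) := integral_add h2 h3
    _ ≤ δ ^ 3 * V1 + Real.exp (-β * M) * V1 := by
        refine add_le_add ?_ (le_of_eq ?_)
        · rw [setIntegral_indicator measurableSet_ball, setIntegral_const, smul_eq_mul, mul_one,
            ← volume_ball_toReal hδ.le]
          exact ENNReal.toReal_mono measure_ball_lt_top.ne
            (measure_mono Set.inter_subset_right)
        · rw [setIntegral_const, smul_eq_mul, mul_comm]
          rfl

/-- The elementary inequality behind the mean-field pressure. -/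
theorem mf_ineq {N P K : ℕ} {Λ C1 h H4 : ℝ} (hK : 1 ≤ K) (hC : 0 ≤ C1) (hΛ : C1 ≤ Λ)
    (hH : Λ * h ≤ H4) :
    Λ * h * N - (Λ - C1) * ((N - P : ℕ) : ℝ) - H4 * ((N - K * P : ℕ) : ℝ) ≤
      Λ * P * max 0 (max h (K * h - (K - 1))) + C1 * K * P := by
  set m : ℝ := max 0 (max h (K * h - (K - 1))) with hm
  have m0 : 0 ≤ m := le_max_left _ _
  have m1 : h ≤ m := (le_max_left _ _).trans (le_max_right _ _)
  have m2 : K * h - (K - 1) ≤ m := (le_max_right _ _).trans (le_max_right _ _)
  have hΛ0 : 0 ≤ Λ := hC.trans hΛ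
  have hKr : (1 : ℝ) ≤ K := by exact_mod_cast hK
  have hPr : (0 : ℝ) ≤ P := Nat.cast_nonneg P
  have hNr : (0 : ℝ) ≤ N := Nat.cast_nonneg N
  have hPKP : P ≤ K * P := Nat.le_mul_of_pos_left P hK
  -- the middle region, as a statement on reals `P ≤ n ≤ K P`
  have hmid : ∀ n : ℝ, (P : ℝ) ≤ n → n ≤ K * P → Λ * h * n - (Λ - C1) * (n - P) ≤
      Λ * P * m + C1 * K * P := by
    intro n hn1 hn2
    have e1 : C1 * (n - P) ≤ C1 * K * P := by nlinarith
    have e2 : h * n - (n - P) ≤ P * m := by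
      by_cases h1 : h ≤ 1
      · nlinarith
      · push Not at h1
        have : h * n - (n - P) ≤ P * (K * h - (K - 1)) := by nlinarith
        exact this.trans (mul_le_mul_of_nonneg_left m2 hPr)
    have e3 := mul_le_mul_of_nonneg_left e2 hΛ0
    nlinarith
  rcases le_total N P with hNP | hNP
  · have z1 : N - P = 0 := by omega
    have z2 : N - K * P = 0 := by omega
    rw [z1, z2]
    have hNPr : (N : ℝ) ≤ P := by exact_mod_cast hNP
    have e1 : Λ * h * N ≤ Λ * m * N := by
      have := mul_le_mul_of_nonneg_left m1 hΛ0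
      exact mul_le_mul_of_nonneg_right this hNr
    have e2 : Λ * m * N ≤ Λ * m * P := mul_le_mul_of_nonneg_left hNPr (by positivity)
    have e3 : 0 ≤ C1 * K * P := by positivity
    simp only [Nat.cast_zero, mul_zero, sub_zero]
    nlinarith
  · rcases le_total N (K * P) with hNK | hNK
    · have z2 : N - K * P = 0 := by omega
      rw [z2, Nat.cast_sub hNP]
      have := hmid N (by exact_mod_cast hNP) (by exact_mod_cast hNK)
      simpa using this
    · rw [Nat.cast_sub hNP, Nat.cast_sub hNK]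
      push_cast
      have hNKr : (K : ℝ) * P ≤ N := by exact_mod_cast hNK
      have h1 := hmid (K * P) (by nlinarith) le_rfl
      have h2 : Λ * h * (N - K * P) ≤ H4 * (N - K * P) :=
        mul_le_mul_of_nonneg_right hH (by linarith)
      have h3 : 0 ≤ (Λ - C1) * (N - K * P) := mul_nonneg (by linarith) (by linarith)
      nlinarith

theorem stab_zero {c : ℝ → ℝ} (hpos : ∀ r, 0 ≤ c r) : Stab c (fun _ => 0) 0 := by
  classical
  refine ⟨le_rfl, fun ι _ x => ?_⟩
  have h1 : A (fun _ => 0) x = 0 := by simp [A, SS]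
  have h2 : 0 ≤ U c x := by
    unfold U SS
    have : (Fintype.card ι : ℝ) * c 0 ≤ ∑ i, ∑ j, c (dist (x i) (x j)) := by
      calc (Fintype.card ι : ℝ) * c 0 = ∑ i : ι, c (dist (x i) (x i)) := by simp
        _ ≤ ∑ i, ∑ j, c (dist (x i) (x j)) := Finset.sum_le_sum (fun i _ =>
            Finset.single_le_sum (f := fun j => c (dist (x i) (x j)))
              (fun j _ => hpos _) (Finset.mem_univ i))
    linarith
  rw [h1]
  linarith

theorem attrOK_zero : AttrOK (fun _ => 0) where
  meas := measurable_const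
  nonneg := fun _ => le_rfl
  bdd := ⟨0, fun _ => le_rfl⟩

/-- The finite-volume estimate for `h' n + log Z`. -/
theorem finite_volume {K : ℕ} {θ₂ θ₃ ξ Λ M : ℝ} {c : ℝ → ℝ} (hK : KGeom K θ₂ θ₃)
    (hc : CoreType c θ₂ θ₃ ξ (Real.exp (-Λ / 3)) M)
    (hΛ : Real.log (2 * V1 + 1) ≤ Λ) (hM : 4 * Λ ≤ M) {β h : ℝ} (hβ : 1 / 2 ≤ β)
    (hh : Λ * h ≤ M / 4) {L : ℝ} (hL : 0 < L) (N : ℕ) :
    Λ * h * N + Real.log (partitionFn c L N β) ≤
      Λ * packingNumber L * max 0 (max h (K * h - (K - 1))) +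
        Real.log (2 * V1 + 1) * K * packingNumber L + L ^ 3 + packingNumber L +
        Real.log (packingNumber L + 1) := by
  set C1 := Real.log (2 * V1 + 1) with hC1
  set P := packingNumber L with hP
  have hV := V1_nonneg
  have hC10 : 0 ≤ C1 := Real.log_nonneg (by linarith)
  have hM0 := hc.hM
  have hpos : ∀ r, 0 ≤ r → 0 ≤ c r := fun r _ => hc.nonneg r
  -- the weight
  have hv : ∫ y in Metric.ball (0 : Pt) 1, Real.exp (-(β / 2) * c ‖y‖) ≤
      Real.exp (-(Λ - C1)) := by
    refine (integral_core_le hc (by linarith)).trans ?_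
    have e1 : Real.exp (-Λ / 3) ^ 3 = Real.exp (-Λ) := by
      rw [← Real.exp_nat_mul]; congr 1; push_cast; ring
    have e2 : Real.exp (-(β / 2) * M) ≤ Real.exp (-Λ) := by
      apply Real.exp_le_exp.mpr
      nlinarith
    have e3 : Real.exp (-(Λ - C1)) = Real.exp (-Λ) * (2 * V1 + 1) := by
      rw [show -(Λ - C1) = -Λ + C1 by ring, Real.exp_add, hC1, Real.exp_log (by linarith)]
    rw [e1, e3]
    have e4 := Real.exp_pos (-Λ)
    nlinarith
  have hv1 : ∫ y in Metric.ball (0 : Pt) 1, Real.exp (-(β / 2) * c ‖y‖) ≤ 1 :=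
    hv.trans (Real.exp_le_one_iff.mpr (by linarith))
  have hv0 : 0 ≤ ∫ y in Metric.ball (0 : Pt) 1, Real.exp (-(β / 2) * c ‖y‖) :=
    integral_nonneg (fun _ => (Real.exp_pos _).le)
  have hZ1 := partitionFn_half hc.meas hc.nonneg (β := β) (by linarith) hL.le (N := N)
    (fun x hx => energy_ge hK hc hL.le x hx)
  have hZ2 := partitionFn_le_packingNumber hc.meas hpos (β := β / 2) (by linarith) hL.le
    (Packing.bddAbove_packingSet hL.le) hv1 N
  have hZ0 := partitionFn_pos hc.meas hpos (β := β) (by linarith) hL N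
  have hZ3 : partitionFn c L N β ≤
      Real.exp (-(β / 2) * (M * ((N - K * P : ℕ) : ℝ))) *
        ((P + 1) * Real.exp (L ^ 3 + P) * Real.exp (-(Λ - C1)) ^ (N - P)) := by
    refine hZ1.trans (mul_le_mul_of_nonneg_left (hZ2.trans ?_) (Real.exp_pos _).le)
    exact mul_le_mul_of_nonneg_left (pow_le_pow_left₀ hv0 hv _) (by positivity)
  have hlog : Real.log (partitionFn c L N β) ≤
      -(β / 2) * (M * ((N - K * P : ℕ) : ℝ)) +
        (Real.log (P + 1) + (L ^ 3 + P) - (Λ - C1) * ((N - P : ℕ) : ℝ)) := by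
    refine (Real.log_le_log hZ0 hZ3).trans (le_of_eq ?_)
    rw [Real.log_mul (Real.exp_ne_zero _) (by positivity), Real.log_exp, ← Real.exp_nat_mul,
      Real.log_mul (by positivity) (Real.exp_ne_zero _),
      Real.log_mul (by positivity) (Real.exp_ne_zero _), Real.log_exp, Real.log_exp]
    ring
  have hmf := mf_ineq (N := N) (P := P) (K := K) (Λ := Λ) (C1 := C1) (h := h) (H4 := M / 4)
    (by have := hK.two_le; omega) hC10 hΛ hh
  have hb : -(β / 2) * (M * ((N - K * P : ℕ) : ℝ)) ≤ -(M / 4 * ((N - K * P : ℕ) : ℝ)) := by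
    have h0 : 0 ≤ M * ((N - K * P : ℕ) : ℝ) := by positivity
    nlinarith
  linarith

/-- **Module I, upper bound for the base pressure.** -/
theorem baseUpper (hSA : SuperAddStmt) (hPart : PartitionStmt) : BaseUpperStmt := by
  intro K θ₂ θ₃ p η H hK hp hlim hη
  have hV := V1_nonneg
  set C1 := Real.log (2 * V1 + 1) with hC1
  have hC10 : 0 ≤ C1 := Real.log_nonneg (by linarith)
  have hK1 : 1 ≤ K := by have := hK.two_le; omega
  have hKr : (1 : ℝ) ≤ K := by exact_mod_cast hK1
  refine ⟨max ((C1 * K * p + p + 1) / η) (C1 + 1), ?_, ?_⟩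
  · exact lt_max_of_lt_right (by linarith)
  intro Λ hΛ
  have hΛ1 : C1 + 1 ≤ Λ := (le_max_right _ _).trans hΛ
  have hΛ2 : C1 * K * p + p + 1 ≤ Λ * η := by
    have := (le_max_left _ _).trans hΛ
    rwa [div_le_iff₀ hη] at this
  have hΛ0 : 0 < Λ := by linarith
  refine ⟨4 * Λ * (|H| + 1), ?_⟩
  intro M ξ c hM hc β h hβ1 _hβ2 hh
  have hM4 : 4 * Λ ≤ M := by
    have : 0 ≤ Λ * |H| := by positivity
    nlinarith
  have hhM : Λ * h ≤ M / 4 := by
    have h1 : h ≤ |H| := hh.trans (le_abs_self H)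
    have h2 := mul_le_mul_of_nonneg_left h1 hΛ0.le
    nlinarith
  set m : ℝ := max 0 (max h (K * h - (K - 1))) with hm
  have m0 : 0 ≤ m := le_max_left _ _
  have hMF : MF0 p K h = p * m := by
    unfold MF0
    rw [hm, mul_max_of_nonneg _ _ hp.le, mul_max_of_nonneg _ _ hp.le, mul_zero]
  -- the limit bound
  have hstab := stab_zero hc.nonneg
  have hLZ : ∀ (L : ℝ) (n : ℕ), 0 < L →
      LZ c (fun _ => 0) β L n = Real.log (partitionFn c L n β) := by
    intro L n hL
    have := hPart c (fun _ => 0) 0 hc.toCoreOK attrOK_zero hstab β L n (by linarith) hL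
    simp only [sub_zero, mul_zero, zero_div] at this
    exact this.symm
  unfold Pr
  refine ciSup_le ?_
  rintro ⟨q, n⟩
  simp only
  set b : ℝ := (q : ℝ) + 1 with hb
  have hb0 : 0 < b := by positivity
  have hb3 : (q : ℝ) + 3 = b + 2 := by rw [hb]; ring
  rw [hb3]
  -- the bounding sequence
  let Lj : ℕ → ℝ := fun j => ((j : ℝ) + 1) * (b + 2) - 2
  have hLjpos : ∀ j, 0 < Lj j := by
    intro j
    have : (0 : ℝ) ≤ j := Nat.cast_nonneg j
    simp only [Lj]
    nlinarith
  have hLjtop : Tendsto Lj atTop atTop := by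
    have h1 : Tendsto (fun j : ℕ => ((j : ℝ) + 1) * (b + 2)) atTop atTop :=
      (tendsto_atTop_add_const_right _ _ tendsto_natCast_atTop_atTop).atTop_mul_const (by positivity)
    exact tendsto_atTop_add_const_right _ (-2) h1
  have hbound : ∀ j : ℕ, (Λ * h * n + LZ c (fun _ => 0) β b n) / (b + 2) ^ 3 ≤
      (Λ * m + C1 * K + 1) * (packingNumber (Lj j) / Lj j ^ 3) + 1 +
        Real.log (packingNumber (Lj j) + 1) / Lj j ^ 3 := by
    intro j
    have hsa := hSA c (fun _ => 0) 0 β hc.toCoreOK attrOK_zero hstab (by linarith) b (j + 1) hb0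
      (by omega) (fun _ => n)
    simp only [Finset.sum_const, Finset.card_univ, Fintype.card_pi, Fintype.card_fin,
      Finset.prod_const, nsmul_eq_mul, smul_eq_mul] at hsa
    push_cast at hsa
    have hLjdef : ((j : ℝ) + 1) * (b + 2) - 2 = Lj j := rfl
    rw [hLjdef, hLZ _ _ (hLjpos j)] at hsa
    have hfv := finite_volume hK hc (by linarith) hM4 (β := β) (h := h) hβ1 hhM (hLjpos j)
      ((j + 1) ^ 3 * n)
    push_cast at hfv
    have hj0 : (0 : ℝ) < (j : ℝ) + 1 := by positivity
    have hLb : (Lj j + 2) ^ 3 = ((j : ℝ) + 1) ^ 3 * (b + 2) ^ 3 := by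
      simp only [Lj]; ring
    have e1 : (Λ * h * n + LZ c (fun _ => 0) β b n) / (b + 2) ^ 3 =
        (Λ * h * (((j : ℝ) + 1) ^ 3 * n) + ((j : ℝ) + 1) ^ 3 * LZ c (fun _ => 0) β b n) /
          (Lj j + 2) ^ 3 := by
      rw [hLb]; field_simp
    rw [e1]
    set Q : ℝ := (packingNumber (Lj j) : ℝ) with hQ
    have hQ0 : 0 ≤ Q := Nat.cast_nonneg _
    have hX : 0 < Lj j ^ 3 := pow_pos (hLjpos j) 3
    have hX2 : Lj j ^ 3 ≤ (Lj j + 2) ^ 3 :=
      pow_le_pow_left₀ (hLjpos j).le (by linarith) 3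
    have hlogQ : 0 ≤ Real.log (Q + 1) := Real.log_nonneg (by linarith)
    calc (Λ * h * (((j : ℝ) + 1) ^ 3 * n) + ((j : ℝ) + 1) ^ 3 * LZ c (fun _ => 0) β b n) /
          (Lj j + 2) ^ 3
        ≤ (Λ * Q * m + C1 * K * Q + Lj j ^ 3 + Q + Real.log (Q + 1)) / (Lj j + 2) ^ 3 := by
          refine div_le_div_of_nonneg_right ?_ (hX.le.trans hX2)
          refine le_trans (add_le_add_right hsa _) ?_
          exact hfv
      _ ≤ (Λ * Q * m + C1 * K * Q + Lj j ^ 3 + Q + Real.log (Q + 1)) / Lj j ^ 3 :=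
          div_le_div_of_nonneg_left (by positivity) hX hX2
      _ = _ := by
          have hne : Lj j ≠ 0 := (hLjpos j).ne'
          field_simp
          ring
  have hlimR : Tendsto (fun j : ℕ => (Λ * m + C1 * K + 1) *
      (packingNumber (Lj j) / Lj j ^ 3) + 1 +
        Real.log (packingNumber (Lj j) + 1) / Lj j ^ 3) atTop
      (𝓝 ((Λ * m + C1 * K + 1) * p + 1 + 0)) :=
    (((hlim.comp hLjtop).const_mul _).add_const 1).add
      ((tendsto_log_packing hlim).comp hLjtop)
  have hfin := ge_of_tendsto' hlimR hbound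
  rw [hMF]
  nlinarith

end Crest.Agent.R149.BaseUpper
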