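import Crest.Agent.R149.Stmts

/-!
# Row 149: the two cores (`Core1Stmt`, `Core2Stmt`)
-/

set_option autoImplicit false

open MeasureTheory Crest.ProbabilityR.Continuum Filter Topology
open scoped ENNReal

namespace Crest.Agent.R149

namespace Cores12

/-- decreasing ramp: `1` up to `a`, `0` from `b` on. -/
noncomputable def dn (a b r : ℝ) : ℝ := max 0 (min 1 ((b - r) / (b - a)))

/-- increasing ramp: `0` up to `a`, `1` from `b` on. -/
noncomputable def up (a b r : ℝ) : ℝ := max 0 (min 1 ((r - a) / (b - a)))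

lemma dn_nonneg (a b r : ℝ) : 0 ≤ dn a b r := le_max_left _ _
lemma up_nonneg (a b r : ℝ) : 0 ≤ up a b r := le_max_left _ _
lemma dn_le (a b r : ℝ) : dn a b r ≤ 1 := max_le zero_le_one (min_le_left _ _)
lemma up_le (a b r : ℝ) : up a b r ≤ 1 := max_le zero_le_one (min_le_left _ _)

lemma dn_one {a b r : ℝ} (h : a < b) (hr : r ≤ a) : dn a b r = 1 := by
  unfold dn
  have : 1 ≤ (b - r) / (b - a) := by
    rw [le_div_iff₀ (by linarith)]; linarith
  rw [min_eq_left this, max_eq_right zero_le_one]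

lemma dn_zero {a b r : ℝ} (h : a < b) (hr : b ≤ r) : dn a b r = 0 := by
  unfold dn
  have : (b - r) / (b - a) ≤ 0 := div_nonpos_of_nonpos_of_nonneg (by linarith) (by linarith)
  exact max_eq_left ((min_le_right _ _).trans this)

lemma up_one {a b r : ℝ} (h : a < b) (hr : b ≤ r) : up a b r = 1 := by
  unfold up
  have : 1 ≤ (r - a) / (b - a) := by
    rw [le_div_iff₀ (by linarith)]; linarith
  rw [min_eq_left this, max_eq_right zero_le_one]

lemma up_zero {a b r : ℝ} (h : a < b) (hr : r ≤ a) : up a b r = 0 := by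
  unfold up
  have : (r - a) / (b - a) ≤ 0 := div_nonpos_of_nonpos_of_nonneg (by linarith) (by linarith)
  exact max_eq_left ((min_le_right _ _).trans this)

lemma continuous_dn (a b : ℝ) : Continuous (dn a b) := by unfold dn; fun_prop
lemma continuous_up (a b : ℝ) : Continuous (up a b) := by unfold up; fun_prop

/-- the bounded continuous core -/
noncomputable def core (θ₂ θ₃ ξ δ M r : ℝ) : ℝ :=
  M * (dn (δ / 2) (θ₂ * δ) r + up (θ₃ * δ) δ r * dn 1 (1 + ξ) r)

lemma lintegral_core_ne_top {c : ℝ → ℝ} {M : ℝ} (h : ∀ r, c r ≤ M) (h2 : ∀ r, 2 ≤ r → c r = 0) :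
    ∫⁻ y : Pt, ENNReal.ofReal (c ‖y‖) ≠ ⊤ := by
  have h1 : ∀ y : Pt, ENNReal.ofReal (c ‖y‖) ≤
      (Metric.closedBall (0 : Pt) 2).indicator (fun _ => ENNReal.ofReal M) y := by
    intro y
    by_cases hy : y ∈ Metric.closedBall (0 : Pt) 2
    · rw [Set.indicator_of_mem hy]
      exact ENNReal.ofReal_le_ofReal (h _)
    · rw [Set.indicator_of_notMem hy]
      have : 2 ≤ ‖y‖ := by
        rw [mem_closedBall_zero_iff, not_le] at hy; exact hy.le
      rw [h2 _ this]; simp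
  refine ne_top_of_le_ne_top ?_ (lintegral_mono h1)
  rw [lintegral_indicator Metric.isClosed_closedBall.measurableSet, setLIntegral_const]
  exact ENNReal.mul_ne_top ENNReal.ofReal_ne_top
    (isCompact_closedBall (0 : Pt) 2).measure_lt_top.ne

section
variable {θ₂ θ₃ ξ δ M : ℝ} (h12 : 1 / 2 < θ₂) (h23 : θ₂ < θ₃) (h31 : θ₃ < 1) (hξ : 0 < ξ)
  (hξ1 : ξ ≤ 1) (hδ : 0 < δ) (hδ1 : δ ≤ 1 / 4) (hM : 0 ≤ M)
include h12 h23 h31 hξ hξ1 hδ hδ1 hM

lemma core_type : CoreType (core θ₂ θ₃ ξ δ M) θ₂ θ₃ ξ δ M ∧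
    Continuous (core θ₂ θ₃ ξ δ M) ∧ ∀ r, core θ₂ θ₃ ξ δ M r ≤ M := by
  have hA : δ / 2 < θ₂ * δ := by nlinarith
  have hB : θ₃ * δ < δ := by nlinarith
  have hAB : θ₂ * δ < θ₃ * δ := by nlinarith
  have hC : (1 : ℝ) < 1 + ξ := by linarith
  have hcont : Continuous (core θ₂ θ₃ ξ δ M) := by
    unfold core
    exact continuous_const.mul ((continuous_dn _ _).add ((continuous_up _ _).mul (continuous_dn _ _)))
  have hle : ∀ r, core θ₂ θ₃ ξ δ M r ≤ M := by
    intro r
    unfold core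
    have h : dn (δ / 2) (θ₂ * δ) r + up (θ₃ * δ) δ r * dn 1 (1 + ξ) r ≤ 1 := by
      rcases le_total r (θ₂ * δ) with hr | hr
      · rw [up_zero hB (hr.trans hAB.le)]
        have := dn_le (δ / 2) (θ₂ * δ) r
        linarith
      · rw [dn_zero hA hr]
        have h1 := up_le (θ₃ * δ) δ r
        have h2 := dn_le 1 (1 + ξ) r
        have h3 := up_nonneg (θ₃ * δ) δ r
        have h4 := dn_nonneg 1 (1 + ξ) r
        nlinarith
    nlinarith
  have hfar' : ∀ r, 1 + ξ ≤ r → core θ₂ θ₃ ξ δ M r = 0 := by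
    intro r hr
    unfold core
    rw [dn_zero hA (by linarith), dn_zero hC hr]; ring
  refine ⟨⟨⟨hcont.measurable, ?_, ?_, ?_⟩, hξ, hξ1, hδ, hδ1, hM, hfar', ?_, ?_, ?_⟩, hcont, hle⟩
  · intro r
    unfold core
    have h1 := dn_nonneg (δ / 2) (θ₂ * δ) r
    have h3 := up_nonneg (θ₃ * δ) δ r
    have h4 := dn_nonneg 1 (1 + ξ) r
    positivity
  · intro r hr; exact hfar' r (by linarith)
  · exact lintegral_core_ne_top hle (fun r hr => hfar' r (by linarith))
  · intro r h1 h2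
    unfold core
    rw [dn_zero hA h1, up_zero hB h2]; ring
  · intro r _ h2
    unfold core
    rw [dn_one hA h2]
    have h3 := up_nonneg (θ₃ * δ) δ r
    have h4 := dn_nonneg 1 (1 + ξ) r
    have : 0 ≤ up (θ₃ * δ) δ r * dn 1 (1 + ξ) r := by positivity
    nlinarith
  · intro r h1 h2
    unfold core
    rw [up_one hB h1, dn_one hC h2.le]
    have h3 := dn_nonneg (δ / 2) (θ₂ * δ) r
    nlinarith

end

/-- the divergent part -/
noncomputable def sing (δ r : ℝ) : ℝ := max 0 (r⁻¹ - (δ / 2)⁻¹)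

lemma sing_nonneg (δ r : ℝ) : 0 ≤ sing δ r := le_max_left _ _

lemma sing_zero {δ r : ℝ} (hδ : 0 < δ) (h : δ / 2 ≤ r) : sing δ r = 0 := by
  unfold sing
  apply max_eq_left
  have : r⁻¹ ≤ (δ / 2)⁻¹ := inv_anti₀ (by linarith) h
  linarith

lemma measurable_sing (δ : ℝ) : Measurable (sing δ) := by
  unfold sing
  exact measurable_const.max (measurable_inv.sub_const _)

lemma lintegral_sing_ne_top {δ : ℝ} (hδ : 0 < δ) (hδ1 : δ ≤ 1 / 4) :
    ∫⁻ y : Pt, ENNReal.ofReal (sing δ ‖y‖) ≠ ⊤ := by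
  have hint : Integrable (fun y : Pt => sing δ ‖y‖) := by
    rw [MeasureTheory.integrable_fun_norm_addHaar (volume : Measure Pt) (f := sing δ)]
    have hfin : Module.finrank ℝ Pt = 3 := by simp
    rw [hfin]
    have hsub : IntegrableOn (fun y : ℝ => y ^ (3 - 1) • sing δ y) (Set.Ioo 0 1) := by
      refine Measure.integrableOn_of_bounded (M := 1) (by simp) ?_ ?_
      · exact ((measurable_id.pow_const _).smul (measurable_sing δ)).aestronglyMeasurable
      · refine (ae_restrict_iff' measurableSet_Ioo).2 (Eventually.of_forall fun r hr => ?_)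
        have hr0 : 0 < r := hr.1
        have h1 : sing δ r ≤ r⁻¹ := by
          unfold sing
          have h2 : 0 < (δ / 2)⁻¹ := by positivity
          exact max_le (by positivity) (by linarith)
        rw [Real.norm_eq_abs, smul_eq_mul, abs_of_nonneg (mul_nonneg (by positivity)
          (sing_nonneg _ _))]
        calc r ^ (3 - 1) * sing δ r ≤ r ^ (3 - 1) * r⁻¹ := by gcongr
          _ = r := by field_simp
          _ ≤ 1 := hr.2.le
    have hz : IntegrableOn (fun y : ℝ => y ^ (3 - 1) • sing δ y) (Set.Ici 1) := by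
      refine (integrableOn_zero (s := Set.Ici (1 : ℝ)) (μ := volume)).congr_fun (fun r hr => ?_) measurableSet_Ici
      have hr1 : (1 : ℝ) ≤ r := hr
      simp [sing_zero hδ (by linarith : δ / 2 ≤ r)]
    have hU : Set.Ioi (0 : ℝ) = Set.Ioo 0 1 ∪ Set.Ici 1 := by
      rw [Set.Ioo_union_Ici_eq_Ioi (by norm_num)]
    rw [hU]
    exact hsub.union hz
  exact hint.lintegral_lt_top.ne

end Cores12

theorem core1 : Core1Stmt := by
  intro θ₂ θ₃ ξ δ M h12 h23 h31 hξ hξ1 hδ hδ1 hM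
  exact ⟨Cores12.core θ₂ θ₃ ξ δ M, Cores12.core_type h12 h23 h31 hξ hξ1 hδ hδ1 hM⟩

theorem core2 : Core2Stmt := by
  intro θ₂ θ₃ ξ δ M h12 h23 h31 hξ hξ1 hδ hδ1 hM
  obtain ⟨hT, hc, hle⟩ := Cores12.core_type h12 h23 h31 hξ hξ1 hδ hδ1 hM
  have hK : CoreOK (Cores12.core θ₂ θ₃ ξ δ M) := hT.toCoreOK
  have hA : δ / 2 < θ₂ * δ := by nlinarith
  refine ⟨fun r => Cores12.core θ₂ θ₃ ξ δ M r + Cores12.sing δ r,
    ⟨⟨hK.meas.add (Cores12.measurable_sing δ), ?_, ?_, ?_⟩, hξ, hξ1, hδ, hδ1, hM, ?_, ?_, ?_, ?_⟩,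
    ?_, ?_⟩
  · intro r
    exact add_nonneg (hK.nonneg r) (Cores12.sing_nonneg _ _)
  · intro r hr
    rw [hK.far r hr, Cores12.sing_zero hδ (by linarith), add_zero]
  · have h1 : ∀ y : Pt, ENNReal.ofReal (Cores12.core θ₂ θ₃ ξ δ M ‖y‖ + Cores12.sing δ ‖y‖) =
        ENNReal.ofReal (Cores12.core θ₂ θ₃ ξ δ M ‖y‖) + ENNReal.ofReal (Cores12.sing δ ‖y‖) :=
      fun y => ENNReal.ofReal_add (hK.nonneg _) (Cores12.sing_nonneg _ _)
    simp only [h1]
    have hm : Measurable fun y : Pt => ENNReal.ofReal (Cores12.core θ₂ θ₃ ξ δ M ‖y‖) :=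
      ENNReal.measurable_ofReal.comp (hK.meas.comp measurable_norm)
    rw [lintegral_add_left hm]
    exact ENNReal.add_ne_top.2 ⟨hK.int, Cores12.lintegral_sing_ne_top hδ hδ1⟩
  · intro r hr
    rw [hT.far' r hr, Cores12.sing_zero hδ (by linarith), add_zero]
  · intro r h1 h2
    rw [hT.win r h1 h2, Cores12.sing_zero hδ (by linarith), add_zero]
  · intro r h1 h2
    have := hT.big1 r h1 h2
    have h3 := Cores12.sing_nonneg δ r
    linarith
  · intro r h1 h2
    have := hT.big2 r h1 h2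
    have h3 := Cores12.sing_nonneg δ r
    linarith
  · have h1 : Tendsto (fun r : ℝ => r⁻¹ + (-(δ / 2)⁻¹)) (𝓝[>] 0) atTop :=
      tendsto_atTop_add_const_right _ _ tendsto_inv_nhdsGT_zero
    refine tendsto_atTop_mono (fun r => ?_) h1
    have h2 := hK.nonneg r
    have h3 : r⁻¹ - (δ / 2)⁻¹ ≤ Cores12.sing δ r := le_max_right _ _
    linarith
  · intro a b ha hab
    refine ⟨M + a⁻¹, fun r h1 h2 => ?_⟩
    have h3 := hle r
    have h4 : Cores12.sing δ r ≤ a⁻¹ := by
      unfold Cores12.sing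
      have h5 : r⁻¹ ≤ a⁻¹ := inv_anti₀ ha h1
      have h6 : 0 < (δ / 2)⁻¹ := by positivity
      exact max_le (by positivity) (by linarith)
    linarith

end Crest.Agent.R149
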