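import Crest.Agent.R149.Stmts

/-!
# Row 149: the geometric data `KGeomStmt` and `CoreKStmt`
-/

set_option autoImplicit false

open MeasureTheory Crest.ProbabilityR.Continuum Filter Topology
open scoped ENNReal

namespace Crest.Agent.R149.KGeomMod

open Crest.Agent.R149

theorem abs_coord_le (x y : Pt) (k : Fin 3) : |x k - y k| ≤ dist x y := by
  rw [dist_eq_norm]
  have := PiLp.norm_apply_le (x - y) k
  simpa [Real.norm_eq_abs] using this

theorem dist_le_of_coord (x y : Pt) {r : ℝ} (hr : 0 ≤ r) (h : ∀ k, |x k - y k| ≤ r) :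
    dist x y ≤ 2 * r := by
  rw [EuclideanSpace.dist_eq]
  apply Real.sqrt_le_iff.2
  refine ⟨by positivity, ?_⟩
  have : ∀ k : Fin 3, dist (x k) (y k) ^ 2 ≤ r ^ 2 := by
    intro k
    rw [Real.dist_eq]
    exact pow_le_pow_left₀ (abs_nonneg _) (h k) 2
  rw [Fin.sum_univ_three]
  nlinarith [this 0, this 1, this 2, sq_nonneg r]

/-- The property defining `K`. -/
def Adm (K : ℕ) : Prop :=
  ∃ y : Fin K → Pt, ∀ i j, i ≠ j → 1 / 2 < dist (y i) (y j) ∧ dist (y i) (y j) < 1

theorem adm_two : Adm 2 := by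
  refine ⟨fun i => EuclideanSpace.single (0 : Fin 3) ((i : ℕ) * (3 / 4 : ℝ)), ?_⟩
  intro i j hij
  have key : dist (EuclideanSpace.single (0 : Fin 3) ((i : ℕ) * (3 / 4 : ℝ)) : Pt)
      (EuclideanSpace.single (0 : Fin 3) ((j : ℕ) * (3 / 4 : ℝ))) = 3 / 4 := by
    rw [EuclideanSpace.dist_single_same, Real.dist_eq]
    fin_cases i <;> fin_cases j <;> simp_all <;> norm_num
  rw [key]
  norm_num

theorem adm_le {K : ℕ} (h : Adm K) : K ≤ 11 ^ 3 := by
  obtain ⟨y, hy⟩ := h
  rcases Nat.eq_zero_or_pos K with h0 | h0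
  · omega
  set z : Pt := y ⟨0, h0⟩ with hz
  -- the cell map
  let f : Fin K → (Fin 3 → ℤ) := fun i k => ⌊4 * (y i k - z k)⌋
  have hinj : Function.Injective f := by
    intro i j hij
    by_contra hne
    have h1 := (hy i j hne).1
    have h2 : dist (y i) (y j) ≤ 2 * (1 / 4) := by
      apply dist_le_of_coord _ _ (by norm_num)
      intro k
      have h3 : ⌊4 * (y i k - z k)⌋ = ⌊4 * (y j k - z k)⌋ := congrFun hij k
      have h4 := Int.abs_sub_lt_one_of_floor_eq_floor h3
      have h5 : 4 * (y i k - z k) - 4 * (y j k - z k) = 4 * (y i k - y j k) := by ring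
      rw [h5, abs_mul] at h4
      norm_num at h4
      linarith
    linarith
  have hmem : ∀ i, f i ∈ Fintype.piFinset (fun _ : Fin 3 => Finset.Icc (-5 : ℤ) 5) := by
    intro i
    rw [Fintype.mem_piFinset]
    intro k
    have h1 : |y i k - z k| ≤ 1 := by
      refine (abs_coord_le (y i) z k).trans ?_
      by_cases hi : i = ⟨0, h0⟩
      · rw [hz, hi, dist_self]; norm_num
      · exact (hy i _ hi).2.le
    rw [abs_le] at h1
    rw [Finset.mem_Icc]
    constructor
    · apply Int.le_floor.2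
      push_cast
      linarith [h1.1]
    · have : ((⌊4 * (y i k - z k)⌋ : ℤ) : ℝ) ≤ 4 * (y i k - z k) := Int.floor_le _
      have h6 : ((⌊4 * (y i k - z k)⌋ : ℤ) : ℝ) ≤ 5 := by linarith [h1.2]
      exact_mod_cast h6
  have := Finset.card_le_card_of_injOn (s := (Finset.univ : Finset (Fin K))) f
    (fun i _ => hmem i) (fun a _ b _ hab => hinj hab)
  rw [Finset.card_univ, Fintype.card_fin, Fintype.card_piFinset] at this
  simpa using this

theorem kgeom : KGeomStmt := by
  classical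
  obtain ⟨K, hK, hmax⟩ : ∃ K, Adm K ∧ ∀ K', Adm K' → K' ≤ K := by
    refine ⟨Nat.findGreatest Adm (11 ^ 3), ?_, ?_⟩
    · exact Nat.findGreatest_spec (adm_le adm_two) adm_two
    · intro K' hK'
      exact Nat.le_findGreatest (adm_le hK') hK'
  have h2 : 2 ≤ K := hmax 2 adm_two
  obtain ⟨y, hy⟩ := hK
  -- the finite set of pairs
  let P : Finset (Fin K × Fin K) := Finset.univ.filter (fun q => q.1 ≠ q.2)
  have hP : P.Nonempty := by
    refine ⟨(⟨0, by omega⟩, ⟨1, by omega⟩), ?_⟩
    simp [P]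
  let g : Fin K × Fin K → ℝ := fun q => dist (y q.1) (y q.2)
  obtain ⟨a, ha, hamin⟩ := Finset.exists_min_image P g hP
  obtain ⟨b, hb, hbmax⟩ := Finset.exists_max_image P g hP
  have ha' : a.1 ≠ a.2 := by simpa [P] using ha
  have hb' : b.1 ≠ b.2 := by simpa [P] using hb
  have ha1 := (hy a.1 a.2 ha').1
  have hb1 := (hy b.1 b.2 hb').2
  have hab : g a ≤ g b := hamin b hb
  have hga : g a = dist (y a.1) (y a.2) := rfl
  have hgb : g b = dist (y b.1) (y b.2) := rfl
  refine ⟨K, (1 / 2 + g a) / 2, (g b + 1) / 2, h2, ?_, ?_, ?_, ⟨y, ?_⟩, ?_⟩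
  · rw [hga]; linarith
  · rw [← hga] at ha1; rw [← hgb] at hb1; linarith
  · rw [hgb]; linarith
  · intro i j hij
    have hmem : (i, j) ∈ P := by simp [P, hij]
    have h3 := hamin _ hmem
    have h4 := hbmax _ hmem
    have h5 : g (i, j) = dist (y i) (y j) := rfl
    rw [h5] at h3 h4
    constructor
    · rw [← hga] at ha1; linarith
    · rw [← hgb] at hb1; linarith
  · intro y' hy'
    have := hmax (K + 1) ⟨y', hy'⟩
    omega

theorem coreK : CoreKStmt := by
  intro K θ₂ θ₃ ξ δ M c hK hc x hx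
  by_contra hcon
  push Not at hcon
  apply hK.nex (fun i => (1 / δ) • x i)
  intro i j hij
  have hlt := hcon i j hij
  have hδ := hc.hδ
  have h1 : δ / 2 < dist (x i) (x j) := by
    by_contra h
    exact absurd (hc.big1 _ dist_nonneg (not_lt.1 h)) (not_le.2 hlt)
  have h2 : dist (x i) (x j) < δ := by
    by_contra h
    exact absurd (hc.big2 _ (not_lt.1 h) (hx i j)) (not_le.2 hlt)
  have h3 : dist ((1 / δ) • x i) ((1 / δ) • x j) = (1 / δ) * dist (x i) (x j) := by
    rw [dist_smul₀, Real.norm_of_nonneg (by positivity)]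
  rw [h3]
  constructor
  · rw [one_div_mul_eq_div, lt_div_iff₀ hδ]; linarith
  · rw [one_div_mul_eq_div, div_lt_one hδ]; exact h2

end Crest.Agent.R149.KGeomMod

namespace Crest.Agent.R149

theorem kgeom : KGeomStmt := KGeomMod.kgeom

theorem coreK : CoreKStmt := KGeomMod.coreK

end Crest.Agent.R149
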