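import Crest.Agent.R149.Stmts

/-!
# Row 149: subgradients of jointly convex functions (`SubgradStmt`), and the kink of the canonical
free energy at a triple point of the pressure (`KinkStmt`).
-/

set_option autoImplicit false

open MeasureTheory Crest.ProbabilityR.Continuum Filter Topology
open scoped ENNReal

namespace Crest.Agent.R149

theorem subgrad : SubgradStmt := by
  intro P hP β h hβ
  have hopen : IsOpen {x : ℝ × ℝ | 0 < x.1} := isOpen_lt continuous_const continuous_fst
  have hcont : ContinuousOn (fun x : ℝ × ℝ => P x.1 x.2) {x : ℝ × ℝ | 0 < x.1} :=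
    hP.continuousOn hopen
  -- strict epigraph
  set E : Set ((ℝ × ℝ) × ℝ) := {y | y.1 ∈ {x : ℝ × ℝ | 0 < x.1} ∧ P y.1.1 y.1.2 < y.2} with hE
  have hEconv : Convex ℝ E := hP.convex_strict_epigraph
  have hEopen : IsOpen E := by
    have h1 : ContinuousOn (fun y : (ℝ × ℝ) × ℝ => y.2 - P y.1.1 y.1.2)
        (Prod.fst ⁻¹' {x : ℝ × ℝ | 0 < x.1}) :=
      continuous_snd.continuousOn.sub (hcont.comp continuous_fst.continuousOn (fun y hy => hy))
    have h2 := h1.isOpen_inter_preimage (hopen.preimage continuous_fst) (isOpen_Ioi (a := (0 : ℝ)))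
    convert h2 using 1
    ext y
    simp [hE]
  have hnot : (((β, h), P β h) : (ℝ × ℝ) × ℝ) ∉ E := by
    simp [hE]
  obtain ⟨f, hf⟩ := geometric_hahn_banach_point_open hEconv hEopen hnot
  set c : ℝ := f ((0, 0), 1) with hc
  set f1 : ℝ := f ((1, 0), 0) with hf1
  set f2 : ℝ := f ((0, 1), 0) with hf2
  have hexp : ∀ a b t : ℝ, f ((a, b), t) = a * f1 + b * f2 + t * c := by
    intro a b t
    have : (((a, b), t) : (ℝ × ℝ) × ℝ) =
        a • (((1, 0), 0) : (ℝ × ℝ) × ℝ) + b • (((0, 1), 0) : (ℝ × ℝ) × ℝ) +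
          t • (((0, 0), 1) : (ℝ × ℝ) × ℝ) := by
      simp
    rw [this, map_add, map_add, map_smul, map_smul, map_smul]
    simp [hc, hf1, hf2]
  have hlt : ∀ β' h' t, 0 < β' → P β' h' < t →
      β * f1 + h * f2 + P β h * c < β' * f1 + h' * f2 + t * c := by
    intro β' h' t hβ' ht
    have := hf ((β', h'), t) ⟨hβ', ht⟩
    rwa [hexp, hexp] at this
  have hcpos : 0 < c := by
    have := hlt β h (P β h + 1) hβ (by linarith)
    nlinarith
  refine ⟨f1 / c, -(f2 / c), fun β' h' hβ' => ?_⟩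
  have hle : β * f1 + h * f2 + P β h * c ≤ β' * f1 + h' * f2 + P β' h' * c := by
    refine le_of_forall_pos_le_add fun ε hε => ?_
    have := hlt β' h' (P β' h' + ε / c) hβ' (by have := div_pos hε hcpos; linarith)
    have e1 : (P β' h' + ε / c) * c = P β' h' * c + ε := by field_simp
    rw [e1] at this
    linarith
  have : P β h - f1 / c * (β' - β) + -(f2 / c) * (h' - h) =
      (β * f1 + h * f2 + P β h * c - β' * f1 - h' * f2) / c := by
    field_simp; ring
  rw [this, div_le_iff₀ hcpos]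
  linarith

/-- One-dimensional subgradient of a convex function at an interior point. -/
lemma KinkAux.exists_subgrad_one {S : Set ℝ} {g : ℝ → ℝ} (hg : ConvexOn ℝ S g) {r : ℝ}
    (hr : r ∈ interior S) : ∃ h : ℝ, ∀ r' ∈ S, g r + h * (r' - r) ≤ g r' := by
  refine ⟨derivWithin g (Set.Ioi r) r, fun r' hr' => ?_⟩
  rcases lt_trichotomy r' r with hlt | heq | hgt
  · have h1 := hg.slope_le_leftDeriv_of_mem_interior hr' hr hlt
    have h2 := hg.leftDeriv_le_rightDeriv_of_mem_interior hr
    rw [slope_def_field] at h1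
    have h3 : 0 < r - r' := by linarith
    rw [div_le_iff₀ h3] at h1
    nlinarith
  · subst heq; simp
  · have h1 := hg.rightDeriv_le_slope_of_mem_interior hr hr' hgt
    rw [slope_def_field] at h1
    have h3 : 0 < r' - r := by linarith
    rw [le_div_iff₀ h3] at h1
    linarith

theorem kink : KinkStmt := by
  intro G P βc hc e ρ hβc hρ0 hconv hconc hpr1 hpr2 hT r hr0 hr2
  have hrpos : 0 < r := lt_of_le_of_lt hρ0 hr0
  have h01 := hT.lt01
  have h12 := hT.lt12
  -- main inequality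
  have key : ∀ l : Fin 3 → ℝ, (∀ i, 0 ≤ l i) → l 0 + l 1 + l 2 = 1 →
      l 0 * ρ 0 + l 1 * ρ 1 + l 2 * ρ 2 = r → ∀ β, 0 < β →
      G β r ≤ G βc r + (l 0 * e 0 + l 1 * e 1 + l 2 * e 2) * (β - βc) := by
    intro l hl hl1 hlr β hβ
    have hrint : r ∈ interior (Set.Ici (0 : ℝ)) := by
      rw [interior_Ici]; exact hrpos
    obtain ⟨h, hh⟩ := KinkAux.exists_subgrad_one (hconv β hβ) hrint
    have h1 : P β h ≤ h * r - G β r := by
      refine hpr2 β hβ h _ fun r' hr' => ?_
      have := hh r' hr'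
      nlinarith
    have h2 := hpr1 βc hβc r hrpos.le hc
    have s0 := mul_le_mul_of_nonneg_left (hT.sub 0 β h hβ) (hl 0)
    have s1 := mul_le_mul_of_nonneg_left (hT.sub 1 β h hβ) (hl 1)
    have s2 := mul_le_mul_of_nonneg_left (hT.sub 2 β h hβ) (hl 2)
    have s3 : (l 0 + l 1 + l 2) * P βc hc -
        (l 0 * e 0 + l 1 * e 1 + l 2 * e 2) * (β - βc) +
        (l 0 * ρ 0 + l 1 * ρ 1 + l 2 * ρ 2) * (h - hc) ≤ (l 0 + l 1 + l 2) * P β h := by
      nlinarith
    rw [hl1, hlr] at s3
    linarith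
  -- derivatives
  have hcg : ConcaveOn ℝ (Set.Ioi 0) (fun β => G β r) := hconc r hrpos.le
  have hcx : ConvexOn ℝ (Set.Ioi 0) (-(fun β => G β r)) := hcg.neg
  have hint : βc ∈ interior (Set.Ioi (0 : ℝ)) := by
    rw [interior_Ioi]; exact hβc
  have hL := (hcx.hasDerivWithinAt_leftDeriv_of_mem_interior hint).neg
  have hR := (hcx.hasDerivWithinAt_rightDeriv_of_mem_interior hint).neg
  simp only [neg_neg] at hL hR
  set Dl : ℝ := -derivWithin (-(fun β => G β r)) (Set.Iio βc) βc with hDl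
  set Dr : ℝ := -derivWithin (-(fun β => G β r)) (Set.Ioi βc) βc with hDr
  have hRs : ∀ s : ℝ, (∀ β, 0 < β → G β r ≤ G βc r + s * (β - βc)) → Dr ≤ s := by
    intro s hs
    refine le_of_tendsto ((hasDerivWithinAt_iff_tendsto_slope' Set.self_notMem_Ioi).1 hR) ?_
    filter_upwards [self_mem_nhdsWithin] with β hβ
    have hβ' : βc < β := hβ
    rw [slope_def_field, div_le_iff₀ (by linarith)]
    linarith [hs β (by linarith)]
  have hLs : ∀ s : ℝ, (∀ β, 0 < β → G β r ≤ G βc r + s * (β - βc)) → s ≤ Dl := by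
    intro s hs
    refine ge_of_tendsto ((hasDerivWithinAt_iff_tendsto_slope' Set.self_notMem_Iio).1 hL) ?_
    have hnear : ∀ᶠ β in 𝓝[<] βc, 0 < β :=
      eventually_nhdsWithin_of_eventually_nhds (lt_mem_nhds hβc)
    filter_upwards [self_mem_nhdsWithin, hnear] with β hβ hβ0
    have hβ' : β < βc := hβ
    rw [slope_def_field, le_div_iff_of_neg (by linarith)]
    linarith [hs β hβ0]
  refine ⟨Dl, Dr, hL, hR, ?_⟩
  -- two different weights
  set t : ℝ := (r - ρ 0) / (ρ 2 - ρ 0) with ht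
  have h02 : 0 < ρ 2 - ρ 0 := by linarith
  have ht0 : 0 < t := div_pos (by linarith) h02
  have ht1 : t < 1 := by rw [ht, div_lt_one h02]; linarith
  have htr : t * (ρ 2 - ρ 0) = r - ρ 0 := by rw [ht]; field_simp
  have k02 := key ![1 - t, 0, t] (by
      intro i; fin_cases i <;> simp <;> linarith) (by simp) (by
      simp; linarith)
  simp only [Matrix.cons_val_zero, Matrix.cons_val_one, Matrix.cons_val] at k02
  -- the other one
  obtain ⟨s', hs', hne⟩ : ∃ s' : ℝ, (∀ β, 0 < β → G β r ≤ G βc r + s' * (β - βc)) ∧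
      s' ≠ (1 - t) * e 0 + 0 * e 1 + t * e 2 := by
    rcases le_total r (ρ 1) with hr1 | hr1
    · have h01' : 0 < ρ 1 - ρ 0 := by linarith
      set u : ℝ := (r - ρ 0) / (ρ 1 - ρ 0) with hu
      have hu0 : 0 < u := div_pos (by linarith) h01'
      have hu1 : u ≤ 1 := by rw [hu, div_le_one h01']; linarith
      have hur : u * (ρ 1 - ρ 0) = r - ρ 0 := by rw [hu]; field_simp
      have k01 := key ![1 - u, u, 0] (by
        intro i; fin_cases i <;> simp <;> linarith) (by simp) (by
        simp; linarith)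
      simp only [Matrix.cons_val_zero, Matrix.cons_val_one, Matrix.cons_val] at k01
      refine ⟨_, k01, ?_⟩
      intro heq
      apply hT.indep
      have e1 : u * (e 1 - e 0) = t * (e 2 - e 0) := by linarith
      have e2 : u * (ρ 1 - ρ 0) = t * (ρ 2 - ρ 0) := by linarith
      have hut : u * t * ((e 1 - e 0) * (ρ 2 - ρ 0)) = u * t * ((e 2 - e 0) * (ρ 1 - ρ 0)) := by
        calc u * t * ((e 1 - e 0) * (ρ 2 - ρ 0))
            = (u * (e 1 - e 0)) * (t * (ρ 2 - ρ 0)) := by ring
          _ = (t * (e 2 - e 0)) * (u * (ρ 1 - ρ 0)) := by rw [e1, e2]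
          _ = _ := by ring
      exact mul_left_cancel₀ (mul_pos hu0 ht0).ne' hut
    · have h12' : 0 < ρ 2 - ρ 1 := by linarith
      set u : ℝ := (ρ 2 - r) / (ρ 2 - ρ 1) with hu
      have hu0 : 0 < u := div_pos (by linarith) h12'
      have hu1 : u ≤ 1 := by rw [hu, div_le_one h12']; linarith
      have hur : u * (ρ 2 - ρ 1) = ρ 2 - r := by rw [hu]; field_simp
      have k12 := key ![0, u, 1 - u] (by
        intro i; fin_cases i <;> simp <;> linarith) (by simp) (by
        simp; linarith)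
      simp only [Matrix.cons_val_zero, Matrix.cons_val_one, Matrix.cons_val] at k12
      refine ⟨_, k12, ?_⟩
      intro heq
      apply hT.indep
      have ht1' : 0 < 1 - t := by linarith
      have e1 : u * (e 1 - e 2) = (1 - t) * (e 0 - e 2) := by linarith
      have e2 : u * (ρ 2 - ρ 1) = (1 - t) * (ρ 2 - ρ 0) := by linarith
      have hut : u * (1 - t) * ((e 1 - e 2) * (ρ 2 - ρ 0)) =
          u * (1 - t) * ((e 0 - e 2) * (ρ 2 - ρ 1)) := by
        calc u * (1 - t) * ((e 1 - e 2) * (ρ 2 - ρ 0))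
            = (u * (e 1 - e 2)) * ((1 - t) * (ρ 2 - ρ 0)) := by ring
          _ = ((1 - t) * (e 0 - e 2)) * (u * (ρ 2 - ρ 1)) := by rw [e1, e2]
          _ = _ := by ring
      have h3 := mul_left_cancel₀ (mul_pos hu0 ht1').ne' hut
      linarith
  have a1 := hRs _ k02
  have a2 := hLs _ k02
  have a3 := hRs _ hs'
  have a4 := hLs _ hs'
  rcases lt_or_gt_of_ne hne with hlt | hgt
  · linarith
  · linarith

end Crest.Agent.R149
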