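import Crest.Agent.R149.Stmts

/-!
R149, module L: lower bound for the pressure after adding one scale (`LPLowerStmt`).
-/

set_option autoImplicit false

open MeasureTheory Crest.ProbabilityR.Continuum Filter Topology
open scoped ENNReal

namespace Crest.Agent.R149.LPLow

lemma SS_mono {f g : ℝ → ℝ} (h : ∀ r, f r ≤ g r) {ι : Type} [Fintype ι] (x : ι → Pt) :
    SS f x ≤ SS g x :=
  Finset.sum_le_sum fun _ _ => Finset.sum_le_sum fun _ _ => h _

lemma A_mono {f g : ℝ → ℝ} (h : ∀ r, f r ≤ g r) {ι : Type} [Fintype ι] (x : ι → Pt) :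
    A f x ≤ A g x := by
  unfold A
  have := SS_mono h x
  linarith

lemma measurableSet_cube' (L : ℝ) : MeasurableSet (cube L) := by
  have : cube L = ⋂ k : Fin 3, {x : Pt | 0 ≤ x k ∧ x k ≤ L} := by
    ext x; simp [cube]
  rw [this]
  refine MeasurableSet.iInter fun k => ?_
  have hm : Measurable fun x : Pt => x k := by fun_prop
  exact (measurableSet_le measurable_const hm).inter (measurableSet_le hm measurable_const)

/-- comparison of partition sums from a pointwise comparison of weights on the cube -/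
lemma LZ_le_of_ham_cube {c α₁ α₂ : ℝ → ℝ} {B₁ B₂ β₁ β₂ L K : ℝ} {n : ℕ}
    (P₁ : LZProps c α₁ B₁ β₁) (P₂ : LZProps c α₂ B₂ β₂) (hL : 0 < L)
    (h : ∀ x : Fin n → Pt, (∀ i, x i ∈ cube L) →
      -β₁ * Ham c α₁ x ≤ -β₂ * Ham c α₂ x + K) :
    LZ c α₁ β₁ L n ≤ LZ c α₂ β₂ L n + K := by
  have p1 := P₁.pos L n hL
  have f2 := P₂.fin L n hL
  have p2 := P₂.pos L n hL
  have f1 := P₁.fin L n hL
  have hmeas : MeasurableSet (Set.pi Set.univ (fun _ : Fin n => cube L)) :=
    MeasurableSet.univ_pi fun _ => measurableSet_cube' L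
  have key : ZF (HF c α₁ β₁) (cube L) n ≤
      ENNReal.ofReal (Real.exp K) * ZF (HF c α₂ β₂) (cube L) n := by
    unfold ZF
    rw [mul_left_comm, ← lintegral_const_mul' _ _ ENNReal.ofReal_ne_top]
    refine mul_le_mul_right ?_ _
    refine lintegral_mono_ae ?_
    filter_upwards [ae_restrict_mem hmeas] with x hx
    rw [← ENNReal.ofReal_mul (Real.exp_pos _).le, ← Real.exp_add]
    apply ENNReal.ofReal_le_ofReal
    apply Real.exp_le_exp.mpr
    have := h x (fun i => hx i (Set.mem_univ i))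
    show -β₁ * Ham c α₁ x ≤ K + -β₂ * Ham c α₂ x
    linarith
  unfold LZ
  have h1 : 0 < (ZF (HF c α₁ β₁) (cube L) n).toReal := ENNReal.toReal_pos p1.ne' f1
  have h2 : 0 < (ZF (HF c α₂ β₂) (cube L) n).toReal := ENNReal.toReal_pos p2.ne' f2
  have h3 : (ZF (HF c α₁ β₁) (cube L) n).toReal ≤
      Real.exp K * (ZF (HF c α₂ β₂) (cube L) n).toReal := by
    have := ENNReal.toReal_mono (ENNReal.mul_ne_top ENNReal.ofReal_ne_top f2) key
    rwa [ENNReal.toReal_mul, ENNReal.toReal_ofReal (Real.exp_pos _).le] at this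
  calc Real.log (ZF (HF c α₁ β₁) (cube L) n).toReal
      ≤ Real.log (Real.exp K * (ZF (HF c α₂ β₂) (cube L) n).toReal) := Real.log_le_log h1 h3
    _ = _ := by
      rw [Real.log_mul (Real.exp_pos _).ne' h2.ne', Real.log_exp]
      ring

lemma A_add_mul (α w : ℝ → ℝ) (a : ℝ) {ι : Type} [Fintype ι] (x : ι → Pt) :
    A (fun r => α r + a * w r) x = A α x + a * A w x := by
  unfold A SS
  simp only [Finset.sum_add_distrib, ← Finset.mul_sum]
  ring

lemma attrOK_add (hK : KernelProps) {α : ℝ → ℝ} (hα : AttrOK α) {R a : ℝ} (hR : 0 < R)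
    (ha : 0 ≤ a) : AttrOK (fun r => α r + a * wk R r) := by
  obtain ⟨C, hC⟩ := hα.bdd
  refine ⟨hα.meas.add ((hK.cont R hR).measurable.const_mul a), fun r => ?_,
    ⟨C + a * (1 / vB R), fun r => ?_⟩⟩
  · have := hα.nonneg r
    have := mul_nonneg ha (hK.nonneg R r)
    linarith
  · have := hC r
    have := mul_le_mul_of_nonneg_left (hK.le R r hR) ha
    linarith

end Crest.Agent.R149.LPLow

namespace Crest.Agent.R149

open LPLow in
theorem lpLower (hK : KernelProps) (hE1 : E1Stmt) (hSA : SuperAddStmt) (hLZ : LZPropsStmt)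
    (hPr : PrPropsStmt) : LPLowerStmt := by
  intro c α B R a hc hα hR ha hS β h m hβ
  have hα' := attrOK_add hK hα hR ha
  have hS0 : Stab c α B := by
    refine ⟨hS.1, fun ι _ x => ?_⟩
    refine le_trans (A_mono (fun r => ?_) x) (hS.2 ι x)
    have := mul_nonneg ha (hK.nonneg R r)
    linarith
  have P0 := hLZ c α B β hc hα hS0 hβ
  have P1 := hLZ c _ B β hc hα' hS hβ
  have Q1 := hPr c _ B hc hα' hS
  rw [sub_le_iff_le_add]
  apply ciSup_le
  rintro ⟨k, n⟩
  simp only
  -- the box side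
  set L0 : ℝ := (k : ℝ) + 1 with hL0
  have hL0pos : 0 < L0 := by positivity
  set v : ℝ := (k : ℝ) + 3 with hv
  have hvpos : 0 < v := by positivity
  have hv3 : 3 ≤ v := by rw [hv]; linarith [Nat.cast_nonneg (α := ℝ) k]
  have hfin : ∀ᶠ j : ℕ in atTop,
      (h * n + LZ c α β L0 n) / v ^ 3 +
        β * a * (n : ℝ) ^ 2 / (2 * (v * (v + (2 * R - 2) / j)) ^ 3) ≤
        Pr c (fun r => α r + a * wk R r) β h := by
    filter_upwards [eventually_ge_atTop 1, eventually_gt_atTop ⌈2 / v⌉₊] with j hj1 hj2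
    have hjR : (1 : ℝ) ≤ j := by exact_mod_cast hj1
    have hj0 : (0 : ℝ) < j := by linarith
    -- big box
    have hnat : 3 ≤ j * (k + 3) := by nlinarith
    set q : ℕ := j * (k + 3) - 3 with hq
    have hqR : (q : ℝ) = j * v - 3 := by
      rw [hq, Nat.cast_sub hnat]; push_cast; ring
    have e1 : (q : ℝ) + 1 = j * (L0 + 2) - 2 := by rw [hqR, hL0, hv]; ring
    have e3 : (q : ℝ) + 3 = j * v := by rw [hqR]; ring
    have hqpos : (0 : ℝ) < (q : ℝ) + 1 := by positivity
    have sa := hSA c α B β hc hα hS0 hβ L0 j hL0pos hj1 (fun _ => n)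
    rw [← e1] at sa
    simp only [Finset.sum_const, Finset.card_univ, Fintype.card_fun, Fintype.card_fin,
      nsmul_eq_mul, smul_eq_mul] at sa
    push_cast at sa
    have cmp : LZ c α β ((q : ℝ) + 1) (j ^ 3 * n) ≤
        LZ c (fun r => α r + a * wk R r) β ((q : ℝ) + 1) (j ^ 3 * n)
          + -(β * a * ((j : ℝ) ^ 3 * n) ^ 2 / (2 * ((q : ℝ) + 1 + 2 * R) ^ 3)) := by
      refine LZ_le_of_ham_cube P0 P1 hqpos (fun x hx => ?_)
      have h1 := hE1 R ((q : ℝ) + 1) hR hqpos.le (Fin (j ^ 3 * n)) x hx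
      rw [Fintype.card_fin] at h1
      push_cast at h1
      unfold Ham
      rw [A_add_mul]
      have h2 := mul_le_mul_of_nonneg_left h1 (mul_nonneg hβ.le ha)
      have e4 : β * a * (((j : ℝ) ^ 3 * n) ^ 2 / (2 * ((q : ℝ) + 1 + 2 * R) ^ 3))
        = β * a * ((j : ℝ) ^ 3 * n) ^ 2 / (2 * ((q : ℝ) + 1 + 2 * R) ^ 3) := by ring
      rw [e4] at h2
      linarith
    have hb := le_ciSup (Q1.bdd β h hβ) (q, j ^ 3 * n)
    refine le_trans ?_ hb
    simp only
    rw [e3]
    have hLR : (q : ℝ) + 1 + 2 * R = j * (v + (2 * R - 2) / j) := by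
      rw [hqR]; field_simp; ring
    rw [hLR] at cmp
    have e5 : (h * n + LZ c α β L0 n) / v ^ 3 +
        β * a * (n : ℝ) ^ 2 / (2 * (v * (v + (2 * R - 2) / j)) ^ 3) =
        (h * ((j : ℝ) ^ 3 * n) + (j : ℝ) ^ 3 * LZ c α β L0 n +
          β * a * ((j : ℝ) ^ 3 * n) ^ 2 / (2 * (j * (v + (2 * R - 2) / j)) ^ 3)) /
          (j * v) ^ 3 := by
      have hw : (v + (2 * R - 2) / j) ≠ 0 := by
        have : 0 < (q : ℝ) + 1 + 2 * R := by linarith
        rw [hLR] at this
        intro h0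
        rw [h0, mul_zero] at this
        exact lt_irrefl _ this
      generalize v + (2 * R - 2) / j = w at *
      field_simp
    rw [e5]
    apply div_le_div_of_nonneg_right _ (by positivity)
    push_cast
    linarith
  have tl : Tendsto (fun j : ℕ => (h * n + LZ c α β L0 n) / v ^ 3 +
        β * a * (n : ℝ) ^ 2 / (2 * (v * (v + (2 * R - 2) / (j : ℝ))) ^ 3)) atTop
      (𝓝 ((h * n + LZ c α β L0 n) / v ^ 3 +
        β * a * (n : ℝ) ^ 2 / (2 * (v * (v + 0)) ^ 3))) := by
    have t0 : Tendsto (fun j : ℕ => (2 * R - 2) / (j : ℝ)) atTop (𝓝 0) :=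
      tendsto_const_div_atTop_nhds_zero_nat _
    refine tendsto_const_nhds.add (Tendsto.div tendsto_const_nhds ?_ ?_)
    · exact (((t0.const_add v).const_mul v).pow 3).const_mul 2
    · rw [add_zero]; positivity
  have hlim := le_of_tendsto tl hfin
  refine le_trans ?_ (add_le_add_left hlim _)
  rw [add_zero]
  have e6 : β * a * (n : ℝ) ^ 2 / (2 * (v * v) ^ 3) = β * a * (n / v ^ 3) ^ 2 / 2 := by
    field_simp
  rw [e6]
  have e7 : ((h + β * a * m) * n + LZ c α β L0 n) / v ^ 3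
      = (h * n + LZ c α β L0 n) / v ^ 3 + β * a * (m * (n / v ^ 3)) := by
    field_simp
    ring
  rw [e7]
  have : 0 ≤ β * a * (n / v ^ 3 - m) ^ 2 / 2 := by positivity
  nlinarith

end Crest.Agent.R149
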