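import Mathlib
import Crest.Agent.R149.Config

/-!
Grand canonical functional and multi-block factorisation.
-/

set_option autoImplicit false

open MeasureTheory Crest.ProbabilityR.Continuum
open scoped ENNReal

namespace Crest.Agent.R149

theorem Zm_const_mul' (μ : Measure Pt) (n : ℕ) (g : Multiset Pt → ℝ≥0∞) (hg : MMeas g) (c : ℝ≥0∞) :
    Zm μ n (fun s => c * g s) = c * Zm μ n g := by
  unfold Zm
  rw [lintegral_const_mul _ (hg n)]
  ring

/-- canonical two-block lower bound -/
theorem Zm_union_ge {A B : Set Pt} (hA : MeasurableSet A) (hB : MeasurableSet B)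
    (hd : Disjoint A B) (n m : ℕ) {g g1 g2 : Multiset Pt → ℝ≥0∞} (hg : MMeas g) (hg1 : MMeas g1)
    (hg2 : MMeas g2)
    (h : ∀ s t : Multiset Pt, (∀ p ∈ s, p ∈ A) → (∀ p ∈ t, p ∈ B) → s.card = n → t.card = m →
      g1 s * g2 t ≤ g (s + t)) :
    Zm (volume.restrict A) n g1 * Zm (volume.restrict B) m g2 ≤
      Zm (volume.restrict (A ∪ B)) (n + m) g := by
  rw [Measure.restrict_union hd hB, Zm_add _ _ _ _ hg]
  refine le_trans ?_ (Finset.single_le_sum (f := fun k => Zm (volume.restrict A) k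
    (fun s => Zm (volume.restrict B) (n + m - k) (fun t => g (s + t)))) (fun i _ => zero_le)
    (show n ∈ Finset.range (n + m + 1) by simp))
  simp only [Nat.add_sub_cancel_left]
  rw [← Zm_mul_const _ _ _ hg1]
  refine Zm_mono hA n (fun s hs hsA => ?_)
  rw [← Zm_const_mul' _ _ _ hg2]
  exact Zm_mono hB m (fun t ht htB => h s t hsA htB hs ht)

/-- the grand canonical functional -/
noncomputable def Xm (μ : Measure Pt) (g : Multiset Pt → ℝ≥0∞) : ℝ≥0∞ := ∑' n, Zm μ n g

theorem tsum_sum_range_mul (f g : ℕ → ℝ≥0∞) :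
    ∑' n, ∑ k ∈ Finset.range (n + 1), f k * g (n - k) = (∑' n, f n) * (∑' n, g n) := by
  have h1 : ∀ n, ∑ k ∈ Finset.range (n + 1), f k * g (n - k) =
      ∑' k : Finset.HasAntidiagonal.antidiagonal n, f (k : ℕ × ℕ).1 * g (k : ℕ × ℕ).2 := by
    intro n
    rw [← Finset.Nat.sum_antidiagonal_eq_sum_range_succ (fun i j => f i * g j), ← Finset.sum_coe_sort,
      tsum_fintype]
  simp_rw [h1]
  have h2 : ∑' (n : ℕ) (k : Finset.HasAntidiagonal.antidiagonal n),
      f (k : ℕ × ℕ).1 * g (k : ℕ × ℕ).2 =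
      ∑' p : (Σ n : ℕ, Finset.HasAntidiagonal.antidiagonal n),
        (fun q : ℕ × ℕ => f q.1 * g q.2) (Finset.HasAntidiagonal.sigmaAntidiagonalEquivProd p) := by
    rw [ENNReal.tsum_sigma']
    rfl
  rw [h2, (Finset.HasAntidiagonal.sigmaAntidiagonalEquivProd (A := ℕ)).tsum_eq
    (fun q : ℕ × ℕ => f q.1 * g q.2), ENNReal.tsum_prod']
  simp_rw [ENNReal.tsum_mul_left, ENNReal.tsum_mul_right]

theorem Xm_union {A B : Set Pt} (hA : MeasurableSet A) (hB : MeasurableSet B)
    (hd : Disjoint A B) {g g1 g2 : Multiset Pt → ℝ≥0∞} (hg : MMeas g) (hg1 : MMeas g1)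
    (hg2 : MMeas g2)
    (h : ∀ s t : Multiset Pt, (∀ p ∈ s, p ∈ A) → (∀ p ∈ t, p ∈ B) →
      g (s + t) = g1 s * g2 t) :
    Xm (volume.restrict (A ∪ B)) g = Xm (volume.restrict A) g1 * Xm (volume.restrict B) g2 := by
  unfold Xm
  rw [← tsum_sum_range_mul]
  refine tsum_congr (fun n => ?_)
  rw [Measure.restrict_union hd hB, Zm_add _ _ _ _ hg]
  refine Finset.sum_congr rfl (fun k hk => ?_)
  rw [← Zm_mul_const _ _ _ hg1]
  refine Zm_congr hA k (fun s hs hsA => ?_)
  rw [← Zm_const_mul' _ _ _ hg2]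
  exact Zm_congr hB _ (fun t ht htB => h s t hsA htB)

theorem Xm_mono {A : Set Pt} (hA : MeasurableSet A) {g g' : Multiset Pt → ℝ≥0∞}
    (h : ∀ s : Multiset Pt, (∀ p ∈ s, p ∈ A) → g s ≤ g' s) :
    Xm (volume.restrict A) g ≤ Xm (volume.restrict A) g' :=
  ENNReal.tsum_le_tsum (fun n => Zm_mono hA n (fun s _ hs => h s hs))

theorem Zm_le_Xm (μ : Measure Pt) (n : ℕ) (g : Multiset Pt → ℝ≥0∞) : Zm μ n g ≤ Xm μ g :=
  ENNReal.le_tsum n

theorem MMeas.finset_prod {ι : Type*} (T : Finset ι) {g : ι → Multiset Pt → ℝ≥0∞}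
    (hg : ∀ c, MMeas (g c)) : MMeas (fun s => ∏ c ∈ T, g c s) := by
  intro n
  exact Finset.measurable_prod T (fun c _ => hg c n)

theorem Xm_blocks {ι : Type*} (A : ι → Set Pt) (hA : ∀ c, MeasurableSet (A c))
    (hd : Pairwise (Function.onFun Disjoint A)) (g : ι → Multiset Pt → ℝ≥0∞) (hg : ∀ c, MMeas (g c))
    [∀ c, DecidablePred (· ∈ A c)] (T : Finset ι) :
    Xm (volume.restrict (⋃ c ∈ T, A c)) (fun s => ∏ c ∈ T, g c (s.filter (· ∈ A c))) =
      ∏ c ∈ T, Xm (volume.restrict (A c)) (g c) := by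
  classical
  induction T using Finset.induction_on with
  | empty =>
    simp only [Finset.notMem_empty, Set.iUnion_of_empty, Set.iUnion_empty, Finset.prod_empty,
      Measure.restrict_empty]
    unfold Xm
    rw [tsum_eq_single 0]
    · rw [Zm_zero]
    · intro n hn
      unfold Zm
      have : NeZero n := ⟨hn⟩
      have h0 : (Measure.pi fun _ : Fin n => (0 : Measure Pt)) = 0 := by
        refine Measure.measure_univ_eq_zero.1 ?_
        rw [← Set.pi_univ Set.univ, Measure.pi_pi]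
        simp [hn]
      rw [h0]; simp
  | insert c T hc ih =>
    rw [Finset.prod_insert hc, ← ih]
    have hU : (⋃ c' ∈ insert c T, A c') = A c ∪ ⋃ c' ∈ T, A c' := by
      rw [Finset.set_biUnion_insert]
    rw [hU]
    have hdis : Disjoint (A c) (⋃ c' ∈ T, A c') := by
      rw [Set.disjoint_iUnion₂_right]
      intro c' hc'
      exact hd (fun h => hc (h ▸ hc'))
    refine Xm_union (hA c) (Finset.measurableSet_biUnion T (fun c' _ => hA c')) hdis ?_ (hg c) ?_ ?_
    · exact MMeas.finset_prod _ (fun c' => (hg c').filter (hA c'))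
    · exact MMeas.finset_prod _ (fun c' => (hg c').filter (hA c'))
    · intro s t hs ht
      rw [Finset.prod_insert hc]
      congr 1
      · congr 1
        rw [Multiset.filter_add, Multiset.filter_eq_self.2 hs, Multiset.filter_eq_nil.2, add_zero]
        intro p hp hpc
        exact Set.disjoint_left.1 hdis hpc (ht p hp)
      · refine Finset.prod_congr rfl (fun c' hc' => ?_)
        congr 1
        rw [Multiset.filter_add, Multiset.filter_eq_nil.2, zero_add]
        intro p hp hpc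
        refine Set.disjoint_left.1 hdis (hs p hp) ?_
        simp only [Set.mem_iUnion]
        exact ⟨c', hc', hpc⟩

end Crest.Agent.R149
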