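import Mathlib
import Crest.Agent.R149.Blocks
import Crest.Agent.R149.Stmts

/-!
Splitting of partition sums for families (`SplitLowerStmt`, `SplitUpperStmt`).
-/

set_option autoImplicit false

open MeasureTheory Crest.ProbabilityR.Continuum
open scoped ENNReal

namespace Crest.Agent.R149

theorem exists_equiv_of_mset_eq {ι κ : Type*} [Fintype ι] [Fintype κ] (x : ι → Pt) (y : κ → Pt)
    (h : mset x = mset y) : ∃ e : ι ≃ κ, ∀ i, y (e i) = x i := by
  classical
  have hc : ∀ {τ : Type _} [Fintype τ] (z : τ → Pt) (p : Pt),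
      Fintype.card {i // z i = p} = (mset z).count p := by
    intro τ _ z p
    unfold mset
    rw [Multiset.count_map, Fintype.card_subtype]
    simp only [eq_comm (a := p)]
    rfl
  have hc' : ∀ {τ : Type _} [Fintype τ] (z : τ → Pt) (p : Pt),
      Fintype.card {i // z i = p} = (mset z).count p := by
    intro τ _ z p
    unfold mset
    rw [Multiset.count_map, Fintype.card_subtype]
    simp only [eq_comm (a := p)]
    rfl
  have he : ∀ p : Pt, Nonempty ({i // x i = p} ≃ {j // y j = p}) := by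
    intro p
    refine Fintype.card_eq.1 ?_
    rw [hc x p, hc' y p, h]
  have e := fun p => Classical.choice (he p)
  refine ⟨Equiv.ofFiberEquiv e, fun i => Equiv.ofFiberEquiv_map e i⟩

/-- the multiset function of a family -/
noncomputable def Fam.lift (F : Fam) (s : Multiset Pt) : ℝ :=
  F (Fin s.toList.length) (fun i => s.toList.get i)

theorem FamOK.lift_mset {F : Fam} (hF : FamOK F) {ι : Type} [Fintype ι] (x : ι → Pt) :
    F.lift (mset x) = F ι x := by
  unfold Fam.lift
  have h1 : mset x = mset (fun i : Fin (mset x).toList.length => (mset x).toList.get i) := by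
    conv_lhs => rw [← Multiset.coe_toList (mset x)]
    generalize (mset x).toList = l
    unfold mset
    simp
  obtain ⟨e, he⟩ := exists_equiv_of_mset_eq _ _ h1
  have h2 := hF.perm _ _ e (fun i : Fin (mset x).toList.length => (mset x).toList.get i)
  rw [← h2]
  congr 1
  funext i
  exact he i

theorem FamOK.measurable_lift {F : Fam} (hF : FamOK F) : MMeas F.lift := by
  intro n
  simp only [hF.lift_mset]
  exact hF.meas _

theorem FamOK.mmeas {F : Fam} (hF : FamOK F) :
    MMeas (fun s => ENNReal.ofReal (Real.exp (F.lift s))) := by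
  intro n
  exact (hF.measurable_lift n).exp.ennreal_ofReal

theorem ZF_eq {F : Fam} (hF : FamOK F) (S : Set Pt) (n : ℕ) :
    ZF F S n = Zm (volume.restrict S) n (fun s => ENNReal.ofReal (Real.exp (F.lift s))) := by
  unfold ZF Zm
  rw [← Measure.restrict_pi_pi]
  simp only [hF.lift_mset]
  rfl

theorem exists_mset_eq (s : Multiset Pt) : ∃ (n : ℕ) (y : Fin n → Pt), mset y = s := by
  refine ⟨s.toList.length, fun i => s.toList.get i, ?_⟩
  conv_rhs => rw [← Multiset.coe_toList s]
  generalize s.toList = l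
  unfold mset
  simp

theorem left_part {a b : ℕ} (y : Fin a → Pt) (z : Fin b → Pt) :
    mset (fun i : {i : Fin a ⊕ Fin b // i.isLeft = true} => Sum.elim y z i) = mset y := by
  let e : Fin a ≃ {i : Fin a ⊕ Fin b // i.isLeft = true} :=
    { toFun := fun i => ⟨Sum.inl i, rfl⟩
      invFun := fun i => match i with
        | ⟨Sum.inl i, _⟩ => i
      left_inv := fun i => rfl
      right_inv := by
        rintro ⟨i | i, h⟩
        · rfl
        · simp at h }
  rw [← mset_comp_equiv e]
  rfl

theorem right_part {a b : ℕ} (y : Fin a → Pt) (z : Fin b → Pt) :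
    mset (fun i : {i : Fin a ⊕ Fin b // ¬ i.isLeft = true} => Sum.elim y z i) = mset z := by
  let e : Fin b ≃ {i : Fin a ⊕ Fin b // ¬ i.isLeft = true} :=
    { toFun := fun i => ⟨Sum.inr i, by simp⟩
      invFun := fun i => match i with
        | ⟨Sum.inr i, _⟩ => i
      left_inv := fun i => rfl
      right_inv := by
        rintro ⟨i | i, h⟩
        · simp at h
        · rfl }
  rw [← mset_comp_equiv e]
  rfl

theorem lift_superadd {F : Fam} (hF : FamOK F) {S T : Set Pt}
    (h : ∀ (ι : Type) [Fintype ι] (q : ι → Prop) [DecidablePred q] (x : ι → Pt),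
      (∀ i, q i → x i ∈ S) → (∀ i, ¬ q i → x i ∈ T) →
      F {i // q i} (fun i => x i) + F {i // ¬ q i} (fun i => x i) ≤ F ι x)
    {s t : Multiset Pt} (hs : ∀ p ∈ s, p ∈ S) (ht : ∀ p ∈ t, p ∈ T) :
    F.lift s + F.lift t ≤ F.lift (s + t) := by
  obtain ⟨a, y, rfl⟩ := exists_mset_eq s
  obtain ⟨b, z, rfl⟩ := exists_mset_eq t
  have h1 := h (Fin a ⊕ Fin b) (fun i => i.isLeft = true) (Sum.elim y z) ?_ ?_
  · rw [← hF.lift_mset, ← hF.lift_mset, ← hF.lift_mset, left_part, right_part, mset_sum] at h1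
    exact h1
  · rintro (i | i) hi
    · exact hs _ ((mem_mset _ _).2 ⟨i, rfl⟩)
    · simp at hi
  · rintro (i | i) hi
    · simp at hi
    · exact ht _ ((mem_mset _ _).2 ⟨i, rfl⟩)

theorem lift_subadd {F : Fam} (hF : FamOK F) {S T : Set Pt}
    (h : ∀ (ι : Type) [Fintype ι] (q : ι → Prop) [DecidablePred q] (x : ι → Pt),
      (∀ i, q i → x i ∈ S) → (∀ i, ¬ q i → x i ∈ T) →
      F ι x ≤ F {i // q i} (fun i => x i) + F {i // ¬ q i} (fun i => x i))
    {s t : Multiset Pt} (hs : ∀ p ∈ s, p ∈ S) (ht : ∀ p ∈ t, p ∈ T) :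
    F.lift (s + t) ≤ F.lift s + F.lift t := by
  obtain ⟨a, y, rfl⟩ := exists_mset_eq s
  obtain ⟨b, z, rfl⟩ := exists_mset_eq t
  have h1 := h (Fin a ⊕ Fin b) (fun i => i.isLeft = true) (Sum.elim y z) ?_ ?_
  · rw [← hF.lift_mset, ← hF.lift_mset, ← hF.lift_mset, left_part, right_part, mset_sum] at h1
    exact h1
  · rintro (i | i) hi
    · exact hs _ ((mem_mset _ _).2 ⟨i, rfl⟩)
    · simp at hi
  · rintro (i | i) hi
    · simp at hi
    · exact ht _ ((mem_mset _ _).2 ⟨i, rfl⟩)

theorem splitLower : SplitLowerStmt := by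
  intro F hF S T hS hT hd h n m
  rw [ZF_eq hF, ZF_eq hF, ZF_eq hF]
  refine Zm_union_ge hS hT hd n m hF.mmeas hF.mmeas hF.mmeas ?_
  intro s t hs ht _ _
  rw [← ENNReal.ofReal_mul (Real.exp_nonneg _), ← Real.exp_add]
  exact ENNReal.ofReal_le_ofReal (Real.exp_le_exp.2 (lift_superadd hF h hs ht))

theorem splitUpper : SplitUpperStmt := by
  intro F hF S T hS hT hd h N
  simp only [ZF_eq hF]
  rw [Measure.restrict_union hd hT, Zm_add _ _ _ _ hF.mmeas]
  refine Finset.sum_le_sum (fun k _ => ?_)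
  rw [← Zm_mul_const _ _ _ hF.mmeas]
  refine Zm_mono hS k (fun s _ hs => ?_)
  rw [← Zm_const_mul' _ _ _ hF.mmeas]
  refine Zm_mono hT _ (fun t _ ht => ?_)
  rw [← ENNReal.ofReal_mul (Real.exp_nonneg _), ← Real.exp_add]
  exact ENNReal.ofReal_le_ofReal (Real.exp_le_exp.2 (lift_subadd hF h hs ht))

end Crest.Agent.R149
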