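import Mathlib
import Crest.Agent.R149.Split

/-!
Superadditivity of `LZ` over cubes with corridors of width 2 (`SuperAddStmt`).
-/

set_option autoImplicit false

open MeasureTheory Crest.ProbabilityR.Continuum
open scoped ENNReal

namespace Crest.Agent.R149

/-! ### basic algebra of the double sums -/

theorem SS_perm (g : ℝ → ℝ) {ι κ : Type} [Fintype ι] [Fintype κ] (e : ι ≃ κ) (x : κ → Pt) :
    SS g (fun i => x (e i)) = SS g x := by
  unfold SS
  rw [← e.sum_comp]
  refine Finset.sum_congr rfl (fun i _ => ?_)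
  rw [← e.sum_comp]

theorem measurable_SS {g : ℝ → ℝ} (hg : Measurable g) (ι : Type) [Fintype ι] :
    Measurable (fun x : ι → Pt => SS g x) := by
  unfold SS
  refine Finset.measurable_sum _ (fun i _ => Finset.measurable_sum _ (fun j _ => ?_))
  exact hg.comp ((measurable_pi_apply i).dist (measurable_pi_apply j))

theorem measurable_Ham {c α : ℝ → ℝ} (hc : Measurable c) (hα : Measurable α) (ι : Type) [Fintype ι] :
    Measurable (fun x : ι → Pt => Ham c α x) := by
  unfold Ham U A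
  exact (((measurable_SS hc ι).sub_const _).div_const 2).sub ((measurable_SS hα ι).div_const 2)

theorem Ham_perm (c α : ℝ → ℝ) {ι κ : Type} [Fintype ι] [Fintype κ] (e : ι ≃ κ) (x : κ → Pt) :
    Ham c α (fun i => x (e i)) = Ham c α x := by
  unfold Ham U A
  rw [SS_perm, SS_perm, Fintype.card_congr e]

theorem famOK_HF {c α : ℝ → ℝ} (hc : Measurable c) (hα : Measurable α) (β : ℝ) :
    FamOK (HF c α β) where
  meas := fun ι _ => (measurable_Ham hc hα ι).const_mul (-β)
  perm := fun ι κ _ _ e x => by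
    unfold HF
    rw [Ham_perm]

theorem SS_split (g : ℝ → ℝ) {ι : Type} [Fintype ι] (q : ι → Prop) [DecidablePred q] (x : ι → Pt) :
    SS g x = SS g (fun i : {i // q i} => x i) + SS g (fun i : {i // ¬ q i} => x i) +
      2 * ∑ i : {i // q i}, ∑ j : {i // ¬ q i}, g (dist (x i) (x j)) := by
  unfold SS
  have h1 : ∀ i, ∑ j, g (dist (x i) (x j)) = ∑ j : {i // q i}, g (dist (x i) (x j)) +
      ∑ j : {i // ¬ q i}, g (dist (x i) (x j)) := by
    intro i
    rw [Fintype.sum_subtype_add_sum_subtype q (fun j => g (dist (x i) (x j)))]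
  simp_rw [h1]
  rw [← Fintype.sum_subtype_add_sum_subtype q]
  rw [Finset.sum_add_distrib, Finset.sum_add_distrib]
  have h2 : ∑ i : {i // ¬ q i}, ∑ j : {i // q i}, g (dist (x i) (x j)) =
      ∑ i : {i // q i}, ∑ j : {i // ¬ q i}, g (dist (x i) (x j)) := by
    rw [Finset.sum_comm]
    refine Finset.sum_congr rfl (fun i _ => Finset.sum_congr rfl (fun j _ => ?_))
    rw [dist_comm]
  rw [h2]; ring

theorem card_split {ι : Type} [Fintype ι] (q : ι → Prop) [DecidablePred q] :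
    (Fintype.card ι : ℝ) = Fintype.card {i // q i} + Fintype.card {i // ¬ q i} := by
  rw [Fintype.card_subtype_compl]
  have := Fintype.card_subtype_le q
  push_cast [this]; ring

theorem HF_superadd {c α : ℝ → ℝ} {β : ℝ} (hβ : 0 ≤ β) (hα : ∀ r, 0 ≤ α r)
    (hc : ∀ r, 2 ≤ r → c r = 0) {S T : Set Pt} (hST : ∀ x ∈ S, ∀ y ∈ T, 2 ≤ dist x y)
    (ι : Type) [Fintype ι] (q : ι → Prop) [DecidablePred q] (x : ι → Pt)
    (h1 : ∀ i, q i → x i ∈ S) (h2 : ∀ i, ¬ q i → x i ∈ T) :
      HF c α β {i // q i} (fun i => x i) + HF c α β {i // ¬ q i} (fun i => x i) ≤ HF c α β ι x := by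
  unfold HF Ham U A
  rw [SS_split c q x, SS_split α q x, card_split q]
  have e1 : ∑ i : {i // q i}, ∑ j : {i // ¬ q i}, c (dist (x i) (x j)) = 0 := by
    refine Finset.sum_eq_zero (fun i _ => Finset.sum_eq_zero (fun j _ => ?_))
    exact hc _ (hST _ (h1 i i.2) _ (h2 j j.2))
  have e2 : 0 ≤ ∑ i : {i // q i}, ∑ j : {i // ¬ q i}, α (dist (x i) (x j)) :=
    Finset.sum_nonneg (fun i _ => Finset.sum_nonneg (fun j _ => hα _))
  rw [e1]
  nlinarith [mul_nonneg hβ e2]

theorem U_nonneg {c : ℝ → ℝ} (hc : ∀ r, 0 ≤ c r) {ι : Type} [Fintype ι] (x : ι → Pt) :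
    0 ≤ U c x := by
  unfold U SS
  have h : (Fintype.card ι : ℝ) * c 0 ≤ ∑ i, ∑ j, c (dist (x i) (x j)) := by
    have h1 : ∀ i, c 0 ≤ ∑ j, c (dist (x i) (x j)) := by
      intro i
      have := Finset.single_le_sum (f := fun j => c (dist (x i) (x j)))
        (fun j _ => hc _) (Finset.mem_univ i)
      simpa using this
    calc (Fintype.card ι : ℝ) * c 0 = ∑ i : ι, c 0 := by simp
      _ ≤ _ := Finset.sum_le_sum (fun i _ => h1 i)
  linarith

theorem Ham_ge {c α : ℝ → ℝ} {B : ℝ} (hc : ∀ r, 0 ≤ c r) (hs : Stab c α B) {ι : Type} [Fintype ι]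
    (x : ι → Pt) : -(B * Fintype.card ι) ≤ Ham c α x := by
  unfold Ham
  have h1 := hs.2 ι x
  have h2 := U_nonneg hc x
  linarith

theorem HF_le {c α : ℝ → ℝ} {B β : ℝ} (hc : ∀ r, 0 ≤ c r) (hs : Stab c α B) (hβ : 0 ≤ β)
    {ι : Type} [Fintype ι] (x : ι → Pt) : HF c α β ι x ≤ β * B * Fintype.card ι := by
  unfold HF
  have := Ham_ge hc hs x
  nlinarith

/-! ### cubes -/

theorem cube_eq_preimage (L : ℝ) : cube L = (WithLp.ofLp : Pt → (Fin 3 → ℝ)) ⁻¹'
    (Set.univ.pi (fun _ => Set.Icc 0 L)) := by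
  ext x
  simp only [cube, Set.mem_preimage, Set.mem_pi, Set.mem_univ, forall_true_left, Set.mem_Icc]
  rfl

theorem measurableSet_cube' (L : ℝ) : MeasurableSet (cube L) := by
  rw [cube_eq_preimage]
  exact (PiLp.volume_preserving_ofLp (Fin 3)).measurable
    (MeasurableSet.univ_pi (fun _ => measurableSet_Icc))

theorem volume_cube (L : ℝ) : volume (cube L) = ENNReal.ofReal L ^ 3 := by
  rw [cube_eq_preimage, (PiLp.volume_preserving_ofLp (Fin 3)).measure_preimage
    (MeasurableSet.univ_pi (fun _ => measurableSet_Icc)).nullMeasurableSet, volume_pi,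
    Measure.pi_pi]
  simp

theorem ZF_ne_top {c α : ℝ → ℝ} {B β : ℝ} (hc : ∀ r, 0 ≤ c r) (hs : Stab c α B) (hβ : 0 ≤ β)
    {S : Set Pt} (hS : volume S ≠ ⊤) (n : ℕ) : ZF (HF c α β) S n ≠ ⊤ := by
  unfold ZF
  refine ENNReal.mul_ne_top (by simp [Nat.factorial_ne_zero]) ?_
  have h1 : ∫⁻ x in Set.pi Set.univ (fun _ : Fin n => S),
      ENNReal.ofReal (Real.exp (HF c α β (Fin n) x)) ≤
      ∫⁻ _ in Set.pi Set.univ (fun _ : Fin n => S), ENNReal.ofReal (Real.exp (β * B * n)) := by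
    refine lintegral_mono (fun x => ENNReal.ofReal_le_ofReal (Real.exp_le_exp.2 ?_))
    have := HF_le hc hs hβ x
    simpa using this
  refine ne_top_of_le_ne_top ?_ h1
  rw [lintegral_const]
  refine ENNReal.mul_ne_top ENNReal.ofReal_ne_top ?_
  rw [Measure.restrict_apply_univ, volume_pi, Measure.pi_pi]
  exact (ENNReal.prod_lt_top (fun _ _ => hS.lt_top)).ne

theorem ZF_pos {F : Fam} (hF : FamOK F) {S : Set Pt} (hS : volume S ≠ 0) (n : ℕ) :
    0 < ZF F S n := by
  unfold ZF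
  refine ENNReal.mul_pos (by simp) ?_
  intro h0
  rw [lintegral_eq_zero_iff ((hF.meas (Fin n)).exp.ennreal_ofReal)] at h0
  have h1 : (volume.restrict (Set.pi Set.univ (fun _ : Fin n => S))) = 0 := by
    rw [← ae_eq_bot]
    by_contra hne
    have : (ae (volume.restrict (Set.pi Set.univ (fun _ : Fin n => S)))).NeBot := ⟨hne⟩
    obtain ⟨x, hx⟩ := h0.exists
    simp only [Pi.zero_apply, ENNReal.ofReal_eq_zero] at hx
    exact absurd hx (not_le.2 (Real.exp_pos _))
  have h2 : volume (Set.pi Set.univ (fun _ : Fin n => S)) = 0 := by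
    have := Measure.restrict_apply_univ (μ := volume) (Set.pi Set.univ (fun _ : Fin n => S))
    rw [h1] at this
    simpa using this.symm
  rw [volume_pi, Measure.pi_pi] at h2
  rw [Finset.prod_eq_zero_iff] at h2
  obtain ⟨_, _, h3⟩ := h2
  exact hS h3

theorem ZF_mono (F : Fam) {S T : Set Pt} (h : S ⊆ T) (n : ℕ) : ZF F S n ≤ ZF F T n := by
  unfold ZF
  exact mul_le_mul' le_rfl (lintegral_mono_set (Set.pi_mono (fun _ _ => h)))

theorem ZF_translate {F : Fam}
    (hF : ∀ (n : ℕ) (x : Fin n → Pt) (t : Pt), F (Fin n) (fun i => x i + t) = F (Fin n) x)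
    (S : Set Pt) (t : Pt) (n : ℕ) : ZF F {x | x + t ∈ S} n = ZF F S n := by
  unfold ZF
  congr 1
  have h1 := measurePreserving_add_right (volume : Measure (Fin n → Pt)) (fun _ => t)
  have h2 : MeasurableEmbedding (fun x : Fin n → Pt => x + (fun _ => t)) :=
    measurableEmbedding_addRight _
  rw [← h1.setLIntegral_comp_preimage_emb h2 (fun x => ENNReal.ofReal (Real.exp (F (Fin n) x)))
    (Set.pi Set.univ (fun _ => S))]
  have h3 : (fun x : Fin n → Pt => x + (fun _ => t)) ⁻¹' (Set.pi Set.univ (fun _ : Fin n => S)) =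
      Set.pi Set.univ (fun _ : Fin n => {x : Pt | x + t ∈ S}) := by
    ext x
    simp only [Set.mem_preimage, Set.mem_pi, Set.mem_univ, forall_true_left, Pi.add_apply]
    rfl
  rw [h3]
  refine lintegral_congr (fun x => ?_)
  rw [← hF n x t]
  rfl

theorem HF_translate (c α : ℝ → ℝ) (β : ℝ) (n : ℕ) (x : Fin n → Pt) (t : Pt) :
    HF c α β (Fin n) (fun i => x i + t) = HF c α β (Fin n) x := by
  unfold HF Ham U A SS
  simp

/-- translated cube number `v` (period `L + 2`) -/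
def tcube (L : ℝ) {j : ℕ} (v : Fin 3 → Fin j) : Set Pt :=
  {x | x + (WithLp.toLp 2 (fun k => -((v k : ℕ) : ℝ) * (L + 2)) : Pt) ∈ cube L}

theorem mem_tcube (L : ℝ) {j : ℕ} (v : Fin 3 → Fin j) (x : Pt) :
    x ∈ tcube L v ↔ ∀ k, ((v k : ℕ) : ℝ) * (L + 2) ≤ x k ∧ x k ≤ ((v k : ℕ) : ℝ) * (L + 2) + L := by
  unfold tcube cube
  simp only [Set.mem_ofPred_eq, PiLp.add_apply]
  refine forall_congr' (fun k => ?_)
  constructor
  · rintro ⟨h1, h2⟩; constructor <;> linarith
  · rintro ⟨h1, h2⟩; constructor <;> linarith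

theorem measurableSet_tcube (L : ℝ) {j : ℕ} (v : Fin 3 → Fin j) : MeasurableSet (tcube L v) := by
  unfold tcube
  exact measurableSet_cube' L |>.preimage (measurable_add_const _)

theorem dist_coord_le (x y : Pt) (k : Fin 3) : |x k - y k| ≤ dist x y := by
  rw [dist_eq_norm]
  have := PiLp.norm_apply_le (x - y) k
  simpa using this

theorem tcube_dist {L : ℝ} (hL : 0 ≤ L) {j : ℕ} {v w : Fin 3 → Fin j} (hvw : v ≠ w) (x : Pt) (hx : x ∈ tcube L v)
    (y : Pt) (hy : y ∈ tcube L w) : 2 ≤ dist x y := by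
  rw [mem_tcube] at hx hy
  obtain ⟨k, hk⟩ := Function.ne_iff.1 hvw
  have hk' : (v k : ℕ) ≠ (w k : ℕ) := fun h => hk (Fin.ext h)
  refine le_trans ?_ (dist_coord_le x y k)
  obtain ⟨a1, a2⟩ := hx k
  obtain ⟨b1, b2⟩ := hy k
  rcases lt_or_gt_of_ne hk' with h | h
  · have h1 : ((v k : ℕ) : ℝ) + 1 ≤ ((w k : ℕ) : ℝ) := by exact_mod_cast h
    rw [abs_sub_comm]
    refine le_trans ?_ (le_abs_self _)
    nlinarith
  · have h1 : ((w k : ℕ) : ℝ) + 1 ≤ ((v k : ℕ) : ℝ) := by exact_mod_cast h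
    refine le_trans ?_ (le_abs_self _)
    nlinarith

theorem tcube_subset {L : ℝ} (hL : 0 ≤ L) {j : ℕ} (v : Fin 3 → Fin j) :
    tcube L v ⊆ cube (j * (L + 2) - 2) := by
  intro x hx
  rw [mem_tcube] at hx
  intro k
  obtain ⟨a1, a2⟩ := hx k
  have h0 : (0 : ℝ) ≤ ((v k : ℕ) : ℝ) := Nat.cast_nonneg _
  have h1 : ((v k : ℕ) : ℝ) + 1 ≤ (j : ℝ) := by exact_mod_cast (v k).2
  constructor
  · refine le_trans ?_ a1
    positivity
  · refine le_trans a2 ?_
    nlinarith

theorem HF_zero (c α : ℝ → ℝ) (β : ℝ) (x : Fin 0 → Pt) : HF c α β (Fin 0) x = 0 := by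
  simp [HF, Ham, U, A, SS]

theorem ZF_zero {c α : ℝ → ℝ} (β : ℝ) (S : Set Pt) : ZF (HF c α β) S 0 = 1 := by
  unfold ZF
  simp only [HF_zero]
  simp [volume_pi]

/-- multi-set superadditivity for sets at mutual distance at least `2` -/
theorem prod_ZF_le {c α : ℝ → ℝ} {β : ℝ} (hcm : Measurable c) (hαm : Measurable α) (hβ : 0 ≤ β)
    (hα : ∀ r, 0 ≤ α r) (hc : ∀ r, 2 ≤ r → c r = 0) {ι : Type*} (Q : ι → Set Pt)
    (hQ : ∀ v, MeasurableSet (Q v)) (hd : ∀ v w, v ≠ w → ∀ x ∈ Q v, ∀ y ∈ Q w, 2 ≤ dist x y)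
    (n : ι → ℕ) (T : Finset ι) :
    ∏ v ∈ T, ZF (HF c α β) (Q v) (n v) ≤ ZF (HF c α β) (⋃ v ∈ T, Q v) (∑ v ∈ T, n v) := by
  classical
  induction T using Finset.induction_on with
  | empty => simp [ZF_zero]
  | insert v T hv ih =>
    rw [Finset.prod_insert hv, Finset.sum_insert hv, Finset.set_biUnion_insert]
    have hfar : ∀ x ∈ Q v, ∀ y ∈ ⋃ w ∈ T, Q w, 2 ≤ dist x y := by
      intro x hx y hy
      simp only [Set.mem_iUnion] at hy
      obtain ⟨w, hw, hy⟩ := hy
      exact hd v w (fun h => hv (h ▸ hw)) x hx y hy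
    have hdis : Disjoint (Q v) (⋃ w ∈ T, Q w) := by
      rw [Set.disjoint_left]
      intro x hx hx'
      have := hfar x hx x hx'
      rw [dist_self] at this
      linarith
    refine le_trans (mul_le_mul' le_rfl ih) ?_
    refine splitLower (HF c α β) (famOK_HF hcm hαm β) _ _ (hQ v)
      (Finset.measurableSet_biUnion T (fun w _ => hQ w)) hdis ?_ _ _
    intro κ _ q _ x h1 h2
    exact HF_superadd hβ hα hc hfar κ q x h1 h2

theorem superAdd : SuperAddStmt := by
  intro c α B β hc hα hs hβ L j hL hj n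
  have hcube : volume (cube L) ≠ 0 := by
    rw [volume_cube]; simp [hL]
  have hcube' : ∀ L', volume (cube L') ≠ ⊤ := by
    intro L'; rw [volume_cube]; simp
  have hOK := famOK_HF hc.meas hα.meas β
  have e1 : ∀ v : Fin 3 → Fin j, ZF (HF c α β) (tcube L v) (n v) = ZF (HF c α β) (cube L) (n v) :=
    fun v => ZF_translate (HF_translate c α β) _ _ _
  have key := prod_ZF_le hc.meas hα.meas hβ.le hα.nonneg hc.far (tcube L (j := j))
    (measurableSet_tcube L) (fun v w hvw x hx y hy => tcube_dist hL.le hvw x hx y hy) n Finset.univ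
  have hsub : (⋃ v ∈ (Finset.univ : Finset (Fin 3 → Fin j)), tcube L v) ⊆ cube (j * (L + 2) - 2) := by
    intro x hx
    simp only [Set.mem_iUnion] at hx
    obtain ⟨v, _, hx⟩ := hx
    exact tcube_subset hL.le v hx
  have key2 := le_trans key (ZF_mono _ hsub _)
  simp only [e1] at key2
  unfold LZ
  rw [← Real.log_prod]
  · refine Real.log_le_log ?_ ?_
    · refine Finset.prod_pos (fun v _ => ?_)
      exact ENNReal.toReal_pos (ZF_pos hOK hcube _).ne' (ZF_ne_top hc.nonneg hs hβ.le (hcube' L) _)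
    · rw [← ENNReal.toReal_prod]
      exact ENNReal.toReal_mono (ZF_ne_top hc.nonneg hs hβ.le (hcube' _) _) key2
  · intro v _
    exact (ENNReal.toReal_pos (ZF_pos hOK hcube _).ne'
      (ZF_ne_top hc.nonneg hs hβ.le (hcube' L) _)).ne'

end Crest.Agent.R149
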