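import Mathlib
import Crest.Agent.R149.SuperAdd

/-!
Cell factorisation of partition sums for subadditive families (used in `LPUpperStmt`).
-/

set_option autoImplicit false

open MeasureTheory Crest.ProbabilityR.Continuum
open scoped ENNReal

namespace Crest.Agent.R149

theorem ZF_empty_le {F : Fam} (h0 : ∀ x : Fin 0 → Pt, F (Fin 0) x ≤ 0) (N : ℕ) (t : ℝ) :
    ENNReal.ofReal (Real.exp (t * N)) * ZF F (∅ : Set Pt) N ≤ 1 := by
  unfold ZF
  rcases Nat.eq_zero_or_pos N with h | h
  · subst h
    simp only [Nat.cast_zero, mul_zero, Real.exp_zero, ENNReal.ofReal_one, one_mul,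
      Nat.factorial_zero, Nat.cast_one, inv_one]
    have h1 : ∫⁻ x in Set.pi Set.univ (fun _ : Fin 0 => (∅ : Set Pt)),
        ENNReal.ofReal (Real.exp (F (Fin 0) x)) ≤
        ∫⁻ _ in Set.pi Set.univ (fun _ : Fin 0 => (∅ : Set Pt)), 1 := by
      refine lintegral_mono (fun x => ?_)
      rw [← ENNReal.ofReal_one]
      exact ENNReal.ofReal_le_ofReal (Real.exp_le_one_iff.2 (h0 x))
    refine le_trans h1 ?_
    simp [volume_pi]
  · have h2 : Set.pi Set.univ (fun _ : Fin N => (∅ : Set Pt)) = ∅ := by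
      rw [Set.univ_pi_eq_empty_iff]
      exact ⟨⟨0, h⟩, rfl⟩
    rw [h2]
    simp

/-- **Cell factorisation**: grand canonical upper bound for a family that is subadditive across
every partition of the particles compatible with the cells. -/
theorem cell_factor {κ : Type*} {F : Fam} (hF : FamOK F) (A : κ → Set Pt)
    (hA : ∀ c, MeasurableSet (A c)) (hd : Pairwise (Function.onFun Disjoint A))
    (h0 : ∀ x : Fin 0 → Pt, F (Fin 0) x ≤ 0) (T : Finset κ)
    (h : ∀ (ι : Type) [Fintype ι] (q : ι → Prop) [DecidablePred q] (x : ι → Pt),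
      (∀ i, x i ∈ ⋃ c ∈ T, A c) →
      (∀ c ∈ T, ∀ i j, x i ∈ A c → x j ∈ A c → (q i ↔ q j)) →
      F ι x ≤ F {i // q i} (fun i => x i) + F {i // ¬ q i} (fun i => x i))
    (t : ℝ) (N : ℕ) :
    ENNReal.ofReal (Real.exp (t * N)) * ZF F (⋃ c ∈ T, A c) N ≤
      ∏ c ∈ T, ∑' n : ℕ, ENNReal.ofReal (Real.exp (t * n)) * ZF F (A c) n := by
  classical
  induction T using Finset.induction_on generalizing N with
  | empty =>
    simp only [Finset.notMem_empty, Set.iUnion_of_empty, Set.iUnion_empty, Finset.prod_empty]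
    exact ZF_empty_le h0 N t
  | insert c T hc ih =>
    rw [Finset.prod_insert hc, Finset.set_biUnion_insert]
    have hdis : Disjoint (A c) (⋃ c' ∈ T, A c') := by
      rw [Set.disjoint_iUnion₂_right]
      intro c' hc'
      exact hd (fun h => hc (h ▸ hc'))
    have ihT := ih (by
      intro ι _ q _ x hx hq
      refine h ι q x (fun i => ?_) ?_
      · rw [Finset.set_biUnion_insert]; exact Or.inr (hx i)
      · intro c' hc' i j hi hj
        rcases Finset.mem_insert.1 hc' with rfl | hc'
        · exact absurd (hx i) (Set.disjoint_left.1 hdis hi)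
        · exact hq c' hc' i j hi hj)
    have hsplit := splitUpper F hF (A c) (⋃ c' ∈ T, A c') (hA c)
      (Finset.measurableSet_biUnion T (fun c' _ => hA c')) hdis (by
        intro ι _ q _ x h1 h2
        refine h ι q x (fun i => ?_) ?_
        · rw [Finset.set_biUnion_insert]
          by_cases hi : q i
          · exact Or.inl (h1 i hi)
          · exact Or.inr (h2 i hi)
        · intro c' hc' i j hi hj
          rcases Finset.mem_insert.1 hc' with rfl | hc'
          · have hqi : q i := by
              by_contra hn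
              exact Set.disjoint_left.1 hdis hi (h2 i hn)
            have hqj : q j := by
              by_contra hn
              exact Set.disjoint_left.1 hdis hj (h2 j hn)
            simp [hqi, hqj]
          · have hmem : ∀ k, x k ∈ A c' → x k ∈ ⋃ c'' ∈ T, A c'' := by
              intro k hk
              simp only [Set.mem_iUnion]
              exact ⟨c', hc', hk⟩
            have hqi : ¬ q i := fun hn => Set.disjoint_left.1 hdis (h1 i hn) (hmem i hi)
            have hqj : ¬ q j := fun hn => Set.disjoint_left.1 hdis (h1 j hn) (hmem j hj)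
            simp [hqi, hqj]) N
    calc ENNReal.ofReal (Real.exp (t * N)) * ZF F (A c ∪ ⋃ c' ∈ T, A c') N
        ≤ ENNReal.ofReal (Real.exp (t * N)) * ∑ k ∈ Finset.range (N + 1),
            ZF F (A c) k * ZF F (⋃ c' ∈ T, A c') (N - k) := mul_le_mul' le_rfl hsplit
      _ = ∑ k ∈ Finset.range (N + 1), (ENNReal.ofReal (Real.exp (t * k)) * ZF F (A c) k) *
            (ENNReal.ofReal (Real.exp (t * ((N - k : ℕ) : ℝ))) *
              ZF F (⋃ c' ∈ T, A c') (N - k)) := by
          rw [Finset.mul_sum]
          refine Finset.sum_congr rfl (fun k hk => ?_)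
          have hk' : k ≤ N := by simpa [Nat.lt_succ_iff] using hk
          have e1 : ENNReal.ofReal (Real.exp (t * N)) = ENNReal.ofReal (Real.exp (t * k)) *
              ENNReal.ofReal (Real.exp (t * ((N - k : ℕ) : ℝ))) := by
            rw [← ENNReal.ofReal_mul (Real.exp_nonneg _), ← Real.exp_add]
            congr 2
            rw [Nat.cast_sub hk']; ring
          rw [e1]; ring
      _ ≤ ∑ k ∈ Finset.range (N + 1), (ENNReal.ofReal (Real.exp (t * k)) * ZF F (A c) k) *
            ∏ c ∈ T, ∑' n : ℕ, ENNReal.ofReal (Real.exp (t * n)) * ZF F (A c) n :=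
          Finset.sum_le_sum (fun k _ => mul_le_mul' le_rfl (ihT (N - k)))
      _ = (∑ k ∈ Finset.range (N + 1), ENNReal.ofReal (Real.exp (t * k)) * ZF F (A c) k) *
            ∏ c ∈ T, ∑' n : ℕ, ENNReal.ofReal (Real.exp (t * n)) * ZF F (A c) n := by
          rw [Finset.sum_mul]
      _ ≤ _ := mul_le_mul' (ENNReal.sum_le_tsum _) le_rfl

theorem ZF_congr {F G : Fam} {S : Set Pt} (hS : MeasurableSet S) (n : ℕ)
    (h : ∀ x : Fin n → Pt, (∀ i, x i ∈ S) → F (Fin n) x = G (Fin n) x) :
    ZF F S n = ZF G S n := by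
  unfold ZF
  congr 1
  refine setLIntegral_congr_fun (MeasurableSet.univ_pi (fun _ => hS)) (fun x hx => ?_)
  rw [h x (fun i => hx i (Set.mem_univ i))]

theorem ZF_le_of_le {F G : Fam} {S : Set Pt} (hS : MeasurableSet S) (n : ℕ)
    (h : ∀ x : Fin n → Pt, (∀ i, x i ∈ S) → F (Fin n) x ≤ G (Fin n) x) :
    ZF F S n ≤ ZF G S n := by
  unfold ZF
  refine mul_le_mul' le_rfl ?_
  refine setLIntegral_mono' (MeasurableSet.univ_pi (fun _ => hS)) (fun x hx => ?_)
  exact ENNReal.ofReal_le_ofReal (Real.exp_le_exp.2 (h x (fun i => hx i (Set.mem_univ i))))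

/-- half-open cube `[0,s)^3` -/
def hcube (s : ℝ) : Set Pt := {y | ∀ k : Fin 3, 0 ≤ y k ∧ y k < s}

theorem hcube_subset (s : ℝ) : hcube s ⊆ cube s := fun _ hy k => ⟨(hy k).1, (hy k).2.le⟩

theorem measurableSet_hcube (s : ℝ) : MeasurableSet (hcube s) := by
  unfold hcube
  rw [Set.ofPred_forall]
  refine MeasurableSet.iInter (fun k => ?_)
  have h : Measurable (fun x : Pt => x k) := by fun_prop
  exact (measurableSet_le measurable_const h).inter (measurableSet_lt h measurable_const)

theorem cellset_eq {s : ℝ} (hs : 0 < s) (z : Fin 3 → ℝ) (v : Fin 3 → ℤ) :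
    {y : Pt | cell s z y = v} =
      {y : Pt | y + (WithLp.toLp 2 (fun k => z k - s * (v k : ℝ)) : Pt) ∈ hcube s} := by
  ext y
  simp only [Set.mem_ofPred_eq, hcube, PiLp.add_apply]
  rw [funext_iff]
  refine forall_congr' (fun k => ?_)
  unfold cell
  rw [Int.floor_eq_iff, le_div_iff₀ hs, div_lt_iff₀ hs]
  constructor
  · rintro ⟨h1, h2⟩; constructor <;> linarith
  · rintro ⟨h1, h2⟩; constructor <;> linarith

theorem measurableSet_cellset {s : ℝ} (hs : 0 < s) (z : Fin 3 → ℝ) (v : Fin 3 → ℤ) :
    MeasurableSet {y : Pt | cell s z y = v} := by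
  rw [cellset_eq hs]
  exact (measurableSet_hcube s).preimage (measurable_add_const _)

/-- partition sum of a cell = partition sum of the half-open cube -/
theorem ZF_cellset {F : Fam}
    (hF : ∀ (n : ℕ) (x : Fin n → Pt) (t : Pt), F (Fin n) (fun i => x i + t) = F (Fin n) x)
    {s : ℝ} (hs : 0 < s) (z : Fin 3 → ℝ) (v : Fin 3 → ℤ) (n : ℕ) :
    ZF F {y : Pt | cell s z y = v} n = ZF F (hcube s) n := by
  rw [cellset_eq hs]
  exact ZF_translate hF _ _ _

/-- within-cell family on a cell = block family on the half-open cube -/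
theorem ZF_cellset_of_eq {F G : Fam}
    (hG : ∀ (n : ℕ) (x : Fin n → Pt) (t : Pt), G (Fin n) (fun i => x i + t) = G (Fin n) x)
    {s : ℝ} (hs : 0 < s) (z : Fin 3 → ℝ) (v : Fin 3 → ℤ) (n : ℕ)
    (h : ∀ x : Fin n → Pt, (∀ i, cell s z (x i) = v) → F (Fin n) x = G (Fin n) x) :
    ZF F {y : Pt | cell s z y = v} n = ZF G (hcube s) n := by
  rw [← ZF_cellset hG hs z v n]
  exact ZF_congr (measurableSet_cellset hs z v) n h

theorem pairwise_disjoint_cellset (s : ℝ) (z : Fin 3 → ℝ) :
    Pairwise (Function.onFun Disjoint (fun v : Fin 3 → ℤ => {y : Pt | cell s z y = v})) := by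
  intro v w hvw
  rw [Function.onFun, Set.disjoint_left]
  intro y hy hy'
  exact hvw (hy.symm.trans hy')

end Crest.Agent.R149
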