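import Mathlib
import Crest.Agent.R149.Stmts

/-!
# LPUpper, part A: configuration-wise inequality and cell additivity
-/

set_option autoImplicit false

open MeasureTheory Crest.ProbabilityR.Continuum
open scoped ENNReal

namespace Crest.Agent.R149.LPU

open Classical in
/-- double sum over pairs in the same cell of a kernel -/
noncomputable def SK (k : Pt → Pt → ℝ) (s : ℝ) (z : Fin 3 → ℝ) {ι : Type} [Fintype ι]
    (x : ι → Pt) : ℝ :=
  ∑ i, ∑ j, if cell s z (x i) = cell s z (x j) then k (x i) (x j) else 0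

theorem SC_eq_SK (g : ℝ → ℝ) (s : ℝ) (z : Fin 3 → ℝ) {ι : Type} [Fintype ι] (x : ι → Pt) :
    SC g s z x = SK (fun a b => g (dist a b)) s z x := rfl

theorem N2_eq_SK (s : ℝ) (z : Fin 3 → ℝ) {ι : Type} [Fintype ι] (x : ι → Pt) :
    N2 s z x = SK (fun _ _ => 1) s z x := rfl

theorem SK_perm (k : Pt → Pt → ℝ) (s : ℝ) (z : Fin 3 → ℝ) {ι κ : Type} [Fintype ι] [Fintype κ]
    (e : ι ≃ κ) (x : κ → Pt) : SK k s z (fun i => x (e i)) = SK k s z x := by
  unfold SK
  rw [← e.sum_comp]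
  refine Finset.sum_congr rfl (fun i _ => ?_)
  rw [← e.sum_comp]

theorem measurable_cell (s : ℝ) (z : Fin 3 → ℝ) : Measurable (cell s z) := by
  unfold cell
  refine measurable_pi_lambda _ (fun k => ?_)
  refine Int.measurable_floor.comp ?_
  refine Measurable.div_const (Measurable.add_const ?_ _) _
  exact (measurable_pi_apply k).comp (WithLp.measurable_ofLp 2 (Fin 3 → ℝ))

theorem measurable_SK {k : Pt → Pt → ℝ} (hk : Measurable (fun p : Pt × Pt => k p.1 p.2)) (s : ℝ)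
    (z : Fin 3 → ℝ) (ι : Type) [Fintype ι] : Measurable (fun x : ι → Pt => SK k s z x) := by
  unfold SK
  refine Finset.measurable_sum _ (fun i _ => Finset.measurable_sum _ (fun j _ => ?_))
  refine Measurable.ite ?_ ?_ measurable_const
  · have h1 : Measurable (fun x : ι → Pt => cell s z (x i)) :=
      (measurable_cell s z).comp (measurable_pi_apply i)
    have h2 : Measurable (fun x : ι → Pt => cell s z (x j)) :=
      (measurable_cell s z).comp (measurable_pi_apply j)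
    exact measurableSet_eq_fun h1 h2
  · have h3 : Measurable (fun x : ι → Pt => (x i, x j)) :=
      (measurable_pi_apply i).prodMk (measurable_pi_apply j)
    exact hk.comp h3

/-- additivity when the predicate separates the cells -/
theorem SK_split (k : Pt → Pt → ℝ) (s : ℝ) (z : Fin 3 → ℝ) {ι : Type} [Fintype ι]
    (q : ι → Prop) [DecidablePred q] (x : ι → Pt)
    (hq : ∀ i j, q i → ¬ q j → cell s z (x i) ≠ cell s z (x j)) :
    SK k s z x = SK k s z (fun i : {i // q i} => x i) + SK k s z (fun i : {i // ¬ q i} => x i) := by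
  unfold SK
  rw [← Fintype.sum_subtype_add_sum_subtype q]
  congr 1
  · refine Finset.sum_congr rfl (fun i _ => ?_)
    rw [← Fintype.sum_subtype_add_sum_subtype q]
    have : ∑ j : {j // ¬ q j}, (if cell s z (x i) = cell s z (x j) then k (x i) (x j) else 0) = 0 := by
      refine Finset.sum_eq_zero (fun j _ => ?_)
      rw [if_neg (hq i j i.2 j.2)]
    rw [this, add_zero]
  · refine Finset.sum_congr rfl (fun i _ => ?_)
    rw [← Fintype.sum_subtype_add_sum_subtype q]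
    have : ∑ j : {j // q j}, (if cell s z (x i) = cell s z (x j) then k (x i) (x j) else 0) = 0 := by
      refine Finset.sum_eq_zero (fun j _ => ?_)
      rw [if_neg (fun h => hq j i j.2 i.2 h.symm)]
    rw [this, zero_add]

theorem SK_le_of_nonneg {g : ℝ → ℝ} (hg : ∀ r, 0 ≤ g r) (s : ℝ) (z : Fin 3 → ℝ) {ι : Type}
    [Fintype ι] (x : ι → Pt) : SC g s z x ≤ SS g x := by
  unfold SC SS
  refine Finset.sum_le_sum (fun i _ => Finset.sum_le_sum (fun j _ => ?_))
  split_ifs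
  · exact le_rfl
  · exact hg _

theorem SC_of_same (g : ℝ → ℝ) (s : ℝ) (z : Fin 3 → ℝ) {ι : Type} [Fintype ι] (x : ι → Pt)
    (h : ∀ i j, cell s z (x i) = cell s z (x j)) : SC g s z x = SS g x := by
  unfold SC SS
  refine Finset.sum_congr rfl (fun i _ => Finset.sum_congr rfl (fun j _ => ?_))
  rw [if_pos (h i j)]

theorem N2_of_same (s : ℝ) (z : Fin 3 → ℝ) {ι : Type} [Fintype ι] (x : ι → Pt)
    (h : ∀ i j, cell s z (x i) = cell s z (x j)) : N2 s z x = (Fintype.card ι : ℝ) ^ 2 := by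
  unfold N2
  have : ∀ i : ι, ∑ j, (if cell s z (x i) = cell s z (x j) then (1 : ℝ) else 0) = Fintype.card ι := by
    intro i
    rw [Finset.sum_congr rfl (fun j _ => if_pos (h i j))]
    simp
  rw [Finset.sum_congr rfl (fun i _ => this i)]
  simp; ring

/-- the cell family: `-β U` restricted to cells, `β (1+κ) A α` restricted to cells, and a mean-field
term `γ N2`. -/
noncomputable def FZ (c α : ℝ → ℝ) (β κ γ s : ℝ) (z : Fin 3 → ℝ) : Fam := fun ι _ x =>
  -β * ((SC c s z x - Fintype.card ι * c 0) / 2) + β * (1 + κ) * (SC α s z x / 2) + γ * N2 s z x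

/-- the block family -/
noncomputable def FB (c α : ℝ → ℝ) (β κ γ : ℝ) : Fam := fun ι _ x =>
  -β * U c x + β * (1 + κ) * A α x + γ * (Fintype.card ι : ℝ) ^ 2

theorem FZ_of_same (c α : ℝ → ℝ) (β κ γ s : ℝ) (z : Fin 3 → ℝ) {ι : Type} [Fintype ι] (x : ι → Pt)
    (h : ∀ i j, cell s z (x i) = cell s z (x j)) : FZ c α β κ γ s z ι x = FB c α β κ γ ι x := by
  unfold FZ FB U A
  rw [SC_of_same c s z x h, SC_of_same α s z x h, N2_of_same s z x h]

theorem famOK_FZ {c α : ℝ → ℝ} (hc : Measurable c) (hα : Measurable α) (β κ γ s : ℝ)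
    (z : Fin 3 → ℝ) : FamOK (FZ c α β κ γ s z) where
  meas := fun ι _ => by
    unfold FZ
    simp only [SC_eq_SK, N2_eq_SK]
    have h1 := measurable_SK (k := fun a b => c (dist a b)) (hc.comp measurable_dist) s z ι
    have h2 := measurable_SK (k := fun a b => α (dist a b)) (hα.comp measurable_dist) s z ι
    have h3 := measurable_SK (k := fun _ _ => (1 : ℝ)) measurable_const s z ι
    exact ((((h1.sub_const _).div_const _).const_mul _).add ((h2.div_const _).const_mul _)).add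
      (h3.const_mul _)
  perm := fun ι κ' _ _ e x => by
    unfold FZ
    simp only [SC_eq_SK, N2_eq_SK]
    rw [SK_perm, SK_perm, SK_perm, Fintype.card_congr e]

theorem card_split (ι : Type) [Fintype ι] (q : ι → Prop) [DecidablePred q] :
    (Fintype.card ι : ℝ) = Fintype.card {i // q i} + Fintype.card {i // ¬ q i} := by
  rw [Fintype.card_subtype_compl]
  have := Fintype.card_subtype_le q
  push_cast [this]; ring

theorem FZ_split (c α : ℝ → ℝ) (β κ γ s : ℝ) (z : Fin 3 → ℝ) {ι : Type} [Fintype ι]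
    (q : ι → Prop) [DecidablePred q] (x : ι → Pt)
    (hq : ∀ i j, q i → ¬ q j → cell s z (x i) ≠ cell s z (x j)) :
    FZ c α β κ γ s z ι x = FZ c α β κ γ s z {i // q i} (fun i => x i) +
      FZ c α β κ γ s z {i // ¬ q i} (fun i => x i) := by
  unfold FZ
  simp only [SC_eq_SK, N2_eq_SK]
  rw [SK_split _ s z q x hq, SK_split _ s z q x hq, SK_split _ s z q x hq, card_split ι q]
  ring

theorem A_add_mul (α g : ℝ → ℝ) (a : ℝ) {ι : Type} [Fintype ι] (x : ι → Pt) :
    A (fun r => α r + a * g r) x = A α x + a * A g x := by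
  unfold A SS
  simp only [Finset.sum_add_distrib, ← Finset.mul_sum]
  ring

/-- existence of a good shift -/
theorem exists_shift (hE2 : E2Stmt) (hDec : DecoupleStmt) {c α : ℝ → ℝ} {R' R a β : ℝ} {ℓ : ℕ}
    (hc : ∀ r, 0 ≤ c r) (hα : ∀ r, 0 ≤ α r) (hfar : ∀ t, 2 * R' ≤ t → α t = 0) (hR' : 0 ≤ R')
    (hR : 0 < R) (ha : 0 ≤ a) (hℓ : 1 ≤ ℓ) (hℓ' : 4 * (4 * R' + 3) ≤ ℓ) (hβ : 0 ≤ β)
    {ι : Type} [Fintype ι] (x : ι → Pt) :
    ∃ z : Fin 3 → Fin ℓ, HF c (fun r => α r + a * wk R r) β ι x ≤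
      FZ c α β ((4 / 3) * ((4 * R' + 3) / ℓ)) (β * a * ((1 + 2 * ℓ / R) ^ 6 / (2 * (ℓ : ℝ) ^ 3))) ℓ
        (fun k => ((z k : ℕ) : ℝ)) ι x := by
  have hℓ0 : (0 : ℝ) < ℓ := by exact_mod_cast hℓ
  set κ : ℝ := (4 / 3) * ((4 * R' + 3) / ℓ) with hκ
  set γ : ℝ := β * a * ((1 + 2 * ℓ / R) ^ 6 / (2 * (ℓ : ℝ) ^ 3)) with hγ
  have hq4 : (4 * R' + 3) / ℓ ≤ 1 / 4 := by
    rw [div_le_iff₀ hℓ0]; linarith
  have hq0 : 0 ≤ (4 * R' + 3) / (ℓ : ℝ) := by positivity
  have hD := hDec α (2 * R') ℓ hα (by linarith) hfar hℓ ι x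
  -- average
  have hne : (Finset.univ : Finset (Fin 3 → Fin ℓ)).Nonempty := by
    have : Nonempty (Fin ℓ) := ⟨⟨0, hℓ⟩⟩
    exact Finset.univ_nonempty
  have hcard : ((Finset.univ : Finset (Fin 3 → Fin ℓ)).card : ℝ) = (ℓ : ℝ) ^ 3 := by
    simp
  obtain ⟨z, -, hz⟩ := Finset.exists_max_image Finset.univ
    (fun z : Fin 3 → Fin ℓ => SC α ℓ (fun k => ((z k : ℕ) : ℝ)) x / 2) hne
  refine ⟨z, ?_⟩
  have hmax : (∑ z : Fin 3 → Fin ℓ, SC α ℓ (fun k => ((z k : ℕ) : ℝ)) x / 2) / (ℓ : ℝ) ^ 3 ≤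
      SC α ℓ (fun k => ((z k : ℕ) : ℝ)) x / 2 := by
    rw [div_le_iff₀ (by positivity)]
    calc _ ≤ ∑ _z : Fin 3 → Fin ℓ, SC α ℓ (fun k => ((z k : ℕ) : ℝ)) x / 2 :=
          Finset.sum_le_sum (fun w hw => hz w hw)
      _ = _ := by rw [Finset.sum_const, nsmul_eq_mul, hcard]; ring
  have hA : A α x ≤ (1 + κ) * (SC α ℓ (fun k => ((z k : ℕ) : ℝ)) x / 2) := by
    have h1 : (1 - (4 * R' + 3) / ℓ) * A α x ≤ SC α ℓ (fun k => ((z k : ℕ) : ℝ)) x / 2 := by
      refine le_trans (le_of_eq ?_) (hD.trans hmax)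
      congr 2
      ring
    have hS0 : 0 ≤ SC α ℓ (fun k => ((z k : ℕ) : ℝ)) x / 2 := by
      unfold SC
      refine div_nonneg (Finset.sum_nonneg fun i _ => Finset.sum_nonneg fun j _ => ?_) (by norm_num)
      split_ifs
      · exact hα _
      · exact le_rfl
    have hA0 : 0 ≤ A α x := by
      unfold A SS
      exact div_nonneg (Finset.sum_nonneg fun i _ => Finset.sum_nonneg fun j _ => hα _)
        (by norm_num)
    have h2 : (1 + κ) * ((1 - (4 * R' + 3) / ℓ) * A α x) ≤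
        (1 + κ) * (SC α ℓ (fun k => ((z k : ℕ) : ℝ)) x / 2) :=
      mul_le_mul_of_nonneg_left h1 (by positivity)
    refine le_trans ?_ h2
    have h3 : 1 ≤ (1 + κ) * (1 - (4 * R' + 3) / ℓ) := by
      rw [hκ]; nlinarith
    calc A α x = 1 * A α x := (one_mul _).symm
      _ ≤ ((1 + κ) * (1 - (4 * R' + 3) / ℓ)) * A α x := mul_le_mul_of_nonneg_right h3 hA0
      _ = _ := by ring
  have hE := hE2 R ℓ (fun k => ((z k : ℕ) : ℝ)) hR hℓ0 ι x
  have hU : (SC c ℓ (fun k => ((z k : ℕ) : ℝ)) x - Fintype.card ι * c 0) / 2 ≤ U c x := by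
    unfold U
    have := SK_le_of_nonneg hc ℓ (fun k => ((z k : ℕ) : ℝ)) x
    linarith
  unfold HF Ham FZ
  rw [A_add_mul]
  have e1 : β * ((SC c ℓ (fun k => ((z k : ℕ) : ℝ)) x - Fintype.card ι * c 0) / 2) ≤ β * U c x :=
    mul_le_mul_of_nonneg_left hU hβ
  have e2 : β * A α x ≤ β * ((1 + κ) * (SC α ℓ (fun k => ((z k : ℕ) : ℝ)) x / 2)) :=
    mul_le_mul_of_nonneg_left hA hβ
  have e3 : β * a * A (wk R) x ≤ β * a * ((1 + 2 * ℓ / R) ^ 6 / (2 * (ℓ : ℝ) ^ 3) *
      N2 ℓ (fun k => ((z k : ℕ) : ℝ)) x) :=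
    mul_le_mul_of_nonneg_left hE (mul_nonneg hβ ha)
  rw [hγ]
  nlinarith [e1, e2, e3]

end Crest.Agent.R149.LPU
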