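import Mathlib
import Crest.Agent.R149.CellFactor
import Crest.Agent.R149.LPUpperA

/-!
# LPUpper, part B: product bound over the cells
-/

set_option autoImplicit false

open MeasureTheory Crest.ProbabilityR.Continuum
open scoped ENNReal

namespace Crest.Agent.R149.LPU

/-- the one-cell grand canonical sum -/
noncomputable def XiB (c α : ℝ → ℝ) (β κ γ h : ℝ) (ℓ : ℕ) : ℝ≥0∞ :=
  ∑' n : ℕ, ENNReal.ofReal (Real.exp (h * n)) * ZF (FB c α β κ γ) (hcube ℓ) n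

theorem FB_translate (c α : ℝ → ℝ) (β κ γ : ℝ) (n : ℕ) (x : Fin n → Pt) (t : Pt) :
    FB c α β κ γ (Fin n) (fun i => x i + t) = FB c α β κ γ (Fin n) x := by
  unfold FB U A SS
  simp

theorem sum_shift_le {c α : ℝ → ℝ} {R' R a β : ℝ} {ℓ : ℕ} (hE2 : E2Stmt) (hDec : DecoupleStmt)
    (hcm : Measurable c) (hαm : Measurable α)
    (hc : ∀ r, 0 ≤ c r) (hα : ∀ r, 0 ≤ α r) (hfar : ∀ t, 2 * R' ≤ t → α t = 0) (hR' : 0 ≤ R')
    (hR : 0 < R) (ha : 0 ≤ a) (hℓ : 1 ≤ ℓ) (hℓ' : 4 * (4 * R' + 3) ≤ ℓ) (hβ : 0 ≤ β)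
    (S : Set Pt) (N : ℕ) :
    ZF (HF c (fun r => α r + a * wk R r) β) S N ≤
      ∑ z : Fin 3 → Fin ℓ, ZF (FZ c α β ((4 / 3) * ((4 * R' + 3) / ℓ))
        (β * a * ((1 + 2 * ℓ / R) ^ 6 / (2 * (ℓ : ℝ) ^ 3))) ℓ (fun k => ((z k : ℕ) : ℝ))) S N := by
  unfold ZF
  rw [← Finset.mul_sum]
  refine mul_le_mul' le_rfl ?_
  rw [← lintegral_finsetSum _ (fun z _ =>
    ((famOK_FZ hcm hαm β ((4 / 3) * ((4 * R' + 3) / ℓ))
      (β * a * ((1 + 2 * ℓ / R) ^ 6 / (2 * (ℓ : ℝ) ^ 3))) ℓ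
        (fun k => ((z k : ℕ) : ℝ))).meas (Fin N)).exp.ennreal_ofReal)]
  refine lintegral_mono (fun x => ?_)
  obtain ⟨z, hz⟩ := exists_shift hE2 hDec hc hα hfar hR' hR ha hℓ hℓ' hβ x
  refine le_trans (ENNReal.ofReal_le_ofReal (Real.exp_le_exp.2 hz)) ?_
  exact Finset.single_le_sum (f := fun z : Fin 3 → Fin ℓ => ENNReal.ofReal (Real.exp
    (FZ c α β ((4 / 3) * ((4 * R' + 3) / ℓ))
      (β * a * ((1 + 2 * ℓ / R) ^ 6 / (2 * (ℓ : ℝ) ^ 3))) ℓ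
        (fun k => ((z k : ℕ) : ℝ)) (Fin N) x))) (fun _ _ => zero_le) (Finset.mem_univ z)

theorem FZ_bound {c α : ℝ → ℝ} {β κ γ h : ℝ} {ℓ : ℕ} (hcm : Measurable c) (hαm : Measurable α)
    (hℓ : 1 ≤ ℓ) (z : Fin 3 → Fin ℓ) {L : ℝ} (_hL : 0 < L) (N : ℕ) :
    ENNReal.ofReal (Real.exp (h * N)) *
      ZF (FZ c α β κ γ ℓ (fun k => ((z k : ℕ) : ℝ))) (cube L) N ≤
      XiB c α β κ γ h ℓ ^ ((⌊L / ℓ⌋₊ + 2) ^ 3) := by
  have hℓ0 : (0 : ℝ) < ℓ := by exact_mod_cast hℓ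
  set zz : Fin 3 → ℝ := fun k => ((z k : ℕ) : ℝ) with hzz
  set T : Finset (Fin 3 → ℤ) :=
    Fintype.piFinset (fun _ : Fin 3 => Finset.Icc (0 : ℤ) ((⌊L / ℓ⌋₊ : ℤ) + 1)) with hT
  have hTcard : T.card = (⌊L / ℓ⌋₊ + 2) ^ 3 := by
    rw [hT, Fintype.card_piFinset]
    simp only [Int.card_Icc, Finset.prod_const, Finset.card_univ, Fintype.card_fin]
    congr 1
  have hcover : cube L ⊆ ⋃ v ∈ T, {y : Pt | cell ℓ zz y = v} := by
    intro y hy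
    simp only [Set.mem_iUnion, exists_prop]
    refine ⟨cell ℓ zz y, ?_, rfl⟩
    rw [hT, Fintype.mem_piFinset]
    intro k
    obtain ⟨h1, h2⟩ := hy k
    have hz0 : (0 : ℝ) ≤ zz k := Nat.cast_nonneg _
    have hz1 : zz k < ℓ := by
      show ((z k : ℕ) : ℝ) < ℓ
      exact_mod_cast (z k).2
    rw [Finset.mem_Icc]
    constructor
    · show 0 ≤ ⌊(y k + zz k) / ℓ⌋
      exact Int.floor_nonneg.2 (by positivity)
    · show ⌊(y k + zz k) / ℓ⌋ ≤ _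
      rw [← Int.lt_add_one_iff, Int.floor_lt]
      push_cast
      rw [div_lt_iff₀ hℓ0]
      have h3 := Nat.lt_floor_add_one (L / (ℓ : ℝ))
      rw [div_lt_iff₀ hℓ0] at h3
      nlinarith
  have hkey := cell_factor (famOK_FZ hcm hαm β κ γ ℓ zz)
    (fun v : Fin 3 → ℤ => {y : Pt | cell ℓ zz y = v})
    (fun v => measurableSet_cellset hℓ0 zz v) (pairwise_disjoint_cellset ℓ zz)
    (by
      intro x
      simp [FZ, SC, N2]) T
    (by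
      intro ι _ q _ x hx hq
      refine le_of_eq (FZ_split c α β κ γ ℓ zz q x ?_)
      intro i j hi hj hij
      have hxi := hx i
      simp only [Set.mem_iUnion, exists_prop] at hxi
      obtain ⟨v, hv, hiv⟩ := hxi
      have hjv : x j ∈ {y : Pt | cell ℓ zz y = v} := by
        show cell ℓ zz (x j) = v
        rw [← hij]; exact hiv
      exact hj ((hq v hv i j hiv hjv).1 hi)) h N
  calc ENNReal.ofReal (Real.exp (h * N)) * ZF (FZ c α β κ γ ℓ zz) (cube L) N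
      ≤ ENNReal.ofReal (Real.exp (h * N)) *
          ZF (FZ c α β κ γ ℓ zz) (⋃ v ∈ T, {y : Pt | cell ℓ zz y = v}) N :=
        mul_le_mul' le_rfl (ZF_mono _ hcover N)
    _ ≤ _ := hkey
    _ = ∏ _v ∈ T, XiB c α β κ γ h ℓ := by
        refine Finset.prod_congr rfl (fun v _ => ?_)
        unfold XiB
        refine tsum_congr (fun n => ?_)
        congr 1
        exact ZF_cellset_of_eq (FB_translate c α β κ γ) hℓ0 zz v n
          (fun x hx => FZ_of_same c α β κ γ ℓ zz x (fun i j => (hx i).trans (hx j).symm))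
    _ = _ := by rw [Finset.prod_const, hTcard]

/-- the volume bound for the full Hamiltonian -/
theorem volume_bound {c α : ℝ → ℝ} {R' R a β : ℝ} {ℓ : ℕ} (hE2 : E2Stmt) (hDec : DecoupleStmt)
    (hcm : Measurable c) (hαm : Measurable α)
    (hc : ∀ r, 0 ≤ c r) (hα : ∀ r, 0 ≤ α r) (hfar : ∀ t, 2 * R' ≤ t → α t = 0) (hR' : 0 ≤ R')
    (hR : 0 < R) (ha : 0 ≤ a) (hℓ : 1 ≤ ℓ) (hℓ' : 4 * (4 * R' + 3) ≤ ℓ) (hβ : 0 ≤ β) (h : ℝ)
    {L : ℝ} (hL : 0 < L) (N : ℕ) :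
    ENNReal.ofReal (Real.exp (h * N)) * ZF (HF c (fun r => α r + a * wk R r) β) (cube L) N ≤
      (ℓ : ℝ≥0∞) ^ 3 * XiB c α β ((4 / 3) * ((4 * R' + 3) / ℓ))
        (β * a * ((1 + 2 * ℓ / R) ^ 6 / (2 * (ℓ : ℝ) ^ 3))) h ℓ ^ ((⌊L / ℓ⌋₊ + 2) ^ 3) := by
  calc _ ≤ ENNReal.ofReal (Real.exp (h * N)) * ∑ z : Fin 3 → Fin ℓ,
        ZF (FZ c α β ((4 / 3) * ((4 * R' + 3) / ℓ))
        (β * a * ((1 + 2 * ℓ / R) ^ 6 / (2 * (ℓ : ℝ) ^ 3))) ℓ (fun k => ((z k : ℕ) : ℝ)))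
          (cube L) N :=
        mul_le_mul' le_rfl
          (sum_shift_le hE2 hDec hcm hαm hc hα hfar hR' hR ha hℓ hℓ' hβ (cube L) N)
    _ ≤ ∑ _z : Fin 3 → Fin ℓ, XiB c α β ((4 / 3) * ((4 * R' + 3) / ℓ))
        (β * a * ((1 + 2 * ℓ / R) ^ 6 / (2 * (ℓ : ℝ) ^ 3))) h ℓ ^ ((⌊L / ℓ⌋₊ + 2) ^ 3) := by
        rw [Finset.mul_sum]
        exact Finset.sum_le_sum (fun z _ => FZ_bound hcm hαm hℓ z hL N)
    _ = _ := by
        rw [Finset.sum_const, nsmul_eq_mul]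
        congr 1
        simp

end Crest.Agent.R149.LPU
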