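import Mathlib
import Crest.Agent.R149.LPUpperB

/-!
# LPUpper, part C: the terms with `n ≤ 16 K ℓ^3` particles in a cell
-/

set_option autoImplicit false

open MeasureTheory Crest.ProbabilityR.Continuum
open scoped ENNReal

namespace Crest.Agent.R149.LPU

theorem wk_nonneg (R r : ℝ) : 0 ≤ wk R r := by
  unfold wk
  positivity

theorem attrBound_of_add {α : ℝ → ℝ} {R a a1 : ℝ} (ha : 0 ≤ a)
    (h : AttrBound (fun r => α r + a * wk R r) a1) : AttrBound α a1 := by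
  refine ⟨h.1, fun ι _ x => le_trans ?_ (h.2 ι x)⟩
  rw [A_add_mul]
  have : 0 ≤ A (wk R) x := by
    unfold A SS
    exact div_nonneg (Finset.sum_nonneg fun i _ => Finset.sum_nonneg fun j _ => wk_nonneg _ _)
      (by norm_num)
  nlinarith [mul_nonneg ha this]

theorem stab_of {c α : ℝ → ℝ} {K : ℕ} {M a1 : ℝ} (hSS : SuperStabStmt)
    (hc : ∀ r, 0 ≤ c r) (hK : 1 ≤ K) (ha1 : 0 < a1) (hM : 16 * K * a1 ≤ M) (hCK : CoreK c K M)
    (hb : AttrBound α a1) : Stab c α (K * a1) := by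
  have hK0 : (0 : ℝ) < K := by exact_mod_cast hK
  have hM0 : 0 < M := lt_of_lt_of_le (by positivity) hM
  refine ⟨by positivity, ?_⟩
  intro ι _ x
  have h := hSS c K M hc hK hM0.le hCK ι x
  have h2 := hb.2 ι x
  have hU : 0 ≤ U c x := U_nonneg hc x
  have h3 : N2 (1 / 2) 0 x / (2 * K) - Fintype.card ι / 2 ≤ U c x / M := by
    rw [le_div_iff₀ hM0]; linarith
  have h4 : N2 (1 / 2) 0 x ≤ (U c x / M + Fintype.card ι / 2) * (2 * K) := by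
    rw [← div_le_iff₀ (by positivity)]; linarith
  have h5 : a1 * (2 * K) * (U c x / M) ≤ (1 / 4) * U c x := by
    rw [mul_div_assoc', div_le_iff₀ hM0]
    nlinarith [mul_nonneg hU hK0.le, mul_nonneg (mul_nonneg hU hK0.le) ha1.le,
      mul_le_mul_of_nonneg_left hM hU]
  calc A α x ≤ a1 * N2 (1 / 2) 0 x := h2
    _ ≤ a1 * ((U c x / M + Fintype.card ι / 2) * (2 * K)) := mul_le_mul_of_nonneg_left h4 ha1.le
    _ = a1 * (2 * K) * (U c x / M) + K * a1 * Fintype.card ι := by ring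
    _ ≤ (1 / 4) * U c x + K * a1 * Fintype.card ι := by linarith

theorem FB_le_stab {c α : ℝ → ℝ} {β κ γ B : ℝ} (hc : ∀ r, 0 ≤ c r) (hs : Stab c α B) (hβ : 0 ≤ β)
    (hκ : 0 ≤ κ) {ι : Type} [Fintype ι] (x : ι → Pt) :
    FB c α β κ γ ι x ≤ HF c α (β * (1 - κ)) ι x +
      (2 * β * κ * B * Fintype.card ι + γ * (Fintype.card ι : ℝ) ^ 2) := by
  unfold FB HF Ham
  have h1 := hs.2 ι x
  have h2 : 0 ≤ U c x := U_nonneg hc x
  have h3 : 0 ≤ β * κ := mul_nonneg hβ hκ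
  nlinarith [mul_le_mul_of_nonneg_left h1 h3, mul_nonneg h3 h2]

theorem ZF_FB_le {c α : ℝ → ℝ} {β κ γ B : ℝ} (hc : ∀ r, 0 ≤ c r) (hs : Stab c α B) (hβ : 0 ≤ β)
    (hκ : 0 ≤ κ) (ℓ : ℝ) (n : ℕ) :
    ZF (FB c α β κ γ) (hcube ℓ) n ≤
      ENNReal.ofReal (Real.exp (2 * β * κ * B * n + γ * (n : ℝ) ^ 2)) *
        ZF (HF c α (β * (1 - κ))) (cube ℓ) n := by
  refine le_trans ?_ (mul_le_mul' le_rfl (ZF_mono _ (hcube_subset ℓ) n))
  unfold ZF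
  rw [mul_left_comm]
  refine mul_le_mul' le_rfl ?_
  rw [← lintegral_const_mul' _ _ ENNReal.ofReal_ne_top]
  refine lintegral_mono (fun x => ?_)
  rw [← ENNReal.ofReal_mul (Real.exp_nonneg _), ← Real.exp_add]
  refine ENNReal.ofReal_le_ofReal (Real.exp_le_exp.2 ?_)
  have := FB_le_stab (γ := γ) hc hs hβ hκ x
  simp only [Fintype.card_fin] at this
  linarith

theorem ZF_eq_exp_LZ {c α : ℝ → ℝ} {B β : ℝ} (hp : LZProps c α B β) {L : ℝ} (hL : 0 < L) (n : ℕ) :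
    ZF (HF c α β) (cube L) n = ENNReal.ofReal (Real.exp (LZ c α β L n)) := by
  unfold LZ
  rw [Real.exp_log (ENNReal.toReal_pos (hp.pos L n hL).ne' (hp.fin L n hL)),
    ENNReal.ofReal_toReal (hp.fin L n hL)]

theorem LZ_le_Pr {c α : ℝ → ℝ} {B β : ℝ} (hp : PrProps c α B) (hβ : 0 < β) {ℓ : ℕ} (hℓ : 1 ≤ ℓ)
    (n : ℕ) (h : ℝ) : h * n + LZ c α β ℓ n ≤ ((ℓ : ℝ) + 2) ^ 3 * Pr c α β h := by
  have h1 := le_ciSup (hp.bdd β h hβ) (ℓ - 1, n)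
  simp only [] at h1
  have h2 : (((ℓ - 1 : ℕ) : ℝ)) = (ℓ : ℝ) - 1 := by
    rw [Nat.cast_sub hℓ]; simp
  rw [h2, div_le_iff₀ (by
    have : (1 : ℝ) ≤ ℓ := by exact_mod_cast hℓ
    positivity)] at h1
  have h3 : (ℓ : ℝ) - 1 + 1 = ℓ := by ring
  have h4 : (ℓ : ℝ) - 1 + 3 = ℓ + 2 := by ring
  rw [h3, h4] at h1
  unfold Pr
  linarith

/-- the convexity comparison, in the form proved in `LPConv` -/
def PrCompare : Prop :=
  ∀ (P : ℝ → ℝ → ℝ), ConvexOn ℝ {x : ℝ × ℝ | 0 < x.1} (fun x => P x.1 x.2) →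
    (∀ β h, 0 < β → 0 ≤ P β h) → ∀ B : ℝ, 0 ≤ B → (∀ β h, 0 < β → P β h ≤ Real.exp (h + β * B)) →
    ∀ β κ t h0 Δ H0 D : ℝ, 0 < β → β ≤ 3 / 2 → 0 ≤ κ → 2 * κ ≤ t → 0 < t → t ≤ 1 → h0 ≤ H0 →
      Δ ≤ D * t → 0 ≤ D → P (β * (1 - κ)) (h0 + Δ) ≤ P β h0 + t * Real.exp (H0 + D + 3 / 2 * B)

theorem pow_six_bound {x : ℝ} (h0 : 0 ≤ x) (h1 : x ≤ 1) : (1 + 2 * x) ^ 6 - 1 ≤ 728 * x := by
  have h2 : x ^ 2 ≤ x := by nlinarith
  have h3 : x ^ 3 ≤ x := by nlinarith [pow_nonneg h0 2]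
  have h4 : x ^ 4 ≤ x := by nlinarith [pow_nonneg h0 3]
  have h5 : x ^ 5 ≤ x := by nlinarith [pow_nonneg h0 4]
  have h6 : x ^ 6 ≤ x := by nlinarith [pow_nonneg h0 5]
  nlinarith

theorem small_term (hCmp : PrCompare) {c α : ℝ → ℝ} {β κ γ B : ℝ} (hc : ∀ r, 0 ≤ c r)
    (hs : Stab c α B) (hLZ : ∀ β', 0 < β' → LZProps c α B β') (hPr : PrProps c α B)
    {K : ℕ} {a1 H R' R a h y : ℝ} {ℓ : ℕ} (hR' : 0 ≤ R') (ha1 : 0 < a1)
    (hR : 0 < R) (ha : 0 ≤ a) (haa : a ≤ a1) (hℓ : 1 ≤ ℓ) (hℓ' : 4 * (4 * R' + 3) ≤ ℓ)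
    (hℓR : (ℓ : ℝ) ≤ R) (hβ : 1 / 2 ≤ β) (hβ2 : β ≤ 3 / 2) (hh : h ≤ H)
    (hκ : κ = (4 / 3) * ((4 * R' + 3) / ℓ))
    (hγ : γ = β * a * ((1 + 2 * ℓ / R) ^ 6 / (2 * (ℓ : ℝ) ^ 3)))
    (hy : ∀ m : ℝ, 0 ≤ m → m ≤ 16 * K → Pr c α β (h + β * a * m) - β * a * m ^ 2 / 2 ≤ y)
    (n : ℕ) (hn : (n : ℝ) ≤ 16 * K * (ℓ : ℝ) ^ 3) :
    ENNReal.ofReal (Real.exp (h * n)) * ZF (FB c α β κ γ) (hcube ℓ) n ≤
      ENNReal.ofReal (Real.exp ((ℓ : ℝ) ^ 3 * (y + 37 * Real.exp ((H + 24 * a1 * K) +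
        (3 / 2 * B + 17472 * K * a1) + 3 / 2 * B) * ((R' + 1) / ℓ + ℓ / R)))) := by
  have hB : 0 ≤ B := hs.1
  have hℓ0 : (0 : ℝ) < ℓ := by exact_mod_cast hℓ
  have hℓ1 : (1 : ℝ) ≤ ℓ := by exact_mod_cast hℓ
  have hK0 : (0 : ℝ) ≤ K := Nat.cast_nonneg _
  have hβ0 : 0 < β := by linarith
  set e : ℝ := (R' + 1) / ℓ + ℓ / R with he
  have he1 : (R' + 1) / ℓ ≤ e := by
    rw [he]; have : 0 ≤ (ℓ : ℝ) / R := by positivity
    linarith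
  have he2 : (ℓ : ℝ) / R ≤ e := by
    rw [he]; have : 0 ≤ (R' + 1) / (ℓ : ℝ) := by positivity
    linarith
  have he0 : 0 < e := by rw [he]; positivity
  have hκ0 : 0 ≤ κ := by rw [hκ]; positivity
  have hκ3 : κ ≤ 1 / 3 := by
    rw [hκ]
    have : (4 * R' + 3) / (ℓ : ℝ) ≤ 1 / 4 := by rw [div_le_iff₀ hℓ0]; linarith
    linarith
  have hκe : 2 * κ ≤ 11 * e := by
    rw [hκ]
    have h1 : (4 * R' + 3) / (ℓ : ℝ) ≤ 4 * ((R' + 1) / ℓ) := by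
      rw [mul_div_assoc']
      exact div_le_div_of_nonneg_right (by linarith) hℓ0.le
    linarith
  have hx0 : 0 ≤ (ℓ : ℝ) / R := by positivity
  have hx1 : (ℓ : ℝ) / R ≤ 1 := by rw [div_le_one hR]; exact hℓR
  set m : ℝ := n / (ℓ : ℝ) ^ 3 with hm
  have hm0 : 0 ≤ m := by rw [hm]; positivity
  have hm1 : m ≤ 16 * K := by
    rw [hm, div_le_iff₀ (by positivity)]; exact hn
  have hnm : (n : ℝ) = m * (ℓ : ℝ) ^ 3 := by
    rw [hm]; field_simp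
  set a' : ℝ := a * (1 + 2 * (ℓ / R)) ^ 6 with ha'
  have ha'1 : a' - a ≤ 728 * a1 * (ℓ / R) := by
    have h1 := pow_six_bound hx0 hx1
    have h2 : a * ((1 + 2 * (ℓ / R)) ^ 6 - 1) ≤ a1 * (728 * (ℓ / R)) :=
      mul_le_mul haa h1 (by
        have : 1 ≤ (1 + 2 * ((ℓ : ℝ) / R)) ^ 6 := one_le_pow₀ (by linarith)
        linarith) ha1.le
    rw [ha']; linarith
  have haa' : a ≤ a' := by
    rw [ha']
    have : 1 ≤ (1 + 2 * ((ℓ : ℝ) / R)) ^ 6 := one_le_pow₀ (by linarith)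
    nlinarith
  have hγ' : γ * (n : ℝ) ^ 2 = β * a' * m ^ 2 / 2 * (ℓ : ℝ) ^ 3 := by
    rw [hγ, hnm, ha']
    have : (2 : ℝ) * ℓ / R = 2 * (ℓ / R) := by ring
    rw [this]
    field_simp
  set h0 : ℝ := h + β * a * m with hh0
  set Δ : ℝ := 2 * β * κ * B + β * (a' - a) * m with hΔ
  set t : ℝ := min 1 (11 * e) with ht
  have ht0 : 0 < t := lt_min one_pos (by positivity)
  have ht1 : t ≤ 1 := min_le_left _ _
  have hte : t ≤ 11 * e := min_le_right _ _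
  have hκt : 2 * κ ≤ t := le_min (by linarith) hκe
  have hxt : (ℓ : ℝ) / R ≤ t := le_min hx1 (by linarith)
  set D : ℝ := 3 / 2 * B + 17472 * K * a1 with hD
  have hD0 : 0 ≤ D := by rw [hD]; positivity
  have hΔD : Δ ≤ D * t := by
    have h1 : 2 * β * κ * B ≤ 3 / 2 * B * t := by
      have h1' : β * (2 * κ) ≤ 3 / 2 * t := mul_le_mul hβ2 hκt (by positivity) (by norm_num)
      calc 2 * β * κ * B = β * (2 * κ) * B := by ring
        _ ≤ 3 / 2 * t * B := mul_le_mul_of_nonneg_right h1' hB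
        _ = _ := by ring
    have h2 : β * (a' - a) * m ≤ 17472 * K * a1 * t := by
      calc β * (a' - a) * m ≤ (3 / 2) * (728 * a1 * (ℓ / R)) * (16 * K) := by
            apply mul_le_mul _ hm1 hm0 (by positivity)
            exact mul_le_mul hβ2 ha'1 (by linarith) (by norm_num)
        _ = 17472 * K * a1 * (ℓ / R) := by ring
        _ ≤ _ := by
            apply mul_le_mul_of_nonneg_left hxt (by positivity)
    have h3 : D * t = 3 / 2 * B * t + 17472 * K * a1 * t := by rw [hD]; ring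
    rw [h3]
    exact add_le_add h1 h2
  set H0 : ℝ := H + 24 * a1 * K with hH0
  have hh0H : h0 ≤ H0 := by
    have h1 : β * a * m ≤ (3 / 2) * a1 * (16 * K) := by
      apply mul_le_mul _ hm1 hm0 (by positivity)
      exact mul_le_mul hβ2 haa ha (by norm_num)
    rw [hh0, hH0]; linarith
  have hβ' : 0 < β * (1 - κ) := mul_pos hβ0 (by linarith)
  set E : ℝ := Real.exp (H0 + D + 3 / 2 * B) with hE
  have hE0 : 0 < E := Real.exp_pos _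
  have hcmp : Pr c α (β * (1 - κ)) (h0 + Δ) ≤ Pr c α β h0 + t * E :=
    hCmp (Pr c α) hPr.conv hPr.nonneg B hB hPr.le_exp β κ t h0 Δ H0 D hβ0 hβ2 hκ0 hκt ht0 ht1
      hh0H hΔD hD0
  have hPE : Pr c α (β * (1 - κ)) (h0 + Δ) ≤ E := by
    refine le_trans (hPr.le_exp _ _ hβ') (Real.exp_le_exp.2 ?_)
    have h1 : β * (1 - κ) * B ≤ 3 / 2 * B := by
      apply mul_le_mul_of_nonneg_right _ hB
      have : β * (1 - κ) ≤ β * 1 := mul_le_mul_of_nonneg_left (by linarith only [hκ0]) hβ0.le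
      linarith only [this, hβ2]
    have h2 : Δ ≤ D := hΔD.trans (mul_le_of_le_one_right hD0 ht1)
    linarith only [h1, h2, hh0H]
  have hPn : 0 ≤ Pr c α (β * (1 - κ)) (h0 + Δ) := hPr.nonneg _ _ hβ'
  have hLZle := LZ_le_Pr hPr hβ' hℓ n (h0 + Δ)
  clear_value e m a' t D H0 E
  -- main estimate of the exponent
  have hmain : h * n + (2 * β * κ * B * n + γ * (n : ℝ) ^ 2) + LZ c α (β * (1 - κ)) ℓ n ≤
      (ℓ : ℝ) ^ 3 * (y + 37 * E * e) := by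
    have e1 : h * n + (2 * β * κ * B * n + γ * (n : ℝ) ^ 2) - (h0 + Δ) * n =
        -(β * a' * m ^ 2 / 2 * (ℓ : ℝ) ^ 3) := by
      rw [hγ', hh0, hΔ, hnm]; ring
    clear_value h0 Δ
    have e2 : h * n + (2 * β * κ * B * n + γ * (n : ℝ) ^ 2) + LZ c α (β * (1 - κ)) ℓ n ≤
        ((ℓ : ℝ) + 2) ^ 3 * Pr c α (β * (1 - κ)) (h0 + Δ) - β * a' * m ^ 2 / 2 * (ℓ : ℝ) ^ 3 := by
      linarith only [e1, hLZle]
    have e3 : ((ℓ : ℝ) + 2) ^ 3 ≤ (ℓ : ℝ) ^ 3 + 26 * (ℓ : ℝ) ^ 3 * (1 / ℓ) := by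
      have h1 : 26 * (ℓ : ℝ) ^ 3 * (1 / ℓ) = 26 * (ℓ : ℝ) ^ 2 := by field_simp
      rw [h1]
      nlinarith only [sq_nonneg ((ℓ : ℝ) - 1), hℓ1]
    have e4 : 1 / (ℓ : ℝ) ≤ e := by
      refine le_trans ?_ he1
      exact div_le_div_of_nonneg_right (by linarith only [hR']) hℓ0.le
    have hℓ3 : 0 < (ℓ : ℝ) ^ 3 := by positivity
    have e5 : ((ℓ : ℝ) + 2) ^ 3 * Pr c α (β * (1 - κ)) (h0 + Δ) ≤
        (ℓ : ℝ) ^ 3 * (Pr c α (β * (1 - κ)) (h0 + Δ) + 26 * E * e) := by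
      calc ((ℓ : ℝ) + 2) ^ 3 * Pr c α (β * (1 - κ)) (h0 + Δ)
          ≤ ((ℓ : ℝ) ^ 3 + 26 * (ℓ : ℝ) ^ 3 * (1 / ℓ)) * Pr c α (β * (1 - κ)) (h0 + Δ) :=
            mul_le_mul_of_nonneg_right e3 hPn
        _ = (ℓ : ℝ) ^ 3 * (Pr c α (β * (1 - κ)) (h0 + Δ) +
            26 * ((1 / ℓ) * Pr c α (β * (1 - κ)) (h0 + Δ))) := by ring
        _ ≤ _ := by
            apply mul_le_mul_of_nonneg_left _ hℓ3.le
            have : (1 / (ℓ : ℝ)) * Pr c α (β * (1 - κ)) (h0 + Δ) ≤ e * E :=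
              mul_le_mul e4 hPE hPn he0.le
            linarith only [this]
    have e6 : Pr c α β h0 - β * a * m ^ 2 / 2 ≤ y := by rw [hh0]; exact hy m hm0 hm1
    have e7 : β * a * m ^ 2 / 2 ≤ β * a' * m ^ 2 / 2 := by
      have : β * a * m ^ 2 ≤ β * a' * m ^ 2 :=
        mul_le_mul_of_nonneg_right (mul_le_mul_of_nonneg_left haa' hβ0.le) (sq_nonneg _)
      linarith only [this]
    have e8 : t * E ≤ 11 * e * E := mul_le_mul_of_nonneg_right hte hE0.le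
    calc _ ≤ ((ℓ : ℝ) + 2) ^ 3 * Pr c α (β * (1 - κ)) (h0 + Δ) -
          β * a' * m ^ 2 / 2 * (ℓ : ℝ) ^ 3 := e2
      _ ≤ (ℓ : ℝ) ^ 3 * (Pr c α (β * (1 - κ)) (h0 + Δ) + 26 * E * e) -
          β * a' * m ^ 2 / 2 * (ℓ : ℝ) ^ 3 := by linarith only [e5]
      _ = (ℓ : ℝ) ^ 3 * (Pr c α (β * (1 - κ)) (h0 + Δ) + 26 * E * e - β * a' * m ^ 2 / 2) := by
          ring
      _ ≤ _ := by
          apply mul_le_mul_of_nonneg_left _ hℓ3.le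
          linarith only [hcmp, e6, e7, e8]
  calc ENNReal.ofReal (Real.exp (h * n)) * ZF (FB c α β κ γ) (hcube ℓ) n
      ≤ ENNReal.ofReal (Real.exp (h * n)) *
        (ENNReal.ofReal (Real.exp (2 * β * κ * B * n + γ * (n : ℝ) ^ 2)) *
          ZF (HF c α (β * (1 - κ))) (cube ℓ) n) :=
        mul_le_mul' le_rfl (ZF_FB_le hc hs hβ0.le hκ0 ℓ n)
    _ = ENNReal.ofReal (Real.exp (h * n + (2 * β * κ * B * n + γ * (n : ℝ) ^ 2) +
          LZ c α (β * (1 - κ)) ℓ n)) := by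
        rw [ZF_eq_exp_LZ (hLZ _ hβ') hℓ0 n, ← ENNReal.ofReal_mul (Real.exp_nonneg _),
          ← ENNReal.ofReal_mul (Real.exp_nonneg _), ← Real.exp_add, ← Real.exp_add]
        congr 2
        ring
    _ ≤ _ := ENNReal.ofReal_le_ofReal (Real.exp_le_exp.2 hmain)

end Crest.Agent.R149.LPU
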