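import Mathlib
import Crest.Agent.R149.LPUpperC

/-!
# LPUpper, part D: final assembly
-/

set_option autoImplicit false

open MeasureTheory Crest.ProbabilityR.Continuum
open scoped ENNReal

namespace Crest.Agent.R149.LPU

/-- tail terms (proved in `LPTail`) -/
def TailTerm : Prop :=
  ∀ (K : ℕ) (a1 H : ℝ), 1 ≤ K → 0 < a1 →
    ∃ M0 : ℝ, 0 ≤ M0 ∧ ∀ (c α : ℝ → ℝ) (M : ℝ), CoreOK c → CoreK c K M → M0 ≤ M → AttrOK α →
      AttrBound α a1 → ∀ (β κ γ : ℝ) (ℓ n : ℕ), 1 / 2 ≤ β → β ≤ 3 / 2 → 0 ≤ κ → κ ≤ 1 / 3 →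
        0 ≤ γ → γ ≤ 365 * β * a1 / (ℓ : ℝ) ^ 3 → 1 ≤ ℓ → 16 * (K : ℝ) * (ℓ : ℝ) ^ 3 < n →
          ∀ h ≤ H, ENNReal.ofReal (Real.exp (h * n)) * ZF (FB c α β κ γ) (hcube ℓ) n ≤
            ENNReal.ofReal ((Real.exp 1 / 16) ^ n)

/-- volume limit (proved in `LPVol`) -/
def VolBound : Prop :=
  ∀ (c α : ℝ → ℝ) (B β : ℝ), CoreOK c → AttrOK α → Stab c α B → 0 < β →
    ∀ (h X D : ℝ) (ℓ : ℕ), 1 ≤ ℓ → 0 ≤ X →
      (∀ L : ℝ, 0 < L → ∀ N : ℕ, h * N + LZ c α β L N ≤ D + ((⌊L / ℓ⌋₊ : ℝ) + 2) ^ 3 * X) →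
        Pr c α β h ≤ X / (ℓ : ℝ) ^ 3

/-- proved in `LPConv` -/
def LogCount : Prop :=
  ∀ K : ℕ, ∃ C : ℝ, 0 ≤ C ∧ ∀ ℓ : ℕ, 1 ≤ ℓ →
    Real.log (16 * K * (ℓ : ℝ) ^ 3 + 4) / (ℓ : ℝ) ^ 3 ≤ C / ℓ

theorem XiB_le {c α : ℝ → ℝ} {β κ γ h X : ℝ} {K ℓ : ℕ} (hX : 0 ≤ X)
    (h1 : ∀ n : ℕ, (n : ℝ) ≤ 16 * K * (ℓ : ℝ) ^ 3 →
      ENNReal.ofReal (Real.exp (h * n)) * ZF (FB c α β κ γ) (hcube ℓ) n ≤
        ENNReal.ofReal (Real.exp X))
    (h2 : ∀ n : ℕ, 16 * (K : ℝ) * (ℓ : ℝ) ^ 3 < n →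
      ENNReal.ofReal (Real.exp (h * n)) * ZF (FB c α β κ γ) (hcube ℓ) n ≤
        ENNReal.ofReal ((Real.exp 1 / 16) ^ n)) :
    XiB c α β κ γ h ℓ ≤ ENNReal.ofReal (Real.exp (Real.log (16 * K * (ℓ : ℝ) ^ 3 + 4) + X)) := by
  have hpos : 0 < 16 * (K : ℝ) * (ℓ : ℝ) ^ 3 + 4 := by positivity
  set n0 : ℕ := 16 * K * ℓ ^ 3 with hn0
  have hn0' : (n0 : ℝ) = 16 * K * (ℓ : ℝ) ^ 3 := by rw [hn0]; push_cast; ring
  have hterm : ∀ n : ℕ, ENNReal.ofReal (Real.exp (h * n)) * ZF (FB c α β κ γ) (hcube ℓ) n ≤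
      (if n ∈ Finset.range (n0 + 1) then ENNReal.ofReal (Real.exp X) else 0) +
        ENNReal.ofReal ((Real.exp 1 / 16) ^ n) := by
    intro n
    by_cases hn : n ∈ Finset.range (n0 + 1)
    · rw [if_pos hn]
      refine le_trans (h1 n ?_) le_self_add
      rw [← hn0']
      have : n ≤ n0 := by simpa [Nat.lt_succ_iff] using hn
      exact_mod_cast this
    · rw [if_neg hn, zero_add]
      refine h2 n ?_
      rw [← hn0']
      have : n0 < n := by simpa using hn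
      exact_mod_cast this
  have hgeo : ∑' n : ℕ, ENNReal.ofReal ((Real.exp 1 / 16) ^ n) ≤ ENNReal.ofReal 3 := by
    have hr0 : 0 ≤ Real.exp 1 / 16 := by positivity
    have hr1 : Real.exp 1 / 16 ≤ 1 / 4 := by
      have := Real.exp_one_lt_d9
      linarith
    rw [← ENNReal.ofReal_tsum_of_nonneg (fun n => by positivity)
      (summable_geometric_of_lt_one hr0 (by linarith))]
    refine ENNReal.ofReal_le_ofReal ?_
    rw [tsum_geometric_of_lt_one hr0 (by linarith)]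
    have : (1 - Real.exp 1 / 16) ≥ 3 / 4 := by linarith
    calc (1 - Real.exp 1 / 16)⁻¹ ≤ (3 / 4 : ℝ)⁻¹ := inv_anti₀ (by norm_num) this
      _ ≤ 3 := by norm_num
  calc XiB c α β κ γ h ℓ
      ≤ ∑' n : ℕ, ((if n ∈ Finset.range (n0 + 1) then ENNReal.ofReal (Real.exp X) else 0) +
        ENNReal.ofReal ((Real.exp 1 / 16) ^ n)) := ENNReal.tsum_le_tsum hterm
    _ = (∑' n : ℕ, (if n ∈ Finset.range (n0 + 1) then ENNReal.ofReal (Real.exp X) else 0)) +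
        ∑' n : ℕ, ENNReal.ofReal ((Real.exp 1 / 16) ^ n) := ENNReal.tsum_add
    _ ≤ (n0 + 1 : ℝ≥0∞) * ENNReal.ofReal (Real.exp X) + ENNReal.ofReal 3 := by
        refine add_le_add (le_of_eq ?_) hgeo
        rw [tsum_eq_sum (s := Finset.range (n0 + 1)) (fun n hn => if_neg hn)]
        rw [Finset.sum_congr rfl (fun n hn => if_pos hn), Finset.sum_const, Finset.card_range,
          nsmul_eq_mul]
        push_cast; rfl
    _ = ENNReal.ofReal ((n0 + 1) * Real.exp X + 3) := by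
        rw [ENNReal.ofReal_add (by positivity) (by norm_num), ENNReal.ofReal_mul (by positivity)]
        congr 2
        rw [ENNReal.ofReal_add (by positivity) (by norm_num), ENNReal.ofReal_natCast,
          ENNReal.ofReal_one]
    _ ≤ _ := by
        refine ENNReal.ofReal_le_ofReal ?_
        rw [Real.exp_add, Real.exp_log hpos, ← hn0']
        have : 1 ≤ Real.exp X := Real.one_le_exp hX
        nlinarith

theorem attrOK_add (hKer : KernelProps) {α : ℝ → ℝ} {R a : ℝ} (hα : AttrOK α) (hR : 0 < R)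
    (ha : 0 ≤ a) : AttrOK (fun r => α r + a * wk R r) where
  meas := hα.meas.add ((hKer.cont R hR).measurable.const_mul a)
  nonneg := fun r => add_nonneg (hα.nonneg r) (mul_nonneg ha (hKer.nonneg R r))
  bdd := by
    obtain ⟨C, hC⟩ := hα.bdd
    exact ⟨C + a * (1 / vB R), fun r => add_le_add (hC r)
      (mul_le_mul_of_nonneg_left (hKer.le R r hR) ha)⟩

/-- from the volume bound in `ℝ≥0∞` to logarithms -/
theorem log_volume {c α' : ℝ → ℝ} {B β h X : ℝ} {L : ℝ} {N ℓ m : ℕ} {ξ : ℝ≥0∞}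
    (hp : LZProps c α' B β) (hL : 0 < L) (hℓ : 1 ≤ ℓ)
    (hξ : ξ ≤ ENNReal.ofReal (Real.exp X))
    (hv : ENNReal.ofReal (Real.exp (h * N)) * ZF (HF c α' β) (cube L) N ≤ (ℓ : ℝ≥0∞) ^ 3 * ξ ^ m) :
    h * N + LZ c α' β L N ≤ Real.log ((ℓ : ℝ) ^ 3) + m * X := by
  have hℓ0 : (0 : ℝ) < ℓ := by exact_mod_cast hℓ
  have h1 : ENNReal.ofReal (Real.exp (h * N + LZ c α' β L N)) ≤
      ENNReal.ofReal ((ℓ : ℝ) ^ 3 * Real.exp (m * X)) := by
    rw [Real.exp_add, ENNReal.ofReal_mul (Real.exp_nonneg _), ← ZF_eq_exp_LZ hp hL N]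
    refine hv.trans ?_
    rw [ENNReal.ofReal_mul (by positivity), Real.exp_nat_mul, ENNReal.ofReal_pow (Real.exp_nonneg _),
      ENNReal.ofReal_pow hℓ0.le, ENNReal.ofReal_natCast]
    exact mul_le_mul' le_rfl (pow_le_pow_left' hξ m)
  have h2 := (ENNReal.ofReal_le_ofReal_iff (by positivity)).1 h1
  have h3 := Real.log_le_log (Real.exp_pos _) h2
  rwa [Real.log_exp, Real.log_mul (by positivity) (by positivity), Real.log_exp] at h3

theorem lpUpper_of (hKer : KernelProps) (hE2 : E2Stmt) (hDec : DecoupleStmt) (hSS : SuperStabStmt)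
    (hLZ : LZPropsStmt) (hPr : PrPropsStmt) (hCmp : PrCompare) (hTail : TailTerm)
    (hVol : VolBound) (hLog : LogCount) : LPUpperStmt := by
  intro K a1 H hK ha1
  obtain ⟨M0, hM00, hM0⟩ := hTail K a1 H hK ha1
  obtain ⟨C6, hC60, hC6⟩ := hLog K
  set B : ℝ := K * a1 with hB
  set E : ℝ := Real.exp ((H + 24 * a1 * K) + (3 / 2 * B + 17472 * K * a1) + 3 / 2 * B) with hE
  have hE0 : 0 < E := Real.exp_pos _
  refine ⟨C6 + 37 * E, M0 + 16 * K * a1, by positivity, by positivity, ?_⟩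
  intro c α M R' R a ℓ hc hCK hM hα hfar hR' hR1 ha haa hAB hℓ hℓ' hℓR β h hβ hβ2 hh y hy
  have hK0 : (0 : ℝ) < K := by exact_mod_cast hK
  have hKa : 0 < 16 * (K : ℝ) * a1 := by positivity
  have hℓ0 : (0 : ℝ) < ℓ := by exact_mod_cast hℓ
  have hR0 : 0 < R := by linarith
  have hβ0 : 0 < β := by linarith
  have hABα : AttrBound α a1 := attrBound_of_add ha hAB
  have hs : Stab c α B := stab_of hSS hc.nonneg hK ha1 (by linarith) hCK hABα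
  have hs' : Stab c (fun r => α r + a * wk R r) B :=
    stab_of hSS hc.nonneg hK ha1 (by linarith) hCK hAB
  have hα' : AttrOK (fun r => α r + a * wk R r) := attrOK_add hKer hα hR0 ha
  have hPrα : PrProps c α B := hPr c α B hc hα hs
  -- `y ≥ 0`
  have hy0 : 0 ≤ y := by
    have h1 := hy 0 le_rfl (by positivity)
    have h2 := hPrα.nonneg β h hβ0
    simp only [mul_zero, add_zero] at h1
    norm_num at h1
    linarith
  set κ : ℝ := (4 / 3) * ((4 * R' + 3) / ℓ) with hκ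
  set γ : ℝ := β * a * ((1 + 2 * ℓ / R) ^ 6 / (2 * (ℓ : ℝ) ^ 3)) with hγ
  set e : ℝ := (R' + 1) / ℓ + ℓ / R with he
  have he0 : 0 < e := by rw [he]; positivity
  set X1 : ℝ := (ℓ : ℝ) ^ 3 * (y + 37 * E * e) with hX1
  have hX10 : 0 ≤ X1 := by rw [hX1]; positivity
  have hκ0 : 0 ≤ κ := by rw [hκ]; positivity
  have hκ3 : κ ≤ 1 / 3 := by
    rw [hκ]
    have : (4 * R' + 3) / (ℓ : ℝ) ≤ 1 / 4 := by rw [div_le_iff₀ hℓ0]; linarith
    linarith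
  have hγ0 : 0 ≤ γ := by rw [hγ]; positivity
  have hγ1 : γ ≤ 365 * β * a1 / (ℓ : ℝ) ^ 3 := by
    have h1 : (1 + 2 * (ℓ : ℝ) / R) ^ 6 ≤ 3 ^ 6 := by
      refine pow_le_pow_left₀ (by positivity) ?_ 6
      have : 2 * (ℓ : ℝ) / R ≤ 2 := by rw [div_le_iff₀ hR0]; linarith
      linarith
    have h2 : β * a * (1 + 2 * (ℓ : ℝ) / R) ^ 6 ≤ β * a1 * 3 ^ 6 :=
      mul_le_mul (mul_le_mul_of_nonneg_left haa hβ0.le) h1 (by positivity) (by positivity)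
    have h3 : γ = β * a * (1 + 2 * (ℓ : ℝ) / R) ^ 6 / 2 / (ℓ : ℝ) ^ 3 := by
      rw [hγ]; field_simp
    rw [h3]
    refine div_le_div_of_nonneg_right ?_ (by positivity)
    have h4 : 0 ≤ β * a1 := by positivity
    linarith only [h2, h4]
  have hXi : XiB c α β κ γ h ℓ ≤
      ENNReal.ofReal (Real.exp (Real.log (16 * K * (ℓ : ℝ) ^ 3 + 4) + X1)) := by
    refine XiB_le hX10 (fun n hn => ?_) (fun n hn => ?_)
    · exact small_term hCmp hc.nonneg hs (fun β' hβ' => hLZ c α B β' hc hα hs hβ') hPrα hR' ha1 hR0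
        ha haa hℓ hℓ' hℓR hβ hβ2 hh hκ hγ hy n hn
    · exact hM0 c α M hc hCK (by linarith) hα hABα β κ γ ℓ n hβ hβ2 hκ0 hκ3 hγ0 hγ1 hℓ hn h hh
  set X : ℝ := Real.log (16 * K * (ℓ : ℝ) ^ 3 + 4) + X1 with hX
  have hX0 : 0 ≤ X := by
    rw [hX]
    have : 0 ≤ Real.log (16 * K * (ℓ : ℝ) ^ 3 + 4) := by
      refine Real.log_nonneg ?_
      have : 0 ≤ 16 * (K : ℝ) * (ℓ : ℝ) ^ 3 := by positivity
      linarith
    linarith
  have hvb : ∀ L : ℝ, 0 < L → ∀ N : ℕ, h * N + LZ c (fun r => α r + a * wk R r) β L N ≤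
      Real.log ((ℓ : ℝ) ^ 3) + ((⌊L / ℓ⌋₊ : ℝ) + 2) ^ 3 * X := by
    intro L hL N
    have h1 := volume_bound hE2 hDec hc.meas hα.meas hc.nonneg hα.nonneg hfar hR' hR0 ha hℓ hℓ'
      hβ0.le h hL N
    have h2 := log_volume (hLZ c _ B β hc hα' hs' hβ0) hL hℓ hXi h1
    refine h2.trans (le_of_eq ?_)
    push_cast
    ring
  have hfin := hVol c _ B β hc hα' hs' hβ0 h X (Real.log ((ℓ : ℝ) ^ 3)) ℓ hℓ hX0 hvb
  refine hfin.trans ?_
  have h3 : X / (ℓ : ℝ) ^ 3 = Real.log (16 * K * (ℓ : ℝ) ^ 3 + 4) / (ℓ : ℝ) ^ 3 + (y + 37 * E * e) := by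
    rw [hX, hX1]; field_simp
  rw [h3]
  have h4 := hC6 ℓ hℓ
  have h5 : C6 / (ℓ : ℝ) ≤ C6 * e := by
    rw [he, div_eq_mul_one_div]
    refine mul_le_mul_of_nonneg_left ?_ hC60
    have h6 : 1 / (ℓ : ℝ) ≤ (R' + 1) / ℓ := div_le_div_of_nonneg_right (by linarith) hℓ0.le
    have h7 : 0 ≤ (ℓ : ℝ) / R := by positivity
    linarith
  linarith only [h4, h5]

end Crest.Agent.R149.LPU
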