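import Mathlib
import Crest.Agent.R149.LPUpperD

/-!
# LPUpper, part E: convexity comparison, counting, volume limit
-/

set_option autoImplicit false

open MeasureTheory Crest.ProbabilityR.Continuum Filter Topology
open scoped ENNReal

namespace Crest.Agent.R149.LPU

theorem prCompare : PrCompare := by
  intro P hconv hnn B hB hexp β κ t h0 Δ H0 D hβ hβ2 hκ hκt ht0 ht hh hΔ hD
  have hs : 0 < 1 - κ / t := by
    have : κ / t ≤ 1 / 2 := by rw [div_le_iff₀ ht0]; linarith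
    linarith
  have hx : (β, h0) ∈ {x : ℝ × ℝ | 0 < x.1} := hβ
  have hy : (β * (1 - κ / t), h0 + Δ / t) ∈ {x : ℝ × ℝ | 0 < x.1} := mul_pos hβ hs
  have hc := hconv.2 hx hy (by linarith : 0 ≤ 1 - t) ht0.le (by ring : (1 - t) + t = 1)
  simp only [Prod.smul_mk, Prod.mk_add_mk, smul_eq_mul] at hc
  have e1 : (1 - t) * β + t * (β * (1 - κ / t)) = β * (1 - κ) := by
    field_simp; ring
  have e2 : (1 - t) * h0 + t * (h0 + Δ / t) = h0 + Δ := by
    field_simp; ring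
  rw [e1, e2] at hc
  have h1 : P (β * (1 - κ / t)) (h0 + Δ / t) ≤ Real.exp (H0 + D + 3 / 2 * B) := by
    refine (hexp _ _ (mul_pos hβ hs)).trans (Real.exp_le_exp.2 ?_)
    have h2 : Δ / t ≤ D := by rw [div_le_iff₀ ht0]; exact hΔ
    have h3 : β * (1 - κ / t) * B ≤ 3 / 2 * B := by
      refine mul_le_mul_of_nonneg_right ?_ hB
      have : 0 ≤ κ / t := by positivity
      nlinarith
    linarith
  have h2 : (1 - t) * P β h0 ≤ P β h0 := by
    have := hnn β h0 hβ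
    nlinarith
  have h3 := mul_le_mul_of_nonneg_left h1 ht0.le
  linarith

theorem logCount : LogCount := by
  intro K
  refine ⟨Real.log (16 * K + 4) + 3, ?_, ?_⟩
  · have : 0 ≤ Real.log (16 * (K : ℝ) + 4) := Real.log_nonneg (by
      have : (0 : ℝ) ≤ K := Nat.cast_nonneg _
      linarith)
    linarith
  · intro ℓ hℓ
    have hℓ1 : (1 : ℝ) ≤ ℓ := by exact_mod_cast hℓ
    have hℓ0 : (0 : ℝ) < ℓ := by linarith
    have hK0 : (0 : ℝ) ≤ K := Nat.cast_nonneg _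
    have hlog0 : 0 ≤ Real.log (16 * (K : ℝ) + 4) := Real.log_nonneg (by linarith)
    have h1 : Real.log (16 * K * (ℓ : ℝ) ^ 3 + 4) ≤ Real.log (16 * K + 4) + 3 * ℓ := by
      have h2 : 16 * K * (ℓ : ℝ) ^ 3 + 4 ≤ (16 * K + 4) * (ℓ : ℝ) ^ 3 := by
        have : 1 ≤ (ℓ : ℝ) ^ 3 := one_le_pow₀ hℓ1
        nlinarith
      refine (Real.log_le_log (by positivity) h2).trans ?_
      rw [Real.log_mul (by positivity) (by positivity), Real.log_pow]
      have h3 : Real.log (ℓ : ℝ) ≤ ℓ := (Real.log_le_sub_one_of_pos hℓ0).trans (by linarith)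
      push_cast
      linarith
    rw [div_le_div_iff₀ (by positivity) hℓ0]
    have h4 : Real.log (16 * K * (ℓ : ℝ) ^ 3 + 4) * ℓ ≤ (Real.log (16 * K + 4) + 3 * ℓ) * ℓ :=
      mul_le_mul_of_nonneg_right h1 hℓ0.le
    refine h4.trans ?_
    have h5 : (ℓ : ℝ) ≤ (ℓ : ℝ) ^ 3 := le_self_pow₀ hℓ1 (by norm_num)
    have h6 : (ℓ : ℝ) * ℓ ≤ (ℓ : ℝ) ^ 3 := by nlinarith [sq_nonneg ((ℓ : ℝ) - 1)]
    nlinarith [mul_le_mul_of_nonneg_left h5 hlog0]

theorem volBound (hSA : SuperAddStmt) : VolBound := by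
  intro c α B β hc hα hs hβ h X D ℓ hℓ hX Hb
  have hℓ0 : (0 : ℝ) < ℓ := by exact_mod_cast hℓ
  unfold Pr
  refine ciSup_le (fun q => ?_)
  obtain ⟨l, n⟩ := q
  simp only []
  set L : ℝ := (l : ℝ) + 1 with hL
  have hL0 : 0 < L := by rw [hL]; positivity
  have hL3 : (l : ℝ) + 3 = L + 2 := by rw [hL]; ring
  rw [hL3]
  -- for each `j ≥ 1`
  have hj : ∀ j : ℕ, 1 ≤ j → (h * n + LZ c α β L n) / (L + 2) ^ 3 ≤
      (D + ((j * (L + 2) - 2) / ℓ + 2) ^ 3 * X) / (j * (L + 2)) ^ 3 := by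
    intro j hj1
    have hj0 : (0 : ℝ) < j := by exact_mod_cast hj1
    have hj1' : (1 : ℝ) ≤ j := by exact_mod_cast hj1
    have h1 := hSA c α B β hc hα hs hβ L j hL0 hj1 (fun _ => n)
    simp only [Finset.sum_const, Finset.card_univ, Fintype.card_pi, Finset.prod_const,
      Fintype.card_fin, smul_eq_mul, nsmul_eq_mul] at h1
    have hLj : 0 < j * (L + 2) - 2 := by nlinarith
    have h2 := Hb (j * (L + 2) - 2) hLj (j ^ 3 * n)
    have h3 : ((⌊(j * (L + 2) - 2) / ℓ⌋₊ : ℝ) + 2) ^ 3 * X ≤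
        ((j * (L + 2) - 2) / ℓ + 2) ^ 3 * X := by
      refine mul_le_mul_of_nonneg_right ?_ hX
      refine pow_le_pow_left₀ (by positivity) ?_ 3
      have := Nat.floor_le (a := (j * (L + 2) - 2) / ℓ) (by positivity)
      linarith
    rw [div_le_div_iff₀ (by positivity) (by positivity)]
    push_cast at h1 h2
    have h4 : (j : ℝ) ^ 3 * (h * n + LZ c α β L n) ≤ D + ((j * (L + 2) - 2) / ℓ + 2) ^ 3 * X := by
      linarith
    have h5 : 0 ≤ (L + 2) ^ 3 := by positivity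
    calc (h * n + LZ c α β L n) * (j * (L + 2)) ^ 3
        = ((j : ℝ) ^ 3 * (h * n + LZ c α β L n)) * (L + 2) ^ 3 := by ring
      _ ≤ _ := mul_le_mul_of_nonneg_right h4 h5
  -- limit `j → ∞`
  have hlim : Tendsto (fun j : ℕ => (D + ((j * (L + 2) - 2) / ℓ + 2) ^ 3 * X) /
      (j * (L + 2)) ^ 3) atTop (𝓝 (X / (ℓ : ℝ) ^ 3)) := by
    have hinv : Tendsto (fun j : ℕ => ((j : ℝ))⁻¹) atTop (𝓝 0) :=
      tendsto_inv_atTop_zero.comp tendsto_natCast_atTop_atTop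
    have hLp : 0 < L + 2 := by linarith
    have h1 : Tendsto (fun j : ℕ => (D * ((j : ℝ)⁻¹) ^ 3 +
        (((L + 2) - 2 * (j : ℝ)⁻¹) / ℓ + 2 * (j : ℝ)⁻¹) ^ 3 * X) / (L + 2) ^ 3) atTop
        (𝓝 ((D * (0 : ℝ) ^ 3 + (((L + 2) - 2 * 0) / ℓ + 2 * 0) ^ 3 * X) / (L + 2) ^ 3)) := by
      refine Tendsto.div_const (Tendsto.add ?_ (Tendsto.mul_const _ (Tendsto.pow ?_ 3))) _
      · exact Tendsto.const_mul _ (hinv.pow 3)
      · exact ((tendsto_const_nhds.sub (hinv.const_mul 2)).div_const _).add (hinv.const_mul 2)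
    have h2 : (D * (0 : ℝ) ^ 3 + (((L + 2) - 2 * 0) / ℓ + 2 * 0) ^ 3 * X) / (L + 2) ^ 3 =
        X / (ℓ : ℝ) ^ 3 := by
      field_simp
      ring
    rw [h2] at h1
    refine h1.congr' ?_
    filter_upwards [eventually_ge_atTop 1] with j hj1
    have hj0 : (0 : ℝ) < j := by exact_mod_cast hj1
    field_simp
  refine ge_of_tendsto hlim ?_
  filter_upwards [eventually_ge_atTop 1] with j hj1
  exact hj j hj1

end Crest.Agent.R149.LPU
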