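import Mathlib
import Crest.Agent.R149.CellFactor
import Crest.Agent.R149.Attraction
import Crest.Agent.R149.LPUpperA

/-!
# LPUpper, tail: blocks with more than `16 K ℓ³` particles
-/

set_option autoImplicit false

open MeasureTheory Crest.ProbabilityR.Continuum
open scoped ENNReal

namespace Crest.Agent.R149.LPU

theorem cell_half_range {ℓ : ℕ} {y : Pt} (hy : y ∈ hcube (ℓ : ℝ)) (k : Fin 3) :
    0 ≤ cell (1 / 2) 0 y k ∧ cell (1 / 2) 0 y k < (2 * ℓ : ℤ) := by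
  obtain ⟨h1, h2⟩ := hy k
  unfold cell
  simp only [Pi.zero_apply, add_zero]
  constructor
  · exact Int.floor_nonneg.2 (by positivity)
  · rw [Int.floor_lt]
    push_cast
    rw [div_lt_iff₀ (by norm_num)]
    linarith

theorem sq_card_le_aux {n : ℕ} (f : Fin n → (Fin 3 → ℤ)) (B : ℝ)
    (hcard : ((Finset.univ.image f).card : ℝ) ≤ B) :
    (n : ℝ) ^ 2 ≤ B * ∑ c ∈ Finset.univ.image f,
      (((Finset.univ : Finset (Fin n)).filter (fun i => f i = c)).card : ℝ) ^ 2 := by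
  have hsum : (n : ℝ) = ∑ c ∈ Finset.univ.image f,
      (((Finset.univ : Finset (Fin n)).filter (fun i => f i = c)).card : ℝ) := by
    have h := Finset.card_eq_sum_card_image f (Finset.univ : Finset (Fin n))
    rw [Finset.card_univ, Fintype.card_fin] at h
    exact_mod_cast h
  have hcs := sq_sum_le_card_mul_sum_sq (s := Finset.univ.image f)
    (f := fun c => (((Finset.univ : Finset (Fin n)).filter (fun i => f i = c)).card : ℝ))
  rw [← hsum] at hcs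
  refine hcs.trans (mul_le_mul_of_nonneg_right hcard ?_)
  exact Finset.sum_nonneg (fun i _ => sq_nonneg _)

theorem card_box (ℓ : ℕ) :
    (Fintype.piFinset (fun _ : Fin 3 => Finset.Ico (0 : ℤ) (2 * ℓ))).card = (2 * ℓ) ^ 3 := by
  rw [Fintype.card_piFinset]
  have h : (Finset.Ico (0 : ℤ) (2 * ℓ)).card = 2 * ℓ := by
    rw [Int.card_Ico]; omega
  simp only [h, Finset.prod_const, Finset.card_univ, Fintype.card_fin]

theorem N2_ge {ℓ : ℕ} (hℓ : 1 ≤ ℓ) {n : ℕ} (x : Fin n → Pt) (hx : ∀ i, x i ∈ hcube (ℓ : ℝ)) :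
    (n : ℝ) ^ 2 / (8 * (ℓ : ℝ) ^ 3) ≤ N2 (1 / 2) 0 x := by
  classical
  have h1 := Attraction.sum_sq_card_fiber (Finset.univ : Finset (Fin n))
    (fun i => cell (1 / 2) 0 (x i))
  have hsub : Finset.univ.image (fun i : Fin n => cell (1 / 2) 0 (x i)) ⊆
      Fintype.piFinset (fun _ : Fin 3 => Finset.Ico (0 : ℤ) (2 * ℓ)) := by
    intro v hv
    obtain ⟨i, _, rfl⟩ := Finset.mem_image.1 hv
    rw [Fintype.mem_piFinset]
    intro k
    rw [Finset.mem_Ico]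
    exact cell_half_range (hx i) k
  have hcard : ((Finset.univ.image (fun i : Fin n => cell (1 / 2) 0 (x i))).card : ℝ) ≤
      8 * (ℓ : ℝ) ^ 3 := by
    have h3 := Finset.card_le_card hsub
    rw [card_box] at h3
    have h5 : ((Finset.univ.image (fun i : Fin n => cell (1 / 2) 0 (x i))).card : ℝ) ≤
      ((2 * ℓ) ^ 3 : ℕ) := by exact_mod_cast h3
    refine h5.trans (le_of_eq ?_)
    push_cast; ring
  have h2 := sq_card_le_aux (fun i : Fin n => cell (1 / 2) 0 (x i)) _ hcard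
  have hl : (0 : ℝ) < ℓ := by exact_mod_cast hℓ
  rw [div_le_iff₀ (by positivity), mul_comm]
  refine h2.trans (le_of_eq ?_)
  exact congrArg _ h1

/-- pure arithmetic behind `FB_le` -/
theorem arith_aux {U A N n K M L3 b k g a1 H : ℝ} (hK : 1 ≤ K) (ha1 : 0 < a1) (hL : 1 ≤ L3)
    (hn : 16 * K * L3 < n) (hH : 0 ≤ H) (hM : 8 * H + 100000 * K * a1 ≤ M)
    (hb1 : 1 / 2 ≤ b) (hb2 : b ≤ 3 / 2) (hk : 0 ≤ k) (hk1 : k ≤ 1 / 3) (_hg : 0 ≤ g)
    (hg1 : g ≤ 365 * b * a1 / L3)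
    (s1 : M * (N / (2 * K) - n / 2) ≤ U) (s2 : n ^ 2 / (8 * L3) ≤ N) (sA : A ≤ a1 * N) :
    -b * U + b * (1 + k) * A + g * n ^ 2 ≤ -(H * n) := by
  have hK0 : 0 < K := by linarith
  have hL0 : 0 < L3 := by linarith
  have hKa : 0 < K * a1 := mul_pos hK0 ha1
  have hM0 : 0 < M := by nlinarith only [hKa, hM, hH]
  have hb0 : 0 < b := by linarith
  have hn0 : 0 < n := lt_trans (by positivity) hn
  -- q = n^2/(16 K L3)
  obtain ⟨q, hq⟩ : ∃ q : ℝ, q = n ^ 2 / (16 * K * L3) := ⟨_, rfl⟩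
  have hq0 : 0 ≤ q := by rw [hq]; positivity
  have e1 : n ≤ q := by
    rw [hq, le_div_iff₀ (by positivity)]
    have := mul_le_mul_of_nonneg_left hn.le hn0.le
    nlinarith only [this]
  have e2 : n ^ 2 / (8 * L3) = 2 * K * q := by
    rw [hq]; field_simp; ring
  rw [e2] at s2
  have e3 : q ≤ N / (2 * K) := by
    rw [le_div_iff₀ (by positivity)]; linarith
  have e4 : M * (q / 2) ≤ U := by
    refine le_trans (mul_le_mul_of_nonneg_left ?_ hM0.le) s1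
    linarith
  have e5 : M * (n / 2) ≤ U := by
    refine le_trans (mul_le_mul_of_nonneg_left ?_ hM0.le) e4
    linarith
  have hU0 : 0 ≤ U := le_trans (by positivity) e5
  have e6 : N ≤ 2 * K * (U / M) + K * n := by
    have h1 : N / (2 * K) - n / 2 ≤ U / M := by
      rw [le_div_iff₀ hM0]; linarith
    have h2 : N / (2 * K) ≤ U / M + n / 2 := by linarith
    rw [div_le_iff₀ (by positivity)] at h2
    linarith
  have hM8 : 8 * (K * a1) ≤ M := by nlinarith only [hKa, hM, hH]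
  have hUM : U / M * (8 * (K * a1)) ≤ U := by
    rw [div_mul_eq_mul_div, div_le_iff₀ hM0]
    exact mul_le_mul_of_nonneg_left hM8 hU0
  have e7 : A ≤ U / 4 + K * a1 * n := by
    have h1 : a1 * N ≤ a1 * (2 * K * (U / M) + K * n) := mul_le_mul_of_nonneg_left e6 ha1.le
    have h2 : a1 * (2 * K * (U / M) + K * n) = (U / M * (8 * (K * a1))) / 4 + K * a1 * n := by ring
    linarith
  have e8 : g * n ^ 2 ≤ b * (U / 6) := by
    have h1 : g * n ^ 2 ≤ 365 * b * a1 / L3 * n ^ 2 :=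
      mul_le_mul_of_nonneg_right hg1 (by positivity)
    have h2 : 365 * b * a1 / L3 * n ^ 2 = b * (11680 * (K * a1) * (q / 2)) := by
      rw [hq]; field_simp; ring
    have h4 : 70080 * (K * a1) ≤ M := by nlinarith only [hKa, hM, hH]
    have h5 : 70080 * (K * a1) * (q / 2) ≤ M * (q / 2) :=
      mul_le_mul_of_nonneg_right h4 (by positivity)
    have h3 : 11680 * (K * a1) * (q / 2) ≤ U / 6 := by linarith
    have h6 : b * (11680 * (K * a1) * (q / 2)) ≤ b * (U / 6) :=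
      mul_le_mul_of_nonneg_left h3 hb0.le
    linarith
  have hA0 : 0 ≤ U / 4 + K * a1 * n := by positivity
  have e9 : b * (1 + k) * A ≤ b * (4 / 3) * (U / 4 + K * a1 * n) := by
    have h1 : b * (1 + k) * A ≤ b * (1 + k) * (U / 4 + K * a1 * n) :=
      mul_le_mul_of_nonneg_left e7 (mul_nonneg hb0.le (by linarith))
    have h2 : b * (1 + k) * (U / 4 + K * a1 * n) ≤ b * (4 / 3) * (U / 4 + K * a1 * n) :=
      mul_le_mul_of_nonneg_right (mul_le_mul_of_nonneg_left (by linarith) hb0.le) hA0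
    linarith
  have e10 : -b * U + b * (1 + k) * A + g * n ^ 2 ≤
      -(b * U / 2) + b * (4 / 3) * (K * a1 * n) := by
    have h1 : b * (4 / 3) * (U / 4 + K * a1 * n) = b * U / 3 + b * (4 / 3) * (K * a1 * n) := by
      ring
    have h2 : b * (U / 6) = b * U / 6 := by ring
    have h3 : -b * U = -(b * U) := by ring
    linarith
  have hKan : 0 ≤ K * a1 * n := by positivity
  have e11 : b * (4 / 3) * (K * a1 * n) ≤ 2 * (K * a1 * n) := by
    refine mul_le_mul_of_nonneg_right ?_ hKan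
    linarith
  have e12 : M * (n / 2) / 4 ≤ b * U / 2 := by
    have h1 : 1 / 2 * (M * (n / 2)) ≤ b * U :=
      mul_le_mul hb1 e5 (by positivity) hb0.le
    linarith
  have e13 : (H + 2 * (K * a1)) * n ≤ M * (n / 2) / 4 := by
    have h1 : (H + 2 * (K * a1)) * 8 ≤ M := by nlinarith only [hKa, hM, hH]
    have h2 : (H + 2 * (K * a1)) * 8 * n ≤ M * n := mul_le_mul_of_nonneg_right h1 hn0.le
    linarith
  have e14 : (H + 2 * (K * a1)) * n = H * n + 2 * (K * a1 * n) := by ring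
  linarith

/-- pointwise bound on a block with many particles -/
theorem FB_le (hSS : SuperStabStmt) {K : ℕ} {a1 H : ℝ} (hK : 1 ≤ K) (ha1 : 0 < a1)
    {c α : ℝ → ℝ} {M : ℝ} (hc : CoreOK c) (hcK : CoreK c K M)
    (hM : 8 * |H| + 100000 * K * a1 ≤ M) (hα : AttrBound α a1) {β κ γ : ℝ} {ℓ n : ℕ}
    (hβ1 : 1 / 2 ≤ β) (hβ2 : β ≤ 3 / 2) (hκ : 0 ≤ κ) (hκ1 : κ ≤ 1 / 3) (hγ : 0 ≤ γ)
    (hγ1 : γ ≤ 365 * β * a1 / (ℓ : ℝ) ^ 3) (hℓ : 1 ≤ ℓ) (hn : 16 * (K : ℝ) * (ℓ : ℝ) ^ 3 < n)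
    (x : Fin n → Pt) (hx : ∀ i, x i ∈ hcube (ℓ : ℝ)) :
    FB c α β κ γ (Fin n) x ≤ -(|H| * n) := by
  have hKr : (1 : ℝ) ≤ K := by exact_mod_cast hK
  have hl : (1 : ℝ) ≤ ℓ := by exact_mod_cast hℓ
  have hl3 : (1 : ℝ) ≤ (ℓ : ℝ) ^ 3 := one_le_pow₀ hl
  have hM0 : 0 ≤ M := by
    have h1 := abs_nonneg H
    have h2 : 0 < (K : ℝ) * a1 := by positivity
    linarith
  have s1 := hSS c K M hc.nonneg hK hM0 hcK (Fin n) x
  rw [Fintype.card_fin] at s1
  have s2 := N2_ge hℓ x hx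
  have sA := hα.2 (Fin n) x
  have h := arith_aux hKr ha1 hl3 hn (abs_nonneg H) hM hβ1 hβ2 hκ hκ1 hγ hγ1 s1 s2 sA
  have hFB : FB c α β κ γ (Fin n) x =
      -β * U c x + β * (1 + κ) * A α x + γ * (n : ℝ) ^ 2 := by
    unfold FB
    rw [Fintype.card_fin]
  rw [hFB]
  exact h

theorem volume_hcube_le (ℓ : ℕ) : volume (hcube (ℓ : ℝ)) ≤ ENNReal.ofReal ((ℓ : ℝ) ^ 3) := by
  refine le_trans (measure_mono (hcube_subset _)) ?_
  rw [volume_cube, ENNReal.ofReal_pow (Nat.cast_nonneg _)]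

theorem tail_term (hSS : SuperStabStmt) (K : ℕ) (a1 H : ℝ) (hK : 1 ≤ K) (ha1 : 0 < a1) :
    ∃ M0 : ℝ, 0 ≤ M0 ∧ ∀ (c α : ℝ → ℝ) (M : ℝ), CoreOK c → CoreK c K M → M0 ≤ M → AttrOK α →
      AttrBound α a1 → ∀ (β κ γ : ℝ) (ℓ n : ℕ), 1 / 2 ≤ β → β ≤ 3 / 2 → 0 ≤ κ → κ ≤ 1 / 3 → 0 ≤ γ →
      γ ≤ 365 * β * a1 / (ℓ : ℝ) ^ 3 → 1 ≤ ℓ → 16 * (K : ℝ) * (ℓ : ℝ) ^ 3 < n → ∀ h ≤ H,
      ENNReal.ofReal (Real.exp (h * n)) * ZF (FB c α β κ γ) (hcube ℓ) n ≤
        ENNReal.ofReal ((Real.exp 1 / 16) ^ n) := by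
  refine ⟨8 * |H| + 100000 * K * a1, by positivity, ?_⟩
  intro c α M hc hcK hM hαok hα β κ γ ℓ n hβ1 hβ2 hκ hκ1 hγ hγ1 hℓ hn h hh
  have hKr : (1 : ℝ) ≤ K := by exact_mod_cast hK
  have hl : (1 : ℝ) ≤ ℓ := by exact_mod_cast hℓ
  have hl3 : (1 : ℝ) ≤ (ℓ : ℝ) ^ 3 := one_le_pow₀ hl
  have hpt : ∀ x : Fin n → Pt, (∀ i, x i ∈ hcube (ℓ : ℝ)) →
      FB c α β κ γ (Fin n) x ≤ -(h * n) := by
    intro x hx
    refine le_trans (FB_le hSS hK ha1 hc hcK hM hα hβ1 hβ2 hκ hκ1 hγ hγ1 hℓ hn x hx) ?_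
    have h1 : h ≤ |H| := hh.trans (le_abs_self H)
    have h2 : h * n ≤ |H| * n := mul_le_mul_of_nonneg_right h1 (Nat.cast_nonneg n)
    linarith
  have hint : ∫⁻ x in Set.pi Set.univ (fun _ : Fin n => hcube (ℓ : ℝ)),
      ENNReal.ofReal (Real.exp (FB c α β κ γ (Fin n) x)) ≤
      ENNReal.ofReal (Real.exp (-(h * n))) * ENNReal.ofReal (((ℓ : ℝ) ^ 3) ^ n) := by
    calc ∫⁻ x in Set.pi Set.univ (fun _ : Fin n => hcube (ℓ : ℝ)),
          ENNReal.ofReal (Real.exp (FB c α β κ γ (Fin n) x))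
        ≤ ∫⁻ _ in Set.pi Set.univ (fun _ : Fin n => hcube (ℓ : ℝ)),
            ENNReal.ofReal (Real.exp (-(h * n))) := by
          refine setLIntegral_mono' (MeasurableSet.univ_pi (fun _ => measurableSet_hcube _))
            (fun x hx => ?_)
          exact ENNReal.ofReal_le_ofReal (Real.exp_le_exp.2
            (hpt x (fun i => hx i (Set.mem_univ i))))
      _ = ENNReal.ofReal (Real.exp (-(h * n))) * volume (hcube (ℓ : ℝ)) ^ n := by
          rw [lintegral_const, Measure.restrict_apply_univ, volume_pi, Measure.pi_pi]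
          simp
      _ ≤ ENNReal.ofReal (Real.exp (-(h * n))) * ENNReal.ofReal (((ℓ : ℝ) ^ 3) ^ n) := by
          refine mul_le_mul' le_rfl ?_
          rw [ENNReal.ofReal_pow (by positivity)]
          exact pow_le_pow_left' (volume_hcube_le ℓ) n
  unfold ZF
  calc ENNReal.ofReal (Real.exp (h * n)) * ((n.factorial : ℝ≥0∞)⁻¹ *
        ∫⁻ x in Set.pi Set.univ (fun _ : Fin n => hcube (ℓ : ℝ)),
          ENNReal.ofReal (Real.exp (FB c α β κ γ (Fin n) x)))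
      ≤ ENNReal.ofReal (Real.exp (h * n)) * ((n.factorial : ℝ≥0∞)⁻¹ *
        (ENNReal.ofReal (Real.exp (-(h * n))) * ENNReal.ofReal (((ℓ : ℝ) ^ 3) ^ n))) :=
        mul_le_mul' le_rfl (mul_le_mul' le_rfl hint)
    _ = (ENNReal.ofReal (Real.exp (h * n)) * ENNReal.ofReal (Real.exp (-(h * n)))) *
        ((n.factorial : ℝ≥0∞)⁻¹ * ENNReal.ofReal (((ℓ : ℝ) ^ 3) ^ n)) := by ring
    _ = (n.factorial : ℝ≥0∞)⁻¹ * ENNReal.ofReal (((ℓ : ℝ) ^ 3) ^ n) := by
        rw [← ENNReal.ofReal_mul (Real.exp_nonneg _), ← Real.exp_add, add_neg_cancel, Real.exp_zero,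
          ENNReal.ofReal_one, one_mul]
    _ = ENNReal.ofReal (((ℓ : ℝ) ^ 3) ^ n / n.factorial) := by
        rw [ENNReal.ofReal_div_of_pos (by positivity), ENNReal.div_eq_inv_mul,
          ENNReal.ofReal_natCast]
    _ ≤ ENNReal.ofReal ((Real.exp 1 / 16) ^ n) := by
        refine ENNReal.ofReal_le_ofReal ?_
        have h1 := Real.pow_div_factorial_le_exp (16 * (ℓ : ℝ) ^ 3) (by positivity) n
        have h2 : (16 : ℝ) * (ℓ : ℝ) ^ 3 ≤ n := by nlinarith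
        have h3 : Real.exp (16 * (ℓ : ℝ) ^ 3) ≤ Real.exp 1 ^ n := by
          rw [← Real.exp_nat_mul, mul_one]
          exact Real.exp_le_exp.2 h2
        have h4 : ((ℓ : ℝ) ^ 3) ^ n / n.factorial =
            (16 * (ℓ : ℝ) ^ 3) ^ n / n.factorial / 16 ^ n := by
          rw [mul_pow]
          field_simp
        rw [h4, div_pow]
        exact div_le_div_of_nonneg_right (h1.trans h3) (by positivity)

end Crest.Agent.R149.LPU
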