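import Mathlib
import Crest.Agent.R149.Blocks

/-!
Pair energy on multisets of points, Boltzmann weight, and relation with `Continuum.partitionFn`.
-/

set_option autoImplicit false

open MeasureTheory Crest.ProbabilityR.Continuum
open scoped ENNReal

namespace Crest.Agent.R149

/-- cross sum -/
noncomputable def Cross (φ : ℝ → ℝ) (s t : Multiset Pt) : ℝ :=
  (s.map fun x => (t.map fun y => φ (dist x y)).sum).sum

/-- pair energy of a finite multiset of points -/
noncomputable def En (φ : ℝ → ℝ) (s : Multiset Pt) : ℝ := (Cross φ s s - s.card * φ 0) / 2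

theorem Cross_add_left (φ : ℝ → ℝ) (s s' t : Multiset Pt) :
    Cross φ (s + s') t = Cross φ s t + Cross φ s' t := by
  simp [Cross]

theorem Cross_add_right (φ : ℝ → ℝ) (s t t' : Multiset Pt) :
    Cross φ s (t + t') = Cross φ s t + Cross φ s t' := by
  simp [Cross, Multiset.sum_map_add]

theorem Cross_comm (φ : ℝ → ℝ) (s t : Multiset Pt) : Cross φ s t = Cross φ t s := by
  induction s using Multiset.induction_on with
  | empty => simp [Cross]
  | cons a s ih =>
    have h1 : Cross φ (a ::ₘ s) t = Cross φ {a} t + Cross φ s t := by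
      rw [← Multiset.singleton_add, Cross_add_left]
    have h2 : Cross φ t (a ::ₘ s) = Cross φ t {a} + Cross φ t s := by
      rw [← Multiset.singleton_add, Cross_add_right]
    rw [h1, h2, ih]
    congr 1
    simp [Cross, dist_comm]

theorem En_add (φ : ℝ → ℝ) (s t : Multiset Pt) :
    En φ (s + t) = En φ s + En φ t + Cross φ s t := by
  unfold En
  rw [Cross_add_left, Cross_add_right, Cross_add_right, Cross_comm φ t s, Multiset.card_add]
  push_cast; ring

theorem En_zero (φ : ℝ → ℝ) : En φ 0 = 0 := by simp [En, Cross]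

theorem En_singleton (φ : ℝ → ℝ) (a : Pt) : En φ {a} = 0 := by simp [En, Cross]

theorem multiset_sum_nonpos {m : Multiset ℝ} (h : ∀ a ∈ m, a ≤ 0) : m.sum ≤ 0 := by
  induction m using Multiset.induction_on with
  | empty => simp
  | cons a m ih =>
    rw [Multiset.sum_cons]
    have h1 := h a (Multiset.mem_cons_self a m)
    have h2 := ih (fun b hb => h b (Multiset.mem_cons_of_mem hb))
    linarith

theorem Cross_nonpos {φ : ℝ → ℝ} {s t : Multiset Pt} (h : ∀ x ∈ s, ∀ y ∈ t, φ (dist x y) ≤ 0) :
    Cross φ s t ≤ 0 := by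
  unfold Cross
  refine multiset_sum_nonpos ?_
  intro a ha
  obtain ⟨x, hx, rfl⟩ := Multiset.mem_map.1 ha
  refine multiset_sum_nonpos ?_
  intro b hb
  obtain ⟨y, hy, rfl⟩ := Multiset.mem_map.1 hb
  exact h x hx y hy

theorem Cross_mset (φ : ℝ → ℝ) {ι κ : Type*} [Fintype ι] [Fintype κ] (x : ι → Pt) (y : κ → Pt) :
    Cross φ (mset x) (mset y) = ∑ i, ∑ j, φ (dist (x i) (y j)) := by
  unfold Cross mset
  simp only [Multiset.map_map, Function.comp_def]
  rfl

theorem En_mset (φ : ℝ → ℝ) {N : ℕ} (x : Fin N → Pt) : En φ (mset x) = energy φ x := by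
  unfold En energy
  rw [Cross_mset, card_mset, Fintype.card_fin]
  have h1 : ∑ i : Fin N, ∑ j : Fin N, φ (dist (x i) (x j)) =
      ∑ p : Fin N × Fin N, φ (dist (x p.1) (x p.2)) := by
    rw [Fintype.sum_prod_type]
  have h2 : ∑ p : Fin N × Fin N, φ (dist (x p.1) (x p.2)) =
      ∑ p ∈ Finset.univ.filter (fun p : Fin N × Fin N => p.1 < p.2), φ (dist (x p.1) (x p.2)) +
      ∑ p ∈ Finset.univ.filter (fun p : Fin N × Fin N => p.2 < p.1), φ (dist (x p.1) (x p.2)) +
      ∑ p ∈ Finset.univ.filter (fun p : Fin N × Fin N => p.1 = p.2), φ (dist (x p.1) (x p.2)) := by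
    rw [← Finset.sum_filter_add_sum_filter_not Finset.univ (fun p : Fin N × Fin N => p.1 < p.2)]
    rw [add_assoc]
    congr 1
    rw [← Finset.sum_filter_add_sum_filter_not
      (Finset.univ.filter (fun p : Fin N × Fin N => ¬ p.1 < p.2)) (fun p : Fin N × Fin N => p.2 < p.1)]
    congr 1
    · refine Finset.sum_congr ?_ (fun _ _ => rfl)
      ext p; simp only [Finset.mem_filter, Finset.mem_univ, true_and]; omega
    · refine Finset.sum_congr ?_ (fun _ _ => rfl)
      ext p; simp only [Finset.mem_filter, Finset.mem_univ, true_and]; omega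
  have h3 : ∑ p ∈ Finset.univ.filter (fun p : Fin N × Fin N => p.2 < p.1), φ (dist (x p.1) (x p.2)) =
      ∑ p ∈ Finset.univ.filter (fun p : Fin N × Fin N => p.1 < p.2), φ (dist (x p.1) (x p.2)) := by
    refine Finset.sum_nbij' (fun p => (p.2, p.1)) (fun p => (p.2, p.1)) ?_ ?_ ?_ ?_ ?_
    · intro p hp; simpa using hp
    · intro p hp; simpa using hp
    · intro p _; rfl
    · intro p _; rfl
    · intro p _; rw [dist_comm]
  have h4 : ∑ p ∈ Finset.univ.filter (fun p : Fin N × Fin N => p.1 = p.2), φ (dist (x p.1) (x p.2)) =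
      N * φ 0 := by
    have : ∑ p ∈ Finset.univ.filter (fun p : Fin N × Fin N => p.1 = p.2), φ (dist (x p.1) (x p.2)) =
        ∑ i : Fin N, φ 0 := by
      refine Finset.sum_nbij' (fun p => p.1) (fun i => (i, i)) ?_ ?_ ?_ ?_ ?_
      · intro p hp; simp
      · intro p hp; simp
      · rintro ⟨a, b⟩ hp
        simp only [Finset.mem_filter, Finset.mem_univ, true_and] at hp
        simp [hp]
      · intro p _; rfl
      · rintro ⟨a, b⟩ hp
        simp only [Finset.mem_filter, Finset.mem_univ, true_and] at hp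
        simp [hp]
    rw [this]; simp
  have h5 : ∑ p : {p : Fin N × Fin N // p.1 < p.2}, φ (dist (x (p : Fin N × Fin N).1) (x (p : Fin N × Fin N).2)) =
      ∑ p ∈ Finset.univ.filter (fun p : Fin N × Fin N => p.1 < p.2), φ (dist (x p.1) (x p.2)) := by
    rw [← Finset.sum_subtype_eq_sum_filter]
    simp
  rw [h1, h2, h3, h4, h5]
  ring

theorem MMeas_Cross_self {φ : ℝ → ℝ} (hφ : Measurable φ) : MMeas (fun s => Cross φ s s) := by
  intro n
  simp only [Cross_mset]
  refine Finset.measurable_sum _ (fun i _ => Finset.measurable_sum _ (fun j _ => ?_))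
  exact hφ.comp ((measurable_pi_apply i).dist (measurable_pi_apply j))

theorem MMeas_card : MMeas (fun s => (s.card : ℝ)) := by
  intro n
  simp only [card_mset]
  exact measurable_const

theorem MMeas_En {φ : ℝ → ℝ} (hφ : Measurable φ) : MMeas (En φ) := by
  intro n
  have h1 := MMeas_Cross_self hφ n
  have h2 := MMeas_card n
  exact (h1.sub (h2.mul_const (φ 0))).div_const 2

/-- Boltzmann weight -/
noncomputable def wt (β : ℝ) (φ : ℝ → ℝ) (s : Multiset Pt) : ℝ≥0∞ :=
  ENNReal.ofReal (Real.exp (-β * En φ s))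

theorem MMeas_wt {φ : ℝ → ℝ} (hφ : Measurable φ) (β : ℝ) : MMeas (wt β φ) := by
  intro n
  exact ((MMeas_En hφ n).const_mul (-β)).exp.ennreal_ofReal

theorem wt_zero (β : ℝ) (φ : ℝ → ℝ) : wt β φ 0 = 1 := by simp [wt, En_zero]

theorem wt_add (β : ℝ) (φ : ℝ → ℝ) (s t : Multiset Pt) :
    wt β φ (s + t) = wt β φ s * wt β φ t * ENNReal.ofReal (Real.exp (-β * Cross φ s t)) := by
  unfold wt
  rw [En_add, ← ENNReal.ofReal_mul (Real.exp_nonneg _), ← ENNReal.ofReal_mul (by positivity),
    ← Real.exp_add, ← Real.exp_add]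
  congr 2; ring

theorem measurableSet_cube (L : ℝ) : MeasurableSet (cube L) := by
  unfold cube
  rw [Set.ofPred_forall]
  refine MeasurableSet.iInter (fun k => ?_)
  have h : Measurable (fun x : Pt => x k) := by fun_prop
  exact (measurableSet_le measurable_const h).inter (measurableSet_le h measurable_const)

theorem partitionFn_eq {φ : ℝ → ℝ} (hφ : Measurable φ) (L : ℝ) (N : ℕ) (β : ℝ) :
    partitionFn φ L N β = (Zm (volume.restrict (cube L)) N (wt β φ)).toReal := by
  unfold partitionFn Zm
  rw [ENNReal.toReal_mul, ENNReal.toReal_inv, ENNReal.toReal_natCast, one_div]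
  congr 1
  rw [← Measure.restrict_pi_pi]
  have hm : Measurable (fun x : Fin N → Pt => Real.exp (-β * energy φ x)) := by
    have h1 := ((MMeas_En hφ N).const_mul (-β)).exp
    simp only [En_mset] at h1
    exact h1
  rw [integral_eq_lintegral_of_nonneg_ae (Filter.Eventually.of_forall (fun x => (Real.exp_nonneg _)))
    hm.aestronglyMeasurable]
  congr 1
  refine lintegral_congr (fun x => ?_)
  unfold wt
  rw [En_mset]

end Crest.Agent.R149
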