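import Crest.Agent.R149.Stmts

/-!
# Row 149: convexity of `log Z` in `β` (Hölder) and the basic properties of the pressure.

`LZConvStmt` and `PrPropsStmt`, both from `LZPropsStmt`.
-/

set_option autoImplicit false

open MeasureTheory Crest.ProbabilityR.Continuum Filter Topology
open scoped ENNReal

namespace Crest.Agent.R149

namespace PrAux

lemma measurable_SS {g : ℝ → ℝ} (hg : Measurable g) (ι : Type) [Fintype ι] :
    Measurable (fun x : ι → Pt => SS g x) := by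
  unfold SS
  refine Finset.measurable_sum _ fun i _ => Finset.measurable_sum _ fun j _ => ?_
  exact hg.comp ((measurable_pi_apply i).dist (measurable_pi_apply j))

lemma measurable_Ham {c α : ℝ → ℝ} (hc : Measurable c) (hα : Measurable α) (ι : Type)
    [Fintype ι] : Measurable (fun x : ι → Pt => Ham c α x) := by
  unfold Ham U A
  exact (((measurable_SS hc ι).sub measurable_const).div_const 2).sub
    ((measurable_SS hα ι).div_const 2)

/-- Hölder's inequality for the partition sum. -/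
lemma ZF_holder {c α : ℝ → ℝ} (hc : Measurable c) (hα : Measurable α) (S : Set Pt) (n : ℕ)
    {β₁ β₂ a b : ℝ} (ha : 0 ≤ a) (hb : 0 ≤ b) (hab : a + b = 1) :
    ZF (HF c α (a * β₁ + b * β₂)) S n ≤ ZF (HF c α β₁) S n ^ a * ZF (HF c α β₂) S n ^ b := by
  set k : ℝ≥0∞ := (n.factorial : ℝ≥0∞)⁻¹ with hk
  have hk0 : k ≠ 0 := by
    rw [hk, Ne, ENNReal.inv_eq_zero]
    exact ENNReal.natCast_ne_top _
  have hkt : k ≠ ⊤ := by
    rw [hk, Ne, ENNReal.inv_eq_top]
    exact_mod_cast n.factorial_ne_zero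
  have hm : ∀ β : ℝ, Measurable (fun x : Fin n → Pt =>
      ENNReal.ofReal (Real.exp (HF c α β (Fin n) x))) := by
    intro β
    unfold HF
    exact ((Real.measurable_exp.comp ((measurable_Ham hc hα (Fin n)).const_mul (-β)))).ennreal_ofReal
  have key := ENNReal.lintegral_mul_norm_pow_le
    (μ := (volume : Measure (Fin n → Pt)).restrict (Set.pi Set.univ (fun _ : Fin n => S)))
    (hm β₁).aemeasurable (hm β₂).aemeasurable ha hb hab
  have hpt : ∀ x : Fin n → Pt,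
      ENNReal.ofReal (Real.exp (HF c α β₁ (Fin n) x)) ^ a *
        ENNReal.ofReal (Real.exp (HF c α β₂ (Fin n) x)) ^ b =
      ENNReal.ofReal (Real.exp (HF c α (a * β₁ + b * β₂) (Fin n) x)) := by
    intro x
    rw [ENNReal.ofReal_rpow_of_pos (Real.exp_pos _), ENNReal.ofReal_rpow_of_pos (Real.exp_pos _),
      ← Real.exp_mul, ← Real.exp_mul, ← ENNReal.ofReal_mul (Real.exp_pos _).le, ← Real.exp_add]
    congr 2
    simp only [HF]
    ring
  simp only [hpt] at key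
  unfold ZF
  rw [← hk, ENNReal.mul_rpow_of_nonneg _ _ ha, ENNReal.mul_rpow_of_nonneg _ _ hb]
  have hkk : k ^ a * k ^ b = k := by
    rw [← ENNReal.rpow_add _ _ hk0 hkt, hab, ENNReal.rpow_one]
  calc k * ∫⁻ x in Set.pi Set.univ (fun _ : Fin n => S),
        ENNReal.ofReal (Real.exp (HF c α (a * β₁ + b * β₂) (Fin n) x))
      ≤ k * ((∫⁻ x in Set.pi Set.univ (fun _ : Fin n => S),
          ENNReal.ofReal (Real.exp (HF c α β₁ (Fin n) x))) ^ a *
        (∫⁻ x in Set.pi Set.univ (fun _ : Fin n => S),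
          ENNReal.ofReal (Real.exp (HF c α β₂ (Fin n) x))) ^ b) := by gcongr
    _ = (k ^ a * k ^ b) * ((∫⁻ x in Set.pi Set.univ (fun _ : Fin n => S),
          ENNReal.ofReal (Real.exp (HF c α β₁ (Fin n) x))) ^ a *
        (∫⁻ x in Set.pi Set.univ (fun _ : Fin n => S),
          ENNReal.ofReal (Real.exp (HF c α β₂ (Fin n) x))) ^ b) := by rw [hkk]
    _ = _ := by ring

/-- Convexity of the log-partition function in `β` from positivity and finiteness. -/
lemma lzConv_aux {c α : ℝ → ℝ} (hc : Measurable c) (hα : Measurable α) {L : ℝ} {n : ℕ}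
    (hpos : ∀ β, 0 < β → 0 < ZF (HF c α β) (cube L) n)
    (hfin : ∀ β, 0 < β → ZF (HF c α β) (cube L) n ≠ ⊤) :
    ConvexOn ℝ (Set.Ioi 0) (fun β => LZ c α β L n) := by
  refine ⟨convex_Ioi 0, ?_⟩
  intro β₁ h₁ β₂ h₂ a b ha hb hab
  simp only [Set.mem_Ioi] at h₁ h₂
  simp only [smul_eq_mul]
  have h₃ : 0 < a * β₁ + b * β₂ := by
    have := convex_Ioi (𝕜 := ℝ) (0 : ℝ) h₁ h₂ ha hb hab
    simpa using this
  have key := ZF_holder hc hα (cube L) n (β₁ := β₁) (β₂ := β₂) ha hb hab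
  unfold LZ
  have p₁ := ENNReal.toReal_pos (hpos _ h₁).ne' (hfin _ h₁)
  have p₂ := ENNReal.toReal_pos (hpos _ h₂).ne' (hfin _ h₂)
  have p₃ := ENNReal.toReal_pos (hpos _ h₃).ne' (hfin _ h₃)
  have hrt : ZF (HF c α β₁) (cube L) n ^ a * ZF (HF c α β₂) (cube L) n ^ b ≠ ⊤ :=
    ENNReal.mul_ne_top (ENNReal.rpow_ne_top_of_nonneg ha (hfin _ h₁))
      (ENNReal.rpow_ne_top_of_nonneg hb (hfin _ h₂))
  have key' := ENNReal.toReal_mono hrt key
  rw [ENNReal.toReal_mul, ← ENNReal.toReal_rpow, ← ENNReal.toReal_rpow] at key'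
  calc Real.log (ZF (HF c α (a * β₁ + b * β₂)) (cube L) n).toReal
      ≤ Real.log ((ZF (HF c α β₁) (cube L) n).toReal ^ a *
          (ZF (HF c α β₂) (cube L) n).toReal ^ b) := Real.log_le_log p₃ key'
    _ = a * Real.log (ZF (HF c α β₁) (cube L) n).toReal +
        b * Real.log (ZF (HF c α β₂) (cube L) n).toReal := by
        rw [Real.log_mul (Real.rpow_pos_of_pos p₁ a).ne' (Real.rpow_pos_of_pos p₂ b).ne',
          Real.log_rpow p₁, Real.log_rpow p₂]

end PrAux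

open PrAux

theorem lzConv (hLZ : LZPropsStmt) : LZConvStmt := by
  intro c α B hc hα hs L n hL
  exact lzConv_aux hc.meas hα.meas (fun β hβ => (hLZ c α B β hc hα hs hβ).pos L n hL)
    (fun β hβ => (hLZ c α B β hc hα hs hβ).fin L n hL)

namespace PrAux

/-- The supremand of the pressure. -/
noncomputable def prTerm (c α : ℝ → ℝ) (β h : ℝ) (q : ℕ × ℕ) : ℝ :=
  (h * q.2 + LZ c α β ((q.1 : ℝ) + 1) q.2) / ((q.1 : ℝ) + 3) ^ 3

lemma Pr_eq (c α : ℝ → ℝ) (β h : ℝ) : Pr c α β h = ⨆ q, prTerm c α β h q := rfl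

lemma prTerm_le {c α : ℝ → ℝ} {B β : ℝ} (hp : LZProps c α B β) (h : ℝ) (q : ℕ × ℕ) :
    prTerm c α β h q ≤ Real.exp (h + β * B) := by
  unfold prTerm
  have hq : (0 : ℝ) ≤ (q.1 : ℝ) := Nat.cast_nonneg _
  have hpos : (0 : ℝ) < ((q.1 : ℝ) + 3) ^ 3 := by positivity
  rw [div_le_iff₀ hpos]
  have h1 := hp.upper ((q.1 : ℝ) + 1) q.2 h (by positivity)
  have h2 : ((q.1 : ℝ) + 1) ^ 3 ≤ ((q.1 : ℝ) + 3) ^ 3 := by gcongr; norm_num
  calc h * q.2 + LZ c α β ((q.1 : ℝ) + 1) q.2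
      ≤ ((q.1 : ℝ) + 1) ^ 3 * Real.exp (h + β * B) := h1
    _ ≤ ((q.1 : ℝ) + 3) ^ 3 * Real.exp (h + β * B) := by gcongr
    _ = _ := mul_comm _ _

lemma prTerm_bdd {c α : ℝ → ℝ} {B β : ℝ} (hp : LZProps c α B β) (h : ℝ) :
    BddAbove (Set.range fun q : ℕ × ℕ => prTerm c α β h q) := by
  refine ⟨Real.exp (h + β * B), ?_⟩
  rintro _ ⟨q, rfl⟩
  exact prTerm_le hp h q

lemma prTerm_le_Pr {c α : ℝ → ℝ} {B β : ℝ} (hp : LZProps c α B β) (h : ℝ) (q : ℕ × ℕ) :
    prTerm c α β h q ≤ Pr c α β h := le_ciSup (prTerm_bdd hp h) q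

end PrAux

theorem prProps (hLZ : LZPropsStmt) : PrPropsStmt := by
  intro c α B hc hα hs
  have hP : ∀ β, 0 < β → LZProps c α B β := fun β hβ => hLZ c α B β hc hα hs hβ
  refine ⟨?_, ?_, ?_, ?_, ?_⟩
  · intro β h hβ
    exact prTerm_bdd (hP β hβ) h
  · have hconv : Convex ℝ {x : ℝ × ℝ | 0 < x.1} :=
      convex_halfSpace_gt (IsLinearMap.mk (fun _ _ => rfl) (fun _ _ => rfl)) 0
    refine ⟨hconv, ?_⟩
    rintro ⟨β₁, h₁⟩ hx₁ ⟨β₂, h₂⟩ hx₂ a b ha hb hab
    have hx₃ := hconv hx₁ hx₂ ha hb hab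
    simp only [Set.mem_ofPred_eq, Prod.smul_mk, Prod.mk_add_mk, smul_eq_mul] at hx₁ hx₂ hx₃ ⊢
    rw [Pr_eq c α (a * β₁ + b * β₂)]
    refine ciSup_le fun q => ?_
    have hL : (0 : ℝ) < (q.1 : ℝ) + 1 := by positivity
    have hcv := (lzConv hLZ c α B hc hα hs ((q.1 : ℝ) + 1) q.2 hL).2
      (Set.mem_Ioi.2 hx₁) (Set.mem_Ioi.2 hx₂) ha hb hab
    simp only [smul_eq_mul] at hcv
    have e₁ := prTerm_le_Pr (hP β₁ hx₁) h₁ q
    have e₂ := prTerm_le_Pr (hP β₂ hx₂) h₂ q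
    have e₃ : prTerm c α (a * β₁ + b * β₂) (a * h₁ + b * h₂) q ≤
        a * prTerm c α β₁ h₁ q + b * prTerm c α β₂ h₂ q := by
      unfold prTerm
      rw [mul_div_assoc', mul_div_assoc', ← add_div]
      refine div_le_div_of_nonneg_right ?_ (by positivity)
      linarith [hcv]
    calc prTerm c α (a * β₁ + b * β₂) (a * h₁ + b * h₂) q
        ≤ a * prTerm c α β₁ h₁ q + b * prTerm c α β₂ h₂ q := e₃
      _ ≤ a * Pr c α β₁ h₁ + b * Pr c α β₂ h₂ := by gcongr
  · intro β h h' hβ hh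
    rw [Pr_eq c α β h]
    refine ciSup_le fun q => ?_
    refine le_trans ?_ (prTerm_le_Pr (hP β hβ) h' q)
    unfold prTerm
    gcongr
  · intro β h hβ
    have := prTerm_le_Pr (hP β hβ) h (0, 0)
    simp only [prTerm, Nat.cast_zero, mul_zero, zero_add] at this
    rw [(hP β hβ).zero] at this
    simpa using this
  · intro β h hβ
    rw [Pr_eq c α β h]
    exact ciSup_le fun q => prTerm_le (hP β hβ) h q

end Crest.Agent.R149
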