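import Mathlib
import Crest.Agent.R149.LPConv
import Crest.Agent.R149.LPTail
import Crest.Agent.R149.Kernel
import Crest.Agent.R149.Attraction
import Crest.Agent.R149.SuperStab
import Crest.Agent.R149.LZProps
import Crest.Agent.R149.PrProps
import Crest.Agent.R149.SuperAdd

/-!
# Row 149: the upper bound for the pressure after adding one scale (`LPUpperStmt`)
-/

set_option autoImplicit false

namespace Crest.Agent.R149.LPU

theorem lpUpper' (hKer : KernelProps) (hE2 : E2Stmt) (hDec : DecoupleStmt) (hSS : SuperStabStmt)
    (hLZ : LZPropsStmt) (hPr : PrPropsStmt) (hSA : SuperAddStmt) : LPUpperStmt :=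
  lpUpper_of hKer hE2 hDec hSS hLZ hPr prCompare
    (fun K a1 H hK ha1 => tail_term hSS K a1 H hK ha1) (volBound hSA) logCount

theorem lpUpper : LPUpperStmt :=
  lpUpper' kernelProps (Attraction.e2 kernelProps) Attraction.decouple SuperStab.superStab
    lzProps (prProps lzProps) superAdd

end Crest.Agent.R149.LPU
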