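import Crest.Agent.R149.PrProps

/-!
# Row 149: convergence of the pressures along the scales (`LimStmt`).
-/

set_option autoImplicit false

open MeasureTheory Crest.ProbabilityR.Continuum Filter Topology
open scoped ENNReal

namespace Crest.Agent.R149

namespace LimAux

open PrAux

/-- Comparison of partition sums from a pointwise comparison of the weights. -/
lemma ZF_le_of_le {F G : Fam} {S : Set Pt} {n : ℕ} {κ : ℝ}
    (h : ∀ x : Fin n → Pt, F (Fin n) x ≤ G (Fin n) x + κ) :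
    ZF F S n ≤ ENNReal.ofReal (Real.exp κ) * ZF G S n := by
  unfold ZF
  have h1 : ∫⁻ x in Set.pi Set.univ (fun _ : Fin n => S),
        ENNReal.ofReal (Real.exp (F (Fin n) x)) ≤
      ENNReal.ofReal (Real.exp κ) * ∫⁻ x in Set.pi Set.univ (fun _ : Fin n => S),
        ENNReal.ofReal (Real.exp (G (Fin n) x)) := by
    rw [← lintegral_const_mul' _ _ ENNReal.ofReal_ne_top]
    refine lintegral_mono fun x => ?_
    rw [← ENNReal.ofReal_mul (Real.exp_pos _).le, ← Real.exp_add]
    refine ENNReal.ofReal_le_ofReal (Real.exp_le_exp.2 ?_)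
    linarith [h x]
  calc (n.factorial : ℝ≥0∞)⁻¹ * ∫⁻ x in Set.pi Set.univ (fun _ : Fin n => S),
        ENNReal.ofReal (Real.exp (F (Fin n) x))
      ≤ (n.factorial : ℝ≥0∞)⁻¹ * (ENNReal.ofReal (Real.exp κ) *
          ∫⁻ x in Set.pi Set.univ (fun _ : Fin n => S),
            ENNReal.ofReal (Real.exp (G (Fin n) x))) := by gcongr
    _ = _ := by ring

lemma LZ_le_of_le {c c' α α' : ℝ → ℝ} {β β' L κ : ℝ} {n : ℕ}
    (hpos : 0 < ZF (HF c α β) (cube L) n) (hfin : ZF (HF c' α' β') (cube L) n ≠ ⊤)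
    (h : ∀ x : Fin n → Pt, -β * Ham c α x ≤ -β' * Ham c' α' x + κ) :
    LZ c α β L n ≤ LZ c' α' β' L n + κ := by
  have h1 := ZF_le_of_le (F := HF c α β) (G := HF c' α' β') (S := cube L) (n := n) (κ := κ) h
  have hfin' : ENNReal.ofReal (Real.exp κ) * ZF (HF c' α' β') (cube L) n ≠ ⊤ :=
    ENNReal.mul_ne_top ENNReal.ofReal_ne_top hfin
  have hfin0 : ZF (HF c α β) (cube L) n ≠ ⊤ := ne_top_of_le_ne_top hfin' h1
  have hpos' : 0 < ZF (HF c' α' β') (cube L) n := by
    rcases eq_or_ne (ZF (HF c' α' β') (cube L) n) 0 with h0 | h0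
    · rw [h0, mul_zero] at h1
      exact absurd (lt_of_lt_of_le hpos h1) (lt_irrefl _)
    · exact pos_iff_ne_zero.2 h0
  have h2 := ENNReal.toReal_mono hfin' h1
  rw [ENNReal.toReal_mul, ENNReal.toReal_ofReal (Real.exp_pos _).le] at h2
  have p1 := ENNReal.toReal_pos hpos.ne' hfin0
  have p2 := ENNReal.toReal_pos hpos'.ne' hfin
  unfold LZ
  calc Real.log (ZF (HF c α β) (cube L) n).toReal
      ≤ Real.log (Real.exp κ * (ZF (HF c' α' β') (cube L) n).toReal) := Real.log_le_log p1 h2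
    _ = _ := by
      rw [Real.log_mul (Real.exp_pos _).ne' p2.ne', Real.log_exp]
      ring

/-- Comparison of pressures: if `-β Ham ≤ -β' Ham' + κ n` then `Pr β h ≤ Pr' β' (h + κ)`. -/
lemma Pr_le_of_le {c c' α α' : ℝ → ℝ} {B B' β β' κ : ℝ}
    (hp : LZProps c α B β) (hp' : LZProps c' α' B' β')
    (h : ∀ (n : ℕ) (x : Fin n → Pt), -β * Ham c α x ≤ -β' * Ham c' α' x + κ * n) (t : ℝ) :
    Pr c α β t ≤ Pr c' α' β' (t + κ) := by
  rw [Pr_eq c α β t]
  refine ciSup_le fun q => ?_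
  refine le_trans ?_ (prTerm_le_Pr hp' (t + κ) q)
  unfold prTerm
  have hL : (0 : ℝ) < (q.1 : ℝ) + 1 := by positivity
  have key := LZ_le_of_le (κ := κ * q.2) (hp.pos _ q.2 hL) (hp'.fin _ q.2 hL) (h q.2)
  refine div_le_div_of_nonneg_right ?_ (by positivity)
  nlinarith [key]

lemma A_mono {α α' : ℝ → ℝ} (h : ∀ r, α r ≤ α' r) {ι : Type} [Fintype ι] (x : ι → Pt) :
    A α x ≤ A α' x := by
  unfold A SS
  have : ∑ i, ∑ j, α (dist (x i) (x j)) ≤ ∑ i, ∑ j, α' (dist (x i) (x j)) :=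
    Finset.sum_le_sum fun i _ => Finset.sum_le_sum fun j _ => h _
  linarith

lemma A_nonneg {α : ℝ → ℝ} (h : ∀ r, 0 ≤ α r) {ι : Type} [Fintype ι] (x : ι → Pt) :
    0 ≤ A α x := by
  unfold A SS
  have : 0 ≤ ∑ i, ∑ j, α (dist (x i) (x j)) :=
    Finset.sum_nonneg fun i _ => Finset.sum_nonneg fun j _ => h _
  linarith

lemma U_nonneg {c : ℝ → ℝ} (h : ∀ r, 0 ≤ c r) {ι : Type} [Fintype ι] (x : ι → Pt) :
    0 ≤ U c x := by
  classical
  unfold U SS
  have : ∑ _i : ι, c 0 ≤ ∑ i, ∑ j, c (dist (x i) (x j)) := by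
    refine Finset.sum_le_sum fun i _ => ?_
    have h1 : c (dist (x i) (x i)) ≤ ∑ j, c (dist (x i) (x j)) :=
      Finset.single_le_sum (f := fun j => c (dist (x i) (x j))) (fun j _ => h _)
        (Finset.mem_univ i)
    simpa using h1
  rw [Finset.sum_const, Finset.card_univ, nsmul_eq_mul] at this
  linarith

/-- Superstability turned into a bound on the sum of squared occupation numbers. -/
lemma N2_le {c : ℝ → ℝ} {K : ℕ} {M : ℝ} (hSS : SuperStabStmt) (hc : ∀ r, 0 ≤ c r) (hK : 1 ≤ K)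
    (hM : 0 < M) (hCK : CoreK c K M) {ι : Type} [Fintype ι] (x : ι → Pt) :
    N2 (1 / 2) 0 x ≤ 2 * K / M * U c x + K * Fintype.card ι := by
  have h := hSS c K M hc hK hM.le hCK ι x
  have hK0 : (0 : ℝ) < K := by exact_mod_cast hK
  have h2 : N2 (1 / 2) 0 x / (2 * K) - Fintype.card ι / 2 ≤ U c x / M := by
    rw [le_div_iff₀ hM]; linarith
  have h3 : N2 (1 / 2) 0 x / (2 * K) ≤ U c x / M + Fintype.card ι / 2 := by linarith
  rw [div_le_iff₀ (by positivity)] at h3
  calc N2 (1 / 2) 0 x ≤ (U c x / M + Fintype.card ι / 2) * (2 * K) := h3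
    _ = _ := by ring

/-- Superstability and the attraction bound give stability (with the better constant `1/8`). -/
lemma stab_of_superstab {c α : ℝ → ℝ} {K : ℕ} {M a1 : ℝ} (hSS : SuperStabStmt)
    (hc : ∀ r, 0 ≤ c r) (hK : 1 ≤ K) (ha1 : 0 < a1) (hM : 16 * K * a1 ≤ M) (hCK : CoreK c K M)
    (hb : ∀ (ι : Type) [Fintype ι] (x : ι → Pt), A α x ≤ a1 * N2 (1 / 2) 0 x) :
    Stab c α (K * a1) := by
  have hK0 : (0 : ℝ) < K := by exact_mod_cast hK
  have hM0 : 0 < M := lt_of_lt_of_le (by positivity) hM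
  refine ⟨by positivity, ?_⟩
  intro ι _ x
  have h1 := N2_le hSS hc hK hM0 hCK x
  have h2 := hb ι x
  have hU := U_nonneg hc x
  have h3 : a1 * (2 * K / M) ≤ 1 / 8 := by
    rw [mul_div_assoc', div_le_iff₀ hM0]; linarith
  calc A α x ≤ a1 * N2 (1 / 2) 0 x := h2
    _ ≤ a1 * (2 * K / M * U c x + K * Fintype.card ι) := by gcongr
    _ = (a1 * (2 * K / M)) * U c x + K * a1 * Fintype.card ι := by ring
    _ ≤ (1 / 4) * U c x + K * a1 * Fintype.card ι := by nlinarith

end LimAux

open LimAux PrAux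

theorem lim (hLZ : LZPropsStmt) (hSS : SuperStabStmt) : LimStmt := by
  intro c K M a1 α αi τ hc hK ha1 hM hCK hα hαi _hmono hle hAB hτ hτ0 hA β h hβ
  have hK0 : (0 : ℝ) < K := by exact_mod_cast hK
  have hM0 : 0 < M := lt_of_lt_of_le (by positivity) hM
  set B : ℝ := K * a1 with hB
  have hB0 : 0 < B := by positivity
  have hsi : Stab c αi B := stab_of_superstab hSS hc.nonneg hK ha1 hM hCK hAB.2
  have hsk : ∀ k, Stab c (α k) B := fun k =>
    stab_of_superstab hSS hc.nonneg hK ha1 hM hCK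
      fun ι _ x => (A_mono (hle k) x).trans (hAB.2 ι x)
  have hPi : ∀ β, 0 < β → LZProps c αi B β := fun β hβ => hLZ c αi B β hc hαi hsi hβ
  have hPk : ∀ k β, 0 < β → LZProps c (α k) B β :=
    fun k β hβ => hLZ c (α k) B β hc (hα k) (hsk k) hβ
  -- lower comparison
  have hlow : ∀ k, Pr c (α k) β h ≤ Pr c αi β h := by
    intro k
    have := Pr_le_of_le (κ := 0) (hPk k β hβ) (hPi β hβ) (fun n x => by
      have h1 := A_mono (hle k) x
      unfold Ham
      nlinarith [mul_le_mul_of_nonneg_left h1 hβ.le]) h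
    simpa using this
  -- parameters
  set s : ℕ → ℝ := fun k => 4 * K * τ k / M with hs
  set κ : ℕ → ℝ := fun k => β * s k * B + β * τ k * K with hκ
  have hs0 : ∀ k, 0 ≤ s k := fun k => by
    simp only [hs]; have := hτ k; positivity
  have hκ0 : ∀ k, 0 ≤ κ k := fun k => by
    simp only [hκ]; have := hτ k; have := hs0 k; positivity
  have hup : ∀ k, s k < 1 → Pr c αi β h ≤ Pr c (α k) (β * (1 - s k)) (h + κ k) := by
    intro k hsk1
    have hβ' : 0 < β * (1 - s k) := mul_pos hβ (by linarith)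
    refine Pr_le_of_le (κ := κ k) (hPi β hβ) (hPk k _ hβ') (fun n x => ?_) h
    have h1 := hA k (Fin n) x
    have h2 := N2_le hSS hc.nonneg hK hM0 hCK x
    have h3 := (hsk k).2 (Fin n) x
    have hU := U_nonneg hc.nonneg x
    rw [Fintype.card_fin] at h2 h3
    unfold Ham
    have h4 : τ k * N2 (1 / 2) 0 x ≤ s k / 2 * U c x + τ k * K * n := by
      calc τ k * N2 (1 / 2) 0 x ≤ τ k * (2 * K / M * U c x + K * n) :=
            mul_le_mul_of_nonneg_left h2 (hτ k)
        _ = _ := by simp only [hs]; ring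
    have h5 : s k * A (α k) x ≤ s k * ((1 / 4) * U c x + B * n) :=
      mul_le_mul_of_nonneg_left h3 (hs0 k)
    have h6 : A αi x ≤ (1 - s k) * A (α k) x + s k * U c x + (s k * B + τ k * K) * n := by
      nlinarith [mul_nonneg (hs0 k) hU]
    have h7 := mul_le_mul_of_nonneg_left h6 hβ.le
    simp only [hκ]
    nlinarith [h7]
  set t : ℕ → ℝ := fun k => 2 * s k + κ k with ht
  have ht0 : ∀ k, 0 ≤ t k := fun k => by simp only [ht]; linarith [hs0 k, hκ0 k]
  have hPp : ∀ k, PrProps c (α k) B := fun k => prProps hLZ c (α k) B hc (hα k) (hsk k)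
  have hmain : ∀ k, t k < 1 → Pr c αi β h ≤ Pr c (α k) β h + t k * Real.exp (h + 1 + β * B) := by
    intro k htk
    have hsk1 : s k < 1 := by
      simp only [ht] at htk; linarith [hs0 k, hκ0 k]
    rcases eq_or_lt_of_le (ht0 k) with h0 | h0
    · have e1 : s k = 0 := by simp only [ht] at h0; linarith [hs0 k, hκ0 k]
      have e2 : κ k = 0 := by simp only [ht] at h0; linarith [hs0 k, hκ0 k]
      have := hup k hsk1
      rw [e1, e2] at this
      rw [← h0]
      simpa using this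
    · refine (hup k hsk1).trans ?_
      set βs : ℝ := β - β * s k / t k with hβs
      set hh : ℝ := h + κ k / t k with hhh
      have r1 : s k / t k ≤ 1 / 2 := by
        rw [div_le_iff₀ h0]; simp only [ht]; linarith [hκ0 k]
      have r2 : κ k / t k ≤ 1 := by
        rw [div_le_iff₀ h0]; simp only [ht]; linarith [hs0 k]
      have r3 : 0 ≤ s k / t k := div_nonneg (hs0 k) h0.le
      have hβs0 : 0 < βs := by
        rw [hβs, mul_div_assoc]; nlinarith
      have hβs1 : βs ≤ β := by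
        rw [hβs, mul_div_assoc]; nlinarith
      have m1 : ((β, h) : ℝ × ℝ) ∈ {x : ℝ × ℝ | 0 < x.1} := hβ
      have m2 : ((βs, hh) : ℝ × ℝ) ∈ {x : ℝ × ℝ | 0 < x.1} := hβs0
      have hcv := (hPp k).conv.2 m1 m2 (show (0 : ℝ) ≤ 1 - t k by linarith) h0.le (by ring)
      have e1 : (1 - t k) * β + t k * βs = β * (1 - s k) := by
        rw [hβs]; field_simp; ring
      have e2 : (1 - t k) * h + t k * hh = h + κ k := by
        rw [hhh]; field_simp; ring
      simp only [Prod.smul_mk, Prod.mk_add_mk, smul_eq_mul] at hcv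
      rw [e1, e2] at hcv
      have n1 := (hPp k).nonneg β h hβ
      have n2 := (hPp k).le_exp βs hh hβs0
      have n3 : Real.exp (hh + βs * B) ≤ Real.exp (h + 1 + β * B) := by
        refine Real.exp_le_exp.2 ?_
        have := mul_le_mul_of_nonneg_right hβs1 hB0.le
        rw [hhh]; linarith
      have n4 := mul_le_mul_of_nonneg_left (n2.trans n3) h0.le
      nlinarith [mul_nonneg h0.le n1]
  have hτs : Tendsto s atTop (𝓝 0) := by
    have : Tendsto (fun k => 4 * K * τ k / M) atTop (𝓝 (4 * K * 0 / M)) :=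
      (hτ0.const_mul (4 * (K : ℝ))).div_const M
    simpa [hs] using this
  have hκt : Tendsto κ atTop (𝓝 0) := by
    have : Tendsto (fun k => β * s k * B + β * τ k * K) atTop (𝓝 (β * 0 * B + β * 0 * K)) :=
      ((hτs.const_mul β).mul_const B).add ((hτ0.const_mul β).mul_const (K : ℝ))
    simpa [hκ] using this
  have htt : Tendsto t atTop (𝓝 0) := by
    have : Tendsto (fun k => 2 * s k + κ k) atTop (𝓝 (2 * 0 + 0)) :=
      (hτs.const_mul 2).add hκt
    simpa [ht] using this
  have hl : Tendsto (fun k => Pr c αi β h - t k * Real.exp (h + 1 + β * B)) atTop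
      (𝓝 (Pr c αi β h)) := by
    have : Tendsto (fun k => Pr c αi β h - t k * Real.exp (h + 1 + β * B)) atTop
        (𝓝 (Pr c αi β h - 0 * Real.exp (h + 1 + β * B))) :=
      tendsto_const_nhds.sub (htt.mul_const _)
    simpa using this
  refine tendsto_of_tendsto_of_tendsto_of_le_of_le' hl tendsto_const_nhds ?_
    (Eventually.of_forall hlow)
  filter_upwards [htt.eventually (gt_mem_nhds (show (0 : ℝ) < 1 by norm_num))] with k hk
  linarith [hmain k hk]

end Crest.Agent.R149
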