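import Crest.Agent.R149.Stmts

/-!
# Row 149: assembly of the main theorem from the module statements
-/

set_option autoImplicit false

open MeasureTheory Crest.ProbabilityR.Continuum Filter Topology
open scoped ENNReal

namespace Crest.Agent.R149.MainAux

theorem SS_mono {g g' : ℝ → ℝ} (h : ∀ r, g r ≤ g' r) {ι : Type} [Fintype ι] (x : ι → Pt) :
    SS g x ≤ SS g' x :=
  Finset.sum_le_sum fun _ _ => Finset.sum_le_sum fun _ _ => h _

theorem A_mono {g g' : ℝ → ℝ} (h : ∀ r, g r ≤ g' r) {ι : Type} [Fintype ι] (x : ι → Pt) :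
    A g x ≤ A g' x := by
  unfold A; have := SS_mono h x; linarith

theorem Stab_mono {c α α' : ℝ → ℝ} {B : ℝ} (hS : Stab c α' B) (h : ∀ r, α r ≤ α' r) :
    Stab c α B :=
  ⟨hS.1, fun ι _ x => (A_mono h x).trans (hS.2 ι x)⟩

theorem AttrBound_mono {α α' : ℝ → ℝ} {a : ℝ} (hS : AttrBound α' a) (h : ∀ r, α r ≤ α' r) :
    AttrBound α a :=
  ⟨hS.1, fun ι _ x => (A_mono h x).trans (hS.2 ι x)⟩

theorem U_nonneg {c : ℝ → ℝ} (hc : ∀ r, 0 ≤ c r) {ι : Type} [Fintype ι] (x : ι → Pt) :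
    0 ≤ U c x := by
  classical
  unfold U SS
  have : (Fintype.card ι : ℝ) * c 0 ≤ ∑ i, ∑ j, c (dist (x i) (x j)) := by
    have h1 : (Fintype.card ι : ℝ) * c 0 = ∑ i : ι, c (dist (x i) (x i)) := by
      simp
    rw [h1]
    refine Finset.sum_le_sum fun i _ => ?_
    exact Finset.single_le_sum (f := fun j => c (dist (x i) (x j))) (fun j _ => hc _)
      (Finset.mem_univ i)
  linarith

/-- Superstability gives stability. -/
theorem stab_of_superStab (hSS : SuperStabStmt) {c α : ℝ → ℝ} {K : ℕ} {M a1 : ℝ}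
    (hc : ∀ t, 0 ≤ c t) (hK : 1 ≤ K) (hCK : CoreK c K M) (ha1 : 0 < a1)
    (hM : 16 * K * a1 ≤ M) (hA : AttrBound α a1) : Stab c α (2 * K * a1) := by
  have hK' : (1 : ℝ) ≤ K := by exact_mod_cast hK
  have hM0 : 0 ≤ M := le_trans (by positivity) hM
  refine ⟨by positivity, fun ι _ x => ?_⟩
  have h1 := hA.2 ι x
  have h2 := hSS c K M hc hK hM0 hCK ι x
  have h3 := U_nonneg hc x
  set n : ℝ := (Fintype.card ι : ℝ) with hn
  set T := N2 (1 / 2) 0 x with hT
  have hn0 : 0 ≤ n := by positivity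
  refine h1.trans ?_
  by_cases hcase : T ≤ 2 * K * n
  · have : a1 * T ≤ a1 * (2 * K * n) := mul_le_mul_of_nonneg_left hcase ha1.le
    nlinarith
  · push Not at hcase
    have h4 : T / (4 * K) ≤ T / (2 * K) - n / 2 := by
      have : n / 2 ≤ T / (4 * K) := by
        rw [div_le_div_iff₀ (by norm_num) (by positivity)]
        nlinarith
      have h5 : T / (2 * K) = T / (4 * K) + T / (4 * K) := by field_simp; ring
      linarith
    have h6 : M * (T / (4 * K)) ≤ U c x := (mul_le_mul_of_nonneg_left h4 hM0).trans h2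
    have hT0 : 0 ≤ T := le_trans (by positivity) hcase.le
    have h7 : 16 * K * a1 * (T / (4 * K)) ≤ M * (T / (4 * K)) :=
      mul_le_mul_of_nonneg_right hM (by positivity)
    have h8 : 16 * K * a1 * (T / (4 * K)) = 4 * (a1 * T) := by field_simp; ring
    have h9 : 0 ≤ 2 * K * a1 * n := by positivity
    linarith

theorem αk_succ (N : ℕ) (a0 : ℝ) (k : ℕ) :
    αk N a0 (k + 1) = fun r => αk N a0 k r + scA N a0 k * wk (scR N k) r := by
  funext r; simp [αk, Finset.sum_range_succ]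

theorem αk_zero (N : ℕ) (a0 : ℝ) : αk N a0 0 = fun _ => 0 := by
  funext r; simp [αk]

/-- The block size used when adding scale `k`. -/
def blk (N : ℕ) (k : ℕ) : ℕ := if k = 0 then N ^ 16 else N ^ (24 * 2 ^ k)

/-- The range parameter before adding scale `k`. -/
noncomputable def rng (N : ℕ) (k : ℕ) : ℝ := if k = 0 then 0 else scR N (k - 1)

theorem two_pow_ge (k : ℕ) : k + 1 ≤ 2 ^ k := Nat.lt_two_pow_self

theorem rng_succ (N k : ℕ) : rng N (k + 1) = (N : ℝ) ^ (16 * 2 ^ (k + 1)) := by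
  simp only [rng, scR]
  simp only [Nat.add_eq_zero_iff, one_ne_zero, and_false, if_false, Nat.add_sub_cancel]
  congr 1
  rw [pow_succ]; ring

theorem blk_pos {N : ℕ} (hN : 4 ≤ N) (k : ℕ) : 1 ≤ blk N k := by
  unfold blk; split_ifs <;> exact Nat.one_le_pow _ _ (by omega)

theorem blk_cond {N : ℕ} (hN : 4 ≤ N) (k : ℕ) : 4 * (4 * rng N k + 3) ≤ (blk N k : ℝ) := by
  have hN' : (4 : ℝ) ≤ N := by exact_mod_cast hN
  rcases k with _ | k
  · simp only [rng, blk, if_true]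
    push_cast
    have : (4 : ℝ) ^ 16 ≤ (N : ℝ) ^ 16 := pow_le_pow_left₀ (by norm_num) hN' 16
    norm_num at this ⊢
    linarith
  · rw [rng_succ]
    simp only [blk, Nat.add_eq_zero_iff, one_ne_zero, and_false, if_false]
    push_cast
    have h1 : (N : ℝ) ^ (24 * 2 ^ (k + 1)) =
        (N : ℝ) ^ (16 * 2 ^ (k + 1)) * (N : ℝ) ^ (8 * 2 ^ (k + 1)) := by
      rw [← pow_add]; congr 1; ring
    rw [h1]
    have h2 : (4 : ℝ) ^ 8 ≤ (N : ℝ) ^ (8 * 2 ^ (k + 1)) := by
      calc (4 : ℝ) ^ 8 ≤ (N : ℝ) ^ 8 := pow_le_pow_left₀ (by norm_num) hN' 8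
        _ ≤ (N : ℝ) ^ (8 * 2 ^ (k + 1)) :=
            pow_le_pow_right₀ (by linarith) (Nat.le_mul_of_pos_right _ (by positivity))
    have h3 : (1 : ℝ) ≤ (N : ℝ) ^ (16 * 2 ^ (k + 1)) := one_le_pow₀ (by linarith)
    norm_num at h2
    nlinarith

theorem blk_le {N : ℕ} (hN : 4 ≤ N) (k : ℕ) : (blk N k : ℝ) ≤ scR N k := by
  have hN' : (1 : ℝ) ≤ N := by exact_mod_cast (by omega : 1 ≤ N)
  unfold blk scR
  split_ifs with h
  · subst h; push_cast; exact pow_le_pow_right₀ hN' (by norm_num)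
  · push_cast; exact pow_le_pow_right₀ hN' (Nat.mul_le_mul_right _ (by norm_num))

theorem err_le {N : ℕ} (hN : 4 ≤ N) (k : ℕ) :
    (rng N k + 1) / blk N k + blk N k / scR N k ≤ 3 / (N : ℝ) ^ (8 * 2 ^ k) := by
  have hN' : (1 : ℝ) ≤ N := by exact_mod_cast (by omega : 1 ≤ N)
  have hN0 : (0 : ℝ) < N := by linarith
  rcases k with _ | k
  · simp only [rng, blk, scR, if_true, pow_zero, mul_one]
    push_cast
    have h1 : (0 + 1 : ℝ) / (N : ℝ) ^ 16 ≤ 1 / (N : ℝ) ^ 8 := by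
      rw [zero_add]
      exact one_div_le_one_div_of_le (by positivity) (pow_le_pow_right₀ hN' (by norm_num))
    have h2 : (N : ℝ) ^ 16 / (N : ℝ) ^ 32 ≤ 1 / (N : ℝ) ^ 8 := by
      rw [div_le_div_iff₀ (by positivity) (by positivity), ← pow_add, one_mul]
      exact pow_le_pow_right₀ hN' (by norm_num)
    have h3 : (3 : ℝ) / (N : ℝ) ^ 8 = 1 / (N : ℝ) ^ 8 + 1 / (N : ℝ) ^ 8 + 1 / (N : ℝ) ^ 8 := by
      ring
    have h4 : (0 : ℝ) ≤ 1 / (N : ℝ) ^ 8 := by positivity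
    linarith
  · rw [rng_succ]
    simp only [blk, scR, Nat.add_eq_zero_iff, one_ne_zero, and_false, if_false]
    push_cast
    set e := 2 ^ (k + 1) with he
    have hA : (N : ℝ) ^ (24 * e) = (N : ℝ) ^ (16 * e) * (N : ℝ) ^ (8 * e) := by
      rw [← pow_add]; congr 1; ring
    have hB : (N : ℝ) ^ (32 * e) = (N : ℝ) ^ (24 * e) * (N : ℝ) ^ (8 * e) := by
      rw [← pow_add]; congr 1; ring
    have h1 : ((N : ℝ) ^ (16 * e) + 1) / (N : ℝ) ^ (24 * e) ≤ 2 / (N : ℝ) ^ (8 * e) := by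
      rw [hA, div_le_div_iff₀ (by positivity) (by positivity)]
      have h3 : (1 : ℝ) ≤ (N : ℝ) ^ (16 * e) := one_le_pow₀ hN'
      have h4 : (0 : ℝ) < (N : ℝ) ^ (8 * e) := by positivity
      nlinarith
    have h2 : (N : ℝ) ^ (24 * e) / (N : ℝ) ^ (32 * e) = 1 / (N : ℝ) ^ (8 * e) := by
      rw [hB]; field_simp
    rw [h2]
    have h3 : (3 : ℝ) / (N : ℝ) ^ (8 * e) = 2 / (N : ℝ) ^ (8 * e) + 1 / (N : ℝ) ^ (8 * e) := by
      ring
    linarith

theorem scR_one_le {N : ℕ} (hN : 4 ≤ N) (k : ℕ) : 1 ≤ scR N k := by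
  have hN' : (1 : ℝ) ≤ N := by exact_mod_cast (by omega : 1 ≤ N)
  exact one_le_pow₀ hN'

theorem scA_pos {N : ℕ} (hN : 4 ≤ N) {a0 : ℝ} (ha : 0 < a0) (k : ℕ) : 0 < scA N a0 k := by
  have hN' : (0 : ℝ) < N := by exact_mod_cast (by omega : 0 < N)
  unfold scA; split_ifs
  · exact ha
  · positivity

theorem scA_le {N : ℕ} (hN : 4 ≤ N) {a0 : ℝ} (ha : 0 < a0) (k : ℕ) :
    scA N a0 k ≤ 8 * (a0 + 1) := by
  have hN' : (1 : ℝ) ≤ N := by exact_mod_cast (by omega : 1 ≤ N)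
  unfold scA; split_ifs
  · linarith
  · have : ((N : ℝ) ^ 2 ^ k)⁻¹ ≤ 1 := inv_le_one_of_one_le₀ (one_le_pow₀ hN')
    linarith

theorem scA_succ_le {N : ℕ} (hN : 4 ≤ N) (a0 : ℝ) (k : ℕ) :
    scA N a0 (k + 1) ≤ (1 / N) * (1 / 2) ^ (k + 1) := by
  have hN' : (4 : ℝ) ≤ N := by exact_mod_cast hN
  have hN0 : (0 : ℝ) < N := by linarith
  simp only [scA, Nat.add_eq_zero_iff, one_ne_zero, and_false, if_false]
  have hR : (1 / (N : ℝ)) * (1 / 2) ^ (k + 1) = ((2 : ℝ) ^ (k + 1) * N)⁻¹ := by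
    rw [div_pow, one_pow]; field_simp
  rw [hR]
  apply inv_anti₀ (by positivity)
  calc (2 : ℝ) ^ (k + 1) * N ≤ (N : ℝ) ^ (k + 1) * N := by
        apply mul_le_mul_of_nonneg_right _ hN0.le
        exact pow_le_pow_left₀ (by norm_num) (by linarith) _
    _ = (N : ℝ) ^ (k + 1 + 1) := by rw [pow_succ _ (k + 1)]
    _ ≤ (N : ℝ) ^ 2 ^ (k + 1) := pow_le_pow_right₀ (by linarith) (two_pow_ge (k + 1))

end Crest.Agent.R149.MainAux

namespace Crest.Agent.R149

open MainAux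

/-- The main theorem from the module statements. -/
theorem main_of (hAbs : AbsStmt) (hTL : TLStmt) (hPr : PrPropsStmt) (hLPL : LPLowerStmt)
    (hLPU : LPUpperStmt) (hLim : LimStmt) (hBL : BaseLowerStmt) (hBU : BaseUpperStmt)
    (hCK : CoreKStmt) (hSS : SuperStabStmt) (hAP : AttrPropsStmt) : MainStmt := by
  intro K θ₂ θ₃ p hKG hp hp8 hlim
  have hK2 : 2 ≤ K := hKG.two_le
  have hK1 : 1 ≤ K := by omega
  have hKr : (2 : ℝ) ≤ K := by exact_mod_cast hK2
  set mm : ℝ := 16 * K with hmm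
  have hmmK : K * p + p ≤ mm := by rw [hmm]; nlinarith
  obtain ⟨s, hs, habs⟩ := hAbs p K mm hp hK2 hmmK
  set H0 : ℝ := 3 + 4 * mm / (p * K) with hH0
  obtain ⟨ξ, ΛL, hξ0, hξ1, hBL'⟩ := hBL K θ₂ θ₃ p s hKG hp hlim hs
  obtain ⟨ΛU, hΛU0, hBU'⟩ := hBU K θ₂ θ₃ p s H0 hKG hp hlim hs
  set Λ : ℝ := max 10 (max ΛL ΛU) with hΛ
  have hΛ10 : 10 ≤ Λ := le_max_left _ _
  have hΛL : ΛL ≤ Λ := (le_max_left _ _).trans (le_max_right _ _)
  have hΛU : ΛU ≤ Λ := (le_max_right _ _).trans (le_max_right _ _)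
  have hΛ0 : 0 < Λ := by linarith
  obtain ⟨M0U, hBU''⟩ := hBU' Λ hΛU
  set a0 : ℝ := Λ * (2 / (p * K)) with ha0
  have ha0p : 0 < a0 := by positivity
  set a1 : ℝ := 8 * (a0 + 1) with ha1
  have ha1p : 0 < a1 := by positivity
  obtain ⟨C, M0L, hC0, hM0L0, hLPU'⟩ := hLPU K a1 (3 * Λ) hK1 ha1p
  set M : ℝ := max (max M0U M0L) (16 * K * a1) with hM
  have hMU : M0U ≤ M := (le_max_left _ _).trans (le_max_left _ _)
  have hML : M0L ≤ M := (le_max_right _ _).trans (le_max_left _ _)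
  have hMa : 16 * K * a1 ≤ M := le_max_right _ _
  have hM0 : 0 ≤ M := hM0L0.trans hML
  set δ : ℝ := Real.exp (-Λ / 3) with hδ
  have hδ0 : 0 < δ := Real.exp_pos _
  have hδ1 : δ ≤ 1 / 4 := by
    have h1 : δ ≤ Real.exp (-3) := Real.exp_le_exp.mpr (by linarith)
    have h2 : Real.exp (-3) ≤ 1 / 4 := by
      rw [Real.exp_neg, ← one_div]
      apply one_div_le_one_div_of_le (by norm_num)
      have := Real.add_one_le_exp (3 : ℝ)
      linarith
    linarith
  refine ⟨ξ, δ, M, hξ0, hξ1, hδ0, hδ1, hM0, fun c hc => ?_⟩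
  have hcOK : CoreOK c := hc.toCoreOK
  have hCoreK : CoreK c K M := hCK K θ₂ θ₃ ξ δ M c hKG hc
  -- choose N
  obtain ⟨N0, hN0⟩ := exists_nat_ge (max (3 * C / s ^ 2) (1 / s))
  set N : ℕ := max N0 4 with hN
  have hN4 : 4 ≤ N := le_max_right _ _
  have hNr4 : (4 : ℝ) ≤ N := by exact_mod_cast hN4
  have hNN0 : (N0 : ℝ) ≤ N := by exact_mod_cast le_max_left N0 4
  have hNpos : (0 : ℝ) < N := by linarith
  have hN1 : 3 * C ≤ s ^ 2 * N := by
    have : 3 * C / s ^ 2 ≤ N := (le_max_left _ _).trans (hN0.trans hNN0)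
    rw [div_le_iff₀ (by positivity)] at this
    linarith
  have hN2 : 1 ≤ s * N := by
    have : 1 / s ≤ N := (le_max_right _ _).trans (hN0.trans hNN0)
    rw [div_le_iff₀ hs] at this
    linarith
  have hAPN := hAP N a0 hN4 ha0p
  set αI := αi N a0 with hαI
  have hbound : AttrBound αI a1 := hAPN.bound
  have hboundk : ∀ k, AttrBound (αk N a0 k) a1 := fun k => AttrBound_mono hbound (hAPN.le k)
  have hStab : Stab c αI (2 * K * a1) :=
    stab_of_superStab hSS hcOK.nonneg hK1 hCoreK ha1p hMa hbound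
  have hStabk : ∀ k, Stab c (αk N a0 k) (2 * K * a1) := fun k => Stab_mono hStab (hAPN.le k)
  obtain ⟨G, hG⟩ := hTL c αI _ hcOK hAPN.ok hStab
  set P : ℕ → ℝ → ℝ → ℝ := fun k β h => Pr c (αk N a0 k) β (Λ * h) / Λ with hP
  set Pinf : ℝ → ℝ → ℝ := fun β h => Pr c αI β (Λ * h) / Λ with hPinf
  set a : ℕ → ℝ := fun k => scA N a0 k / Λ with ha
  set ε : ℕ → ℝ := fun k => if k = 0 then 0 else C * (3 / (N : ℝ) ^ (8 * 2 ^ (k - 1))) / Λ with hε
  have hPk : ∀ k, PrProps c (αk N a0 k) (2 * K * a1) := fun k =>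
    hPr c _ _ hcOK (hAPN.okk k) (hStabk k)
  have hdata : AbsData p K mm s P Pinf a ε := by
    refine
      { conv := ?_, mono := ?_, a0 := ?_, apos := ?_, asmall := ?_, εnn := ?_, εsmall := ?_,
        base_lower := ?_, base_upper := ?_, lower := ?_, upper := ?_, lim := ?_ }
    · intro k
      have h1 := (hPk k).conv
      refine ⟨?_, ?_⟩
      · exact h1.1
      · intro x hx y hy u v hu hv huv
        have hx' : ((x.1, Λ * x.2) : ℝ × ℝ) ∈ {x : ℝ × ℝ | 0 < x.1} := hx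
        have hy' : ((y.1, Λ * y.2) : ℝ × ℝ) ∈ {x : ℝ × ℝ | 0 < x.1} := hy
        have h2 := h1.2 hx' hy' hu hv huv
        simp only [Prod.smul_mk, Prod.mk_add_mk, smul_eq_mul, Prod.fst_add, Prod.snd_add,
          Prod.smul_fst, Prod.smul_snd] at h2 ⊢
        have h3 : Λ * (u * x.2 + v * y.2) = u * (Λ * x.2) + v * (Λ * y.2) := by ring
        simp only [hP]
        rw [h3]
        calc _ ≤ (u * Pr c (αk N a0 k) x.1 (Λ * x.2) + v * Pr c (αk N a0 k) y.1 (Λ * y.2)) / Λ :=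
              div_le_div_of_nonneg_right h2 hΛ0.le
          _ = _ := by ring
    · intro k β h h' hβ hh
      exact div_le_div_of_nonneg_right
        ((hPk k).mono β _ _ hβ (mul_le_mul_of_nonneg_left hh hΛ0.le)) hΛ0.le
    · simp only [ha, scA, if_true]
      rw [ha0]; field_simp
    · intro k; exact div_pos (scA_pos hN4 ha0p k) hΛ0
    · intro k hk
      obtain ⟨j, rfl⟩ : ∃ j, k = j + 1 := ⟨k - 1, by omega⟩
      have h1 := scA_succ_le hN4 a0 j
      have h2 : scA N a0 (j + 1) / Λ ≤ scA N a0 (j + 1) := by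
        rw [div_le_iff₀ hΛ0]
        nlinarith [scA_pos hN4 ha0p (j + 1)]
      refine h2.trans (h1.trans ?_)
      apply mul_le_mul_of_nonneg_right _ (by positivity)
      rw [div_le_iff₀ hNpos]; linarith
    · intro k
      simp only [hε]; split_ifs
      · exact le_rfl
      · positivity
    · intro k hk
      obtain ⟨j, rfl⟩ : ∃ j, k = j + 1 := ⟨k - 1, by omega⟩
      simp only [hε, ha, scA, Nat.add_eq_zero_iff, one_ne_zero, and_false, if_false,
        Nat.add_sub_cancel]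
      set E := 2 ^ j with hE
      have hE1 : j + 1 ≤ E := two_pow_ge j
      have hE2 : 2 ^ (j + 1) = 2 * E := by rw [pow_succ]; ring
      rw [hE2]
      have h8 : (N : ℝ) ^ (8 * E) = (N : ℝ) ^ (2 * E) * (N : ℝ) ^ (6 * E) := by
        rw [← pow_add]; congr 1; ring
      have h6 : (4 : ℝ) ^ (j + 1) * N ≤ (N : ℝ) ^ (6 * E) := by
        calc (4 : ℝ) ^ (j + 1) * N ≤ (N : ℝ) ^ (j + 1) * N := by
              apply mul_le_mul_of_nonneg_right _ hNpos.le
              exact pow_le_pow_left₀ (by norm_num) hNr4 _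
          _ = (N : ℝ) ^ (j + 1 + 1) := by rw [pow_succ _ (j + 1)]
          _ ≤ (N : ℝ) ^ (6 * E) := pow_le_pow_right₀ (by linarith) (by omega)
      have h4 : (s * (1 / 2) ^ (j + 1)) ^ 2 = s ^ 2 / (4 : ℝ) ^ (j + 1) := by
        rw [mul_pow, ← pow_mul, mul_comm (j + 1) 2, pow_mul, div_eq_mul_inv (s ^ 2), ← inv_pow]
        norm_num
      rw [h4, h8]
      have hX : 0 < (N : ℝ) ^ (2 * E) := by positivity
      have hY : 0 < (N : ℝ) ^ (6 * E) := by positivity
      have hZ : (0 : ℝ) < 4 ^ (j + 1) := by positivity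
      have hmain : 3 * C * (4 : ℝ) ^ (j + 1) ≤ s ^ 2 * (N : ℝ) ^ (6 * E) := by
        calc 3 * C * (4 : ℝ) ^ (j + 1) ≤ s ^ 2 * N * (4 : ℝ) ^ (j + 1) :=
              mul_le_mul_of_nonneg_right hN1 hZ.le
          _ = s ^ 2 * ((4 : ℝ) ^ (j + 1) * N) := by ring
          _ ≤ s ^ 2 * (N : ℝ) ^ (6 * E) := mul_le_mul_of_nonneg_left h6 (by positivity)
      have e1 : C * (3 / ((N : ℝ) ^ (2 * E) * (N : ℝ) ^ (6 * E))) / Λ =
          (3 * C * (4 : ℝ) ^ (j + 1)) /
            ((N : ℝ) ^ (2 * E) * (N : ℝ) ^ (6 * E) * (4 : ℝ) ^ (j + 1) * Λ) := by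
        field_simp
      have e2 : s ^ 2 / (4 : ℝ) ^ (j + 1) * (((N : ℝ) ^ (2 * E))⁻¹ / Λ) =
          (s ^ 2 * (N : ℝ) ^ (6 * E)) /
            ((N : ℝ) ^ (2 * E) * (N : ℝ) ^ (6 * E) * (4 : ℝ) ^ (j + 1) * Λ) := by
        field_simp
      rw [e1, e2]
      exact div_le_div_of_nonneg_right hmain (by positivity)
    · obtain ⟨p', hp1, hp2, h3⟩ := hBL' Λ hΛL M c hc
      refine ⟨p', hp1, hp2, fun β h hβ => ?_⟩
      have := h3 β h hβ
      simp only [hP, αk_zero]
      rw [le_div_iff₀ hΛ0]; linarith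
    · intro β h hβ1 hβ2 hh
      have := hBU'' M ξ c hMU hc β h hβ1 hβ2 hh
      simp only [hP, αk_zero]
      rw [div_le_iff₀ hΛ0]; linarith
    · intro k β h m hβ hm
      have h1 := hLPL c (αk N a0 k) (2 * K * a1) (scR N k) (scA N a0 k) hcOK (hAPN.okk k)
        (lt_of_lt_of_le one_pos (scR_one_le hN4 k)) (scA_pos hN4 ha0p k).le
        (by rw [← αk_succ]; exact hStabk (k + 1)) β (Λ * h) m hβ
      rw [← αk_succ] at h1
      simp only [hP, ha]
      rw [le_div_iff₀ hΛ0]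
      have e1 : Λ * (h + β * (scA N a0 k / Λ) * m) = Λ * h + β * scA N a0 k * m := by
        field_simp
      rw [e1]
      calc _ = Pr c (αk N a0 k) β (Λ * h + β * scA N a0 k * m) - β * scA N a0 k * m ^ 2 / 2 := by
            field_simp
        _ ≤ _ := h1
    · intro k β h hβ1 hβ2 hh y hy
      have h1 := hLPU' c (αk N a0 k) M (rng N k) (scR N k) (scA N a0 k) (blk N k) hcOK hCoreK hML
        (hAPN.okk k)
        (by
          rcases k with _ | k
          · intro t _; simp [αk_zero]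
          · intro t ht
            have : 2 * scR N k ≤ t := by simpa [rng] using ht
            exact hAPN.farR k t this)
        (by
          rcases k with _ | k
          · simp [rng]
          · rw [rng_succ]; positivity)
        (scR_one_le hN4 k) (scA_pos hN4 ha0p k).le (scA_le hN4 ha0p k)
        (by rw [← αk_succ]; exact hboundk (k + 1)) (blk_pos hN4 k) (blk_cond hN4 k) (blk_le hN4 k)
        β (Λ * h) hβ1 hβ2 (by nlinarith) (Λ * y) (by
          intro m hm0 hm1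
          have h2 := hy m hm0 (by rw [hmm]; exact hm1)
          simp only [hP, ha] at h2
          have e1 : Λ * (h + β * (scA N a0 k / Λ) * m) = Λ * h + β * scA N a0 k * m := by
            field_simp
          rw [e1] at h2
          have e2 : Pr c (αk N a0 k) β (Λ * h + β * scA N a0 k * m) / Λ -
              β * (scA N a0 k / Λ) * m ^ 2 / 2 =
              (Pr c (αk N a0 k) β (Λ * h + β * scA N a0 k * m) - β * scA N a0 k * m ^ 2 / 2) / Λ := by
            field_simp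
          rw [e2, div_le_iff₀ hΛ0] at h2
          linarith)
      rw [← αk_succ] at h1
      simp only [hP, hε, Nat.add_eq_zero_iff, one_ne_zero, and_false, if_false,
        Nat.add_sub_cancel]
      rw [div_le_iff₀ hΛ0]
      have h3 : C * ((rng N k + 1) / blk N k + blk N k / scR N k) ≤
          C * (3 / (N : ℝ) ^ (8 * 2 ^ k)) := mul_le_mul_of_nonneg_left (err_le hN4 k) hC0
      have h4 : (y + C * (3 / (N : ℝ) ^ (8 * 2 ^ k)) / Λ) * Λ =
          Λ * y + C * (3 / (N : ℝ) ^ (8 * 2 ^ k)) := by field_simp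
      rw [h4]; linarith
    · intro β h hβ
      obtain ⟨τ, hτ0, hτl, hτ⟩ := hAPN.tail
      have h1 := hLim c K M a1 (αk N a0) αI τ hcOK hK1 ha1p hMa hCoreK hAPN.okk hAPN.ok
        (by
          intro k r
          rw [αk_succ]
          have h2 : 0 ≤ scA N a0 k * wk (scR N k) r := by
            apply mul_nonneg (scA_pos hN4 ha0p k).le
            unfold wk; positivity
          simpa using h2)
        hAPN.le hbound hτ0 hτl hτ β (Λ * h) hβ
      exact h1.div_const Λ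
  obtain ⟨βc, hcc, e, ρ, hβ1, hβ2, hT, hρ0, hρ0', hρ2⟩ := habs P Pinf a ε hdata
  refine ⟨N, a0, 2 * K * a1, G, βc, Λ * hcc, fun i => Λ * e i, ρ, hN4, ha0p, hStab, hG, hβ1, hβ2,
    ?_, hρ0, hρ0', hρ2⟩
  refine { sub := ?_, lt01 := hT.lt01, lt12 := hT.lt12, indep := ?_ }
  · intro i β h hβ
    have h1 := hT.sub i β (h / Λ) hβ
    simp only [hPinf] at h1
    have e1 : Λ * (h / Λ) = h := by field_simp
    rw [e1, le_div_iff₀ hΛ0] at h1
    have e2 : (Pr c αI βc (Λ * hcc) / Λ - e i * (β - βc) + ρ i * (h / Λ - hcc)) * Λ =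
        Pr c αI βc (Λ * hcc) - Λ * e i * (β - βc) + ρ i * (h - Λ * hcc) := by
      field_simp
    rw [e2] at h1
    exact h1
  · intro h
    apply hT.indep
    have h2 : Λ * ((e 1 - e 0) * (ρ 2 - ρ 0)) = Λ * ((e 2 - e 0) * (ρ 1 - ρ 0)) := by
      linarith [h]
    exact mul_left_cancel₀ hΛ0.ne' h2

end Crest.Agent.R149
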