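import Mathlib

/-!
R149, pure real-analysis side of the thermodynamic limit.
`z L n` stands for `log Z(L, n)`.  From block superadditivity we get existence of the
limit `sigma z ρ = lim z L ⌊ρ L^3⌋ / L^3`, its concavity, and the finite-volume lower bound.
-/

set_option autoImplicit false

namespace Crest.Agent.R149.TLAbs

open Filter Topology

/-- Block superadditivity, normalisation and the a priori upper bound. -/
structure BlockSuper (R0 C : ℝ) (z : ℝ → ℕ → ℝ) : Prop where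
  R0_pos : 0 < R0
  super : ∀ (b L : ℝ) (k : ℕ), 0 < b → (k : ℝ) * (b + R0) ≤ L + R0 →
    ∀ n : Fin (k ^ 3) → ℕ, ∑ c, z b (n c) ≤ z L (∑ c, n c)
  zero : ∀ L : ℝ, 0 < L → z L 0 = 0
  upper : ∀ (L : ℝ) (n : ℕ), 0 < L → 0 < n → z L n ≤ C * n + n * Real.log (L ^ 3 / n)

/-- the two-density combination -/
noncomputable def combo (R0 : ℝ) (z : ℝ → ℕ → ℝ) (ρ b : ℝ) (n1 n2 : ℕ) : ℝ :=
  ((n2 - ρ * (b + R0) ^ 3) * z b n1 + (ρ * (b + R0) ^ 3 - n1) * z b n2) /
    ((b + R0) ^ 3 * (n2 - n1))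

/-- number of blocks per side -/
noncomputable def kk (R0 b L : ℝ) : ℕ := ⌊(L + R0) / (b + R0)⌋₊

lemma kk_le {R0 b L : ℝ} (hbR : 0 < b + R0) (hL : 0 ≤ L + R0) :
    (kk R0 b L : ℝ) * (b + R0) ≤ L + R0 := by
  have := Nat.floor_le (div_nonneg hL hbR.le)
  calc (kk R0 b L : ℝ) * (b + R0) ≤ (L + R0) / (b + R0) * (b + R0) :=
        mul_le_mul_of_nonneg_right this hbR.le
    _ = L + R0 := by field_simp

lemma kk_div_tendsto {R0 b : ℝ} (hbR : 0 < b + R0) :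
    Tendsto (fun L : ℝ => (kk R0 b L : ℝ) / L) atTop (𝓝 (1 / (b + R0))) := by
  have h1 : Tendsto (fun L : ℝ => (⌊(1 / (b + R0)) * (L + R0)⌋₊ : ℝ) / (L + R0)) atTop
      (𝓝 (1 / (b + R0))) :=
    (tendsto_nat_floor_mul_div_atTop (one_div_pos.mpr hbR).le).comp
      (tendsto_atTop_add_const_right _ R0 tendsto_id)
  have h2 : Tendsto (fun L : ℝ => (L + R0) / L) atTop (𝓝 1) := by
    have h3 : Tendsto (fun L : ℝ => 1 + R0 * L⁻¹) atTop (𝓝 (1 + R0 * 0)) :=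
      tendsto_const_nhds.add (tendsto_inv_atTop_zero.const_mul R0)
    rw [mul_zero, add_zero] at h3
    refine h3.congr' ?_
    filter_upwards [eventually_gt_atTop 0] with L hL
    field_simp
  have h4 := h1.mul h2
  rw [mul_one] at h4
  refine h4.congr' ?_
  filter_upwards [eventually_gt_atTop 0, eventually_gt_atTop (-R0)] with L hL hL'
  have h5 : L + R0 ≠ 0 := by linarith
  unfold kk
  rw [show (L + R0) / (b + R0) = (1 / (b + R0)) * (L + R0) by ring]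
  field_simp

lemma kk3_div_tendsto {R0 b : ℝ} (hbR : 0 < b + R0) :
    Tendsto (fun L : ℝ => ((kk R0 b L ^ 3 - 1 : ℕ) : ℝ) / L ^ 3) atTop
      (𝓝 (1 / (b + R0) ^ 3)) := by
  have h1 := (kk_div_tendsto hbR).pow 3
  have h2 : Tendsto (fun L : ℝ => 1 / L ^ 3) atTop (𝓝 0) := by
    have := tendsto_pow_neg_atTop (𝕜 := ℝ) (n := 3) (by norm_num)
    refine this.congr' ?_
    filter_upwards [eventually_gt_atTop 0] with L hL
    rw [zpow_neg, one_div]
    norm_cast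
  have h3 := h1.sub h2
  have hk : ∀ᶠ L : ℝ in atTop, 1 ≤ kk R0 b L := by
    filter_upwards [eventually_ge_atTop b] with L hL
    unfold kk
    rw [Nat.one_le_floor_iff]
    rw [le_div_iff₀ hbR]
    linarith
  refine (h3.congr' ?_).trans (by simp)
  filter_upwards [hk, eventually_gt_atTop 0] with L hL hL0
  have : 1 ≤ kk R0 b L ^ 3 := Nat.one_le_pow _ _ hL
  rw [Nat.cast_sub this]
  push_cast
  field_simp

lemma inv_cube_tendsto : Tendsto (fun L : ℝ => 1 / L ^ 3) atTop (𝓝 0) := by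
  have := tendsto_pow_neg_atTop (𝕜 := ℝ) (n := 3) (by norm_num)
  refine this.congr' ?_
  filter_upwards [eventually_gt_atTop 0] with L hL
  rw [zpow_neg, one_div]
  norm_cast

lemma tendsto_cube_atTop : Tendsto (fun L : ℝ => L ^ 3) atTop atTop :=
  tendsto_pow_atTop (by norm_num)

lemma floor_cube_tendsto {ρ : ℝ} (hρ : 0 ≤ ρ) :
    Tendsto (fun L : ℝ => (⌊ρ * L ^ 3⌋₊ : ℝ) / L ^ 3) atTop (𝓝 ρ) :=
  (tendsto_nat_floor_mul_div_atTop hρ).comp tendsto_cube_atTop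

lemma sum_ite_range {α : Type*} [AddCommMonoid α] (m M : ℕ) (h : m ≤ M) (a b : α) :
    ∑ i ∈ Finset.range M, (if i < m then a else b) = m • a + (M - m) • b := by
  obtain ⟨t, rfl⟩ := Nat.exists_eq_add_of_le h
  rw [Finset.sum_range_add]
  congr 1
  · rw [Finset.sum_congr rfl (g := fun _ => a)]
    · simp
    · intro i hi
      simp [Finset.mem_range.mp hi]
  · rw [Finset.sum_congr rfl (g := fun _ => b)]
    · simp
    · intro i _
      simp

lemma sum_blocks {α : Type*} [AddCommMonoid α] (g : ℕ → α) (m M n1 n2 r : ℕ) (h : m ≤ M) :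
    ∑ c : Fin (M + 1), g (if (c : ℕ) < m then n2 else if (c : ℕ) < M then n1 else r)
      = m • g n2 + (M - m) • g n1 + g r := by
  rw [Fin.sum_univ_eq_sum_range
    (fun i => g (if i < m then n2 else if i < M then n1 else r)) (M + 1),
    Finset.sum_range_succ]
  congr 1
  · rw [← sum_ite_range m M h]
    refine Finset.sum_congr rfl fun i hi => ?_
    rw [Finset.mem_range] at hi
    by_cases h' : i < m <;> simp [h', hi]
  · have : ¬ (M < m) := by omega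
    simp [this]

theorem lower_combo {R0 C : ℝ} {z : ℝ → ℕ → ℝ} (h : BlockSuper R0 C z) {b ρ : ℝ} (hb : 0 < b)
    {n1 n2 : ℕ} (h1 : (n1 : ℝ) < ρ * (b + R0) ^ 3) (h2 : ρ * (b + R0) ^ 3 < n2)
    {ε : ℝ} (hε : 0 < ε) :
    ∀ᶠ L in atTop, combo R0 z ρ b n1 n2 - ε ≤ z L ⌊ρ * L ^ 3⌋₊ / L ^ 3 := by
  have hR := h.R0_pos
  have hbR : 0 < b + R0 := by linarith
  have hv : 0 < (b + R0) ^ 3 := by positivity
  have hn12 : (n1 : ℝ) < n2 := h1.trans h2
  have hn12' : n1 < n2 := by exact_mod_cast hn12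
  have hρ : 0 ≤ ρ := by
    have : 0 < ρ * (b + R0) ^ 3 := lt_of_le_of_lt (Nat.cast_nonneg _) h1
    exact (pos_of_mul_pos_left this hv.le).le
  set q : ℕ := n2 - n1 with hq
  have hqpos : 0 < q := by omega
  have hqR : (q : ℝ) = n2 - n1 := by rw [hq, Nat.cast_sub hn12'.le]
  have hqR0 : (0 : ℝ) < q := by exact_mod_cast hqpos
  -- main sequences
  let M : ℝ → ℕ := fun L => kk R0 b L ^ 3 - 1
  let N : ℝ → ℕ := fun L => ⌊ρ * L ^ 3⌋₊
  let D : ℝ → ℕ := fun L => N L - M L * n1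
  have hM : Tendsto (fun L => (M L : ℝ) / L ^ 3) atTop (𝓝 (1 / (b + R0) ^ 3)) :=
    kk3_div_tendsto hbR
  have hN : Tendsto (fun L => (N L : ℝ) / L ^ 3) atTop (𝓝 ρ) := floor_cube_tendsto hρ
  have hk : ∀ᶠ L : ℝ in atTop, 1 ≤ kk R0 b L := by
    filter_upwards [eventually_ge_atTop b] with L hL
    unfold kk
    rw [Nat.one_le_floor_iff, le_div_iff₀ hbR]
    linarith
  -- D is well defined eventually
  have hDlow : ∀ᶠ L : ℝ in atTop, M L * n1 ≤ N L := by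
    have t1 : Tendsto (fun L => (N L : ℝ) / L ^ 3 - (M L : ℝ) / L ^ 3 * n1) atTop
        (𝓝 (ρ - 1 / (b + R0) ^ 3 * n1)) := hN.sub (hM.mul_const _)
    have t2 : 0 < ρ - 1 / (b + R0) ^ 3 * n1 := by
      have : n1 / (b + R0) ^ 3 < ρ := by rwa [div_lt_iff₀ hv]
      have e : 1 / (b + R0) ^ 3 * n1 = n1 / (b + R0) ^ 3 := by ring
      rw [e]; linarith
    filter_upwards [t1.eventually (lt_mem_nhds t2), eventually_gt_atTop 0] with L hL hL0
    have hL3 : 0 < L ^ 3 := by positivity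
    have : 0 < ((N L : ℝ) - M L * n1) / L ^ 3 := by
      have e : ((N L : ℝ) - M L * n1) / L ^ 3 = (N L : ℝ) / L ^ 3 - (M L : ℝ) / L ^ 3 * n1 := by
        ring
      rw [e]; exact hL
    have := (div_pos_iff_of_pos_right hL3).mp this
    have : (M L : ℝ) * n1 ≤ N L := by linarith
    exact_mod_cast this
  have hDup : ∀ᶠ L : ℝ in atTop, N L ≤ M L * n2 := by
    have t1 : Tendsto (fun L => (M L : ℝ) / L ^ 3 * n2 - (N L : ℝ) / L ^ 3) atTop
        (𝓝 (1 / (b + R0) ^ 3 * n2 - ρ)) := (hM.mul_const _).sub hN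
    have t2 : 0 < 1 / (b + R0) ^ 3 * n2 - ρ := by
      have : ρ < n2 / (b + R0) ^ 3 := by rwa [lt_div_iff₀ hv]
      have e : 1 / (b + R0) ^ 3 * n2 = n2 / (b + R0) ^ 3 := by ring
      rw [e]; linarith
    filter_upwards [t1.eventually (lt_mem_nhds t2), eventually_gt_atTop 0] with L hL hL0
    have hL3 : 0 < L ^ 3 := by positivity
    have : 0 < ((M L : ℝ) * n2 - N L) / L ^ 3 := by
      have e : ((M L : ℝ) * n2 - N L) / L ^ 3 = (M L : ℝ) / L ^ 3 * n2 - (N L : ℝ) / L ^ 3 := by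
        ring
      rw [e]; exact hL
    have := (div_pos_iff_of_pos_right hL3).mp this
    have : (N L : ℝ) ≤ (M L : ℝ) * n2 := by linarith
    exact_mod_cast this
  let K : ℝ := ∑ r ∈ Finset.range q, |z b r|
  -- finite volume inequality
  have hfin : ∀ᶠ L : ℝ in atTop,
      ((D L / q : ℕ) : ℝ) * z b n2 + ((M L : ℝ) - ((D L / q : ℕ) : ℝ)) * z b n1 - K
        ≤ z L (N L) := by
    filter_upwards [hk, hDlow, hDup, eventually_gt_atTop 0] with L hkL hlow hup hL0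
    have hm : D L / q ≤ M L := by
      apply Nat.div_le_of_le_mul
      show N L - M L * n1 ≤ q * M L
      have : M L * n2 = M L * n1 + q * M L := by
        have : n2 = n1 + q := by omega
        rw [this]; ring
      omega
    have hM1 : M L + 1 = kk R0 b L ^ 3 := by
      have : 1 ≤ kk R0 b L ^ 3 := Nat.one_le_pow _ _ hkL
      show kk R0 b L ^ 3 - 1 + 1 = _
      omega
    have key := h.super b L (kk R0 b L) hb (kk_le hbR (by linarith))
    rw [← hM1] at key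
    have key2 := key (fun c => if (c : ℕ) < D L / q then n2 else if (c : ℕ) < M L then n1
      else D L % q)
    have e1 := sum_blocks (fun n => n) (D L / q) (M L) n1 n2 (D L % q) hm
    have e2 := sum_blocks (fun n => z b n) (D L / q) (M L) n1 n2 (D L % q) hm
    simp only [smul_eq_mul, nsmul_eq_mul] at e1 e2
    rw [e1, e2] at key2
    have e3 : D L / q * n2 + (M L - D L / q) * n1 + D L % q = N L := by
      have a1 : n2 = n1 + q := by omega
      have a2 : D L / q * q + D L % q = D L := Nat.div_add_mod' _ _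
      have a3 : D L = N L - M L * n1 := rfl
      have a4 : D L / q * n1 + (M L - D L / q) * n1 = M L * n1 := by
        rw [← Nat.add_mul]
        congr 1
        omega
      rw [a1, Nat.mul_add]
      generalize D L / q * q = X at *
      generalize D L % q = Y at *
      generalize D L / q * n1 = W at *
      generalize (M L - D L / q) * n1 = V at *
      omega
    rw [e3] at key2
    rw [Nat.cast_sub hm] at key2
    have e4 : -K ≤ z b (D L % q) := by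
      have : |z b (D L % q)| ≤ K :=
        Finset.single_le_sum (f := fun r => |z b r|) (fun i _ => abs_nonneg _)
          (Finset.mem_range.mpr (Nat.mod_lt _ hqpos))
      have := neg_abs_le (z b (D L % q))
      linarith
    linarith
  -- limit of the lower bound
  have hD : Tendsto (fun L => ((D L / q : ℕ) : ℝ) / L ^ 3) atTop
      (𝓝 ((ρ - 1 / (b + R0) ^ 3 * n1) / q)) := by
    have t1 : Tendsto (fun L => ((N L : ℝ) / L ^ 3 - (M L : ℝ) / L ^ 3 * n1) / q) atTop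
        (𝓝 ((ρ - 1 / (b + R0) ^ 3 * n1) / q)) := (hN.sub (hM.mul_const _)).div_const _
    have t2 : Tendsto (fun L => ((N L : ℝ) / L ^ 3 - (M L : ℝ) / L ^ 3 * n1) / q - 1 / L ^ 3)
        atTop (𝓝 ((ρ - 1 / (b + R0) ^ 3 * n1) / q)) := by
      have := t1.sub inv_cube_tendsto
      rwa [sub_zero] at this
    refine tendsto_of_tendsto_of_tendsto_of_le_of_le' t2 t1 ?_ ?_
    · filter_upwards [hDlow, eventually_gt_atTop 0] with L hlow hL0
      have hL3 : 0 < L ^ 3 := by positivity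
      have hDR : (D L : ℝ) = (N L : ℝ) - M L * n1 := by
        show ((N L - M L * n1 : ℕ) : ℝ) = _
        rw [Nat.cast_sub hlow]; push_cast; ring
      have : (D L : ℝ) / q - 1 ≤ ((D L / q : ℕ) : ℝ) := by
        have hlt := Nat.lt_div_mul_add (a := D L) hqpos
        have hlt' : (D L : ℝ) < ((D L / q : ℕ) : ℝ) * q + q := by exact_mod_cast hlt
        rw [sub_le_iff_le_add, div_le_iff₀ hqR0]
        linarith
      have e : ((N L : ℝ) / L ^ 3 - (M L : ℝ) / L ^ 3 * n1) / q - 1 / L ^ 3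
          = ((D L : ℝ) / q - 1) / L ^ 3 := by
        rw [hDR]; field_simp
      rw [e]
      exact div_le_div_of_nonneg_right this hL3.le
    · filter_upwards [hDlow, eventually_gt_atTop 0] with L hlow hL0
      have hL3 : 0 < L ^ 3 := by positivity
      have hDR : (D L : ℝ) = (N L : ℝ) - M L * n1 := by
        show ((N L - M L * n1 : ℕ) : ℝ) = _
        rw [Nat.cast_sub hlow]; push_cast; ring
      have : ((D L / q : ℕ) : ℝ) ≤ (D L : ℝ) / q := Nat.cast_div_le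
      have e : ((N L : ℝ) / L ^ 3 - (M L : ℝ) / L ^ 3 * n1) / q
          = ((D L : ℝ) / q) / L ^ 3 := by
        rw [hDR]; field_simp
      rw [e]
      exact div_le_div_of_nonneg_right this hL3.le
  have hlim : Tendsto (fun L => ((D L / q : ℕ) : ℝ) / L ^ 3 * z b n2
      + ((M L : ℝ) / L ^ 3 - ((D L / q : ℕ) : ℝ) / L ^ 3) * z b n1 - K * (1 / L ^ 3)) atTop
      (𝓝 (combo R0 z ρ b n1 n2)) := by
    have t := ((hD.mul_const (z b n2)).add ((hM.sub hD).mul_const (z b n1))).sub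
      (inv_cube_tendsto.const_mul K)
    convert t using 2
    unfold combo
    rw [hqR]
    have : (n2 : ℝ) - n1 ≠ 0 := by linarith
    field_simp
    ring
  filter_upwards [hlim.eventually (lt_mem_nhds (show combo R0 z ρ b n1 n2 - ε < combo R0 z ρ b n1 n2
    by linarith)), hfin, eventually_gt_atTop 0] with L hL1 hL2 hL0
  have hL3 : 0 < L ^ 3 := by positivity
  refine hL1.le.trans ?_
  rw [le_div_iff₀ hL3]
  refine le_trans (le_of_eq ?_) hL2
  field_simp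

/-- finite-volume pressure at density `ρ` -/
noncomputable def g (z : ℝ → ℕ → ℝ) (ρ L : ℝ) : ℝ := z L ⌊ρ * L ^ 3⌋₊ / L ^ 3

/-- thermodynamic limit `lim L^{-3} z(L, ⌊ρ L^3⌋)` -/
noncomputable def sigma (z : ℝ → ℕ → ℝ) (ρ : ℝ) : ℝ := limUnder atTop (fun L : ℝ => g z ρ L)

lemma vol_ratio_tendsto (R0 : ℝ) :
    Tendsto (fun b : ℝ => (b + R0) ^ 3 / b ^ 3) atTop (𝓝 1) := by
  have h3 : Tendsto (fun L : ℝ => (1 + R0 * L⁻¹) ^ 3) atTop (𝓝 ((1 + R0 * 0) ^ 3)) :=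
    (tendsto_const_nhds.add (tendsto_inv_atTop_zero.const_mul R0)).pow 3
  rw [mul_zero, add_zero, one_pow] at h3
  refine h3.congr' ?_
  filter_upwards [eventually_gt_atTop 0] with L hL
  field_simp

lemma eventually_lt_vol {R0 ρ1 ρ : ℝ} (hR : 0 < R0) (h0 : 0 ≤ ρ1) (h1 : ρ1 ≤ ρ) (hρ : 0 < ρ) :
    ∀ᶠ b : ℝ in atTop, (⌊ρ1 * b ^ 3⌋₊ : ℝ) < ρ * (b + R0) ^ 3 := by
  filter_upwards [eventually_gt_atTop 0] with b hb
  have a1 : (⌊ρ1 * b ^ 3⌋₊ : ℝ) ≤ ρ1 * b ^ 3 := Nat.floor_le (by positivity)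
  have a2 : ρ1 * b ^ 3 ≤ ρ * b ^ 3 := mul_le_mul_of_nonneg_right h1 (by positivity)
  have a3 : b ^ 3 < (b + R0) ^ 3 := by gcongr; linarith
  have a4 : ρ * b ^ 3 < ρ * (b + R0) ^ 3 := by gcongr
  linarith

lemma eventually_vol_lt {R0 ρ2 ρ : ℝ} (h0 : 0 ≤ ρ2) (h1 : ρ < ρ2) :
    ∀ᶠ b : ℝ in atTop, ρ * (b + R0) ^ 3 < (⌊ρ2 * b ^ 3⌋₊ : ℝ) := by
  have t1 := ((vol_ratio_tendsto R0).const_mul ρ)
  have t2 := floor_cube_tendsto h0
  rw [mul_one] at t1
  filter_upwards [(t2.sub t1).eventually (lt_mem_nhds (show 0 < ρ2 - ρ by linarith)),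
    eventually_gt_atTop 0] with b hb hb0
  have hb3 : 0 < b ^ 3 := by positivity
  have e : (⌊ρ2 * b ^ 3⌋₊ : ℝ) / b ^ 3 - ρ * ((b + R0) ^ 3 / b ^ 3)
      = ((⌊ρ2 * b ^ 3⌋₊ : ℝ) - ρ * (b + R0) ^ 3) / b ^ 3 := by ring
  rw [e] at hb
  have := (div_pos_iff_of_pos_right hb3).mp hb
  linarith

/-- first coefficient -/
lemma coef1_tendsto {R0 ρ1 ρ ρ2 : ℝ} (h0 : 0 ≤ ρ1) (h12 : ρ1 < ρ2) :
    Tendsto (fun b : ℝ => ((⌊ρ2 * b ^ 3⌋₊ : ℝ) - ρ * (b + R0) ^ 3) * b ^ 3 /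
      ((b + R0) ^ 3 * ((⌊ρ2 * b ^ 3⌋₊ : ℝ) - ⌊ρ1 * b ^ 3⌋₊))) atTop
      (𝓝 ((ρ2 - ρ) / (ρ2 - ρ1))) := by
  have t1 := vol_ratio_tendsto R0
  have t2 := floor_cube_tendsto (h0.trans h12.le)
  have t3 := floor_cube_tendsto h0
  have t := (t2.sub (t1.const_mul ρ)).div (t1.mul (t2.sub t3)) (by
    rw [one_mul]; intro h; linarith)
  rw [mul_one, one_mul] at t
  refine t.congr' ?_
  filter_upwards [eventually_gt_atTop 0] with b hb
  have hb3 : b ^ 3 ≠ 0 := by positivity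
  simp only [Pi.div_apply]
  field_simp

lemma coef2_tendsto {R0 ρ1 ρ ρ2 : ℝ} (h0 : 0 ≤ ρ1) (h12 : ρ1 < ρ2) :
    Tendsto (fun b : ℝ => (ρ * (b + R0) ^ 3 - (⌊ρ1 * b ^ 3⌋₊ : ℝ)) * b ^ 3 /
      ((b + R0) ^ 3 * ((⌊ρ2 * b ^ 3⌋₊ : ℝ) - ⌊ρ1 * b ^ 3⌋₊))) atTop
      (𝓝 ((ρ - ρ1) / (ρ2 - ρ1))) := by
  have t1 := vol_ratio_tendsto R0
  have t2 := floor_cube_tendsto (h0.trans h12.le)
  have t3 := floor_cube_tendsto h0
  have t := ((t1.const_mul ρ).sub t3).div (t1.mul (t2.sub t3)) (by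
    rw [one_mul]; intro h; linarith)
  rw [mul_one, one_mul] at t
  refine t.congr' ?_
  filter_upwards [eventually_gt_atTop 0] with b hb
  have hb3 : b ^ 3 ≠ 0 := by positivity
  simp only [Pi.div_apply]
  field_simp

lemma combo_eq {R0 : ℝ} (z : ℝ → ℕ → ℝ) (ρ ρ1 ρ2 : ℝ) {b : ℝ} (hb : 0 < b) :
    combo R0 z ρ b ⌊ρ1 * b ^ 3⌋₊ ⌊ρ2 * b ^ 3⌋₊ =
      ((⌊ρ2 * b ^ 3⌋₊ : ℝ) - ρ * (b + R0) ^ 3) * b ^ 3 /
      ((b + R0) ^ 3 * ((⌊ρ2 * b ^ 3⌋₊ : ℝ) - ⌊ρ1 * b ^ 3⌋₊)) * g z ρ1 b +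
      (ρ * (b + R0) ^ 3 - (⌊ρ1 * b ^ 3⌋₊ : ℝ)) * b ^ 3 /
      ((b + R0) ^ 3 * ((⌊ρ2 * b ^ 3⌋₊ : ℝ) - ⌊ρ1 * b ^ 3⌋₊)) * g z ρ2 b := by
  unfold combo g
  have hb3 : b ^ 3 ≠ 0 := by positivity
  rw [add_div]
  congr 1
  · rw [div_mul_div_comm, mul_right_comm]
    rw [mul_div_mul_right _ _ hb3]
  · rw [div_mul_div_comm, mul_right_comm]
    rw [mul_div_mul_right _ _ hb3]

section main

variable {R0 C : ℝ} {z : ℝ → ℕ → ℝ}

lemma upper_tendsto {ρ : ℝ} (C : ℝ) (hρ : 0 < ρ) :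
    Tendsto (fun L : ℝ => C * ((⌊ρ * L ^ 3⌋₊ : ℝ) / L ^ 3) +
      ((⌊ρ * L ^ 3⌋₊ : ℝ) / L ^ 3) * Real.log (((⌊ρ * L ^ 3⌋₊ : ℝ) / L ^ 3)⁻¹)) atTop
      (𝓝 (C * ρ + ρ * Real.log ρ⁻¹)) := by
  have t := floor_cube_tendsto hρ.le
  exact (t.const_mul C).add (t.mul ((t.inv₀ hρ.ne').log (inv_ne_zero hρ.ne')))

lemma g_le (h : BlockSuper R0 C z) {ρ : ℝ} (hρ : 0 < ρ) :
    ∀ᶠ L : ℝ in atTop, g z ρ L ≤ C * ((⌊ρ * L ^ 3⌋₊ : ℝ) / L ^ 3) +
      ((⌊ρ * L ^ 3⌋₊ : ℝ) / L ^ 3) * Real.log (((⌊ρ * L ^ 3⌋₊ : ℝ) / L ^ 3)⁻¹) := by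
  have t := floor_cube_tendsto hρ.le
  filter_upwards [t.eventually (lt_mem_nhds hρ), eventually_gt_atTop 0] with L hL hL0
  have hL3 : 0 < L ^ 3 := by positivity
  have hN : (0 : ℝ) < ⌊ρ * L ^ 3⌋₊ := by
    by_contra hcon
    have h0 : (⌊ρ * L ^ 3⌋₊ : ℝ) = 0 :=
      le_antisymm (not_lt.mp hcon) (Nat.cast_nonneg _)
    rw [h0] at hL
    simp at hL
  have hN' : 0 < ⌊ρ * L ^ 3⌋₊ := by exact_mod_cast hN
  have := h.upper L _ hL0 hN'
  unfold g
  rw [div_le_iff₀ hL3, inv_div]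
  refine this.trans (le_of_eq ?_)
  field_simp

lemma bddAbove_g (h : BlockSuper R0 C z) {ρ : ℝ} (hρ : 0 < ρ) :
    ∃ K, ∀ᶠ L : ℝ in atTop, g z ρ L ≤ K := by
  refine ⟨C * ρ + ρ * Real.log ρ⁻¹ + 1, ?_⟩
  filter_upwards [g_le h hρ, (upper_tendsto C hρ).eventually
    (gt_mem_nhds (show _ < C * ρ + ρ * Real.log ρ⁻¹ + 1 by linarith))] with L h1 h2
  linarith

lemma bddBelow_g (h : BlockSuper R0 C z) {ρ : ℝ} (hρ : 0 < ρ) :
    ∃ K, ∀ᶠ L : ℝ in atTop, K ≤ g z ρ L := by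
  have hR := h.R0_pos
  have hpos : 0 < ρ * (1 + R0) ^ 3 := by positivity
  refine ⟨combo R0 z ρ 1 0 (⌊ρ * (1 + R0) ^ 3⌋₊ + 1) - 1, ?_⟩
  have := lower_combo h (b := 1) (ρ := ρ) one_pos (n1 := 0) (n2 := ⌊ρ * (1 + R0) ^ 3⌋₊ + 1)
    (by simpa using hpos) (by push_cast; exact Nat.lt_floor_add_one _) one_pos
  exact this

lemma bdd_norm_g (h : BlockSuper R0 C z) {ρ : ℝ} (hρ : 0 < ρ) :
    IsBoundedUnder (· ≤ ·) atTop (norm ∘ fun L : ℝ => g z ρ L) := by
  obtain ⟨K1, h1⟩ := bddAbove_g h hρ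
  obtain ⟨K2, h2⟩ := bddBelow_g h hρ
  refine ⟨max |K1| |K2|, ?_⟩
  rw [eventually_map]
  filter_upwards [h1, h2] with L a1 a2
  simp only [Function.comp, Real.norm_eq_abs]
  rw [abs_le]
  constructor
  · have := neg_abs_le K2
    have := le_max_right |K1| |K2|
    linarith
  · have := le_abs_self K1
    have := le_max_left |K1| |K2|
    linarith

lemma almost_mono (h : BlockSuper R0 C z) {ρ : ℝ} (hρ : 0 < ρ) {ε : ℝ} (hε : 0 < ε) :
    ∀ᶠ b : ℝ in atTop, ∀ᶠ L : ℝ in atTop, g z ρ b - ε ≤ g z ρ L := by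
  have hR := h.R0_pos
  have h2ρ : 0 < 2 * ρ := by linarith
  have c1 := coef1_tendsto (R0 := R0) (ρ := ρ) hρ.le (show ρ < 2 * ρ by linarith)
  have c2 := coef2_tendsto (R0 := R0) (ρ := ρ) hρ.le (show ρ < 2 * ρ by linarith)
  have e1 : (2 * ρ - ρ) / (2 * ρ - ρ) = 1 := div_self (by linarith)
  have e2 : (ρ - ρ) / (2 * ρ - ρ) = 0 := by simp
  rw [e1] at c1
  rw [e2] at c2
  have c1' : Tendsto (fun b : ℝ => ((⌊(2 * ρ) * b ^ 3⌋₊ : ℝ) - ρ * (b + R0) ^ 3) * b ^ 3 /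
      ((b + R0) ^ 3 * ((⌊(2 * ρ) * b ^ 3⌋₊ : ℝ) - ⌊ρ * b ^ 3⌋₊)) - 1) atTop (𝓝 0) := by
    have := c1.sub_const 1
    rwa [sub_self] at this
  have d1 := c1'.zero_mul_isBoundedUnder_le (bdd_norm_g h hρ)
  have d2 := c2.zero_mul_isBoundedUnder_le (bdd_norm_g h h2ρ)
  have d := d1.add d2
  rw [add_zero] at d
  filter_upwards [d.eventually (lt_mem_nhds (show -(ε / 2) < 0 by linarith)),
    eventually_lt_vol hR hρ.le le_rfl hρ,
    eventually_vol_lt (R0 := R0) h2ρ.le (show ρ < 2 * ρ by linarith),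
    eventually_gt_atTop 0] with b hb1 hb2 hb3 hb0
  filter_upwards [lower_combo h hb0 hb2 hb3 (half_pos hε)] with L hL
  rw [combo_eq z ρ ρ (2 * ρ) hb0] at hL
  change _ ≤ g z ρ L at hL
  linarith

theorem exists_tendsto (h : BlockSuper R0 C z) {ρ : ℝ} (hρ : 0 < ρ) :
    ∃ l, Tendsto (fun L : ℝ => g z ρ L) atTop (𝓝 l) := by
  obtain ⟨K1, h1⟩ := bddAbove_g h hρ
  obtain ⟨K2, h2⟩ := bddBelow_g h hρ
  have hb : IsBoundedUnder (· ≤ ·) atTop (fun L : ℝ => g z ρ L) := ⟨K1, by rwa [eventually_map]⟩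
  have hb' : IsBoundedUnder (· ≥ ·) atTop (fun L : ℝ => g z ρ L) := ⟨K2, by rwa [eventually_map]⟩
  have hc : IsCoboundedUnder (· ≤ ·) atTop (fun L : ℝ => g z ρ L) := hb'.isCoboundedUnder_le
  refine ⟨limsup (fun L : ℝ => g z ρ L) atTop, ?_⟩
  rw [Metric.tendsto_nhds]
  intro ε hε
  have u := eventually_lt_of_limsup_lt
    (show limsup (fun L : ℝ => g z ρ L) atTop < limsup (fun L : ℝ => g z ρ L) atTop + ε
      by linarith) hb
  have f := frequently_lt_of_lt_limsup hc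
    (show limsup (fun L : ℝ => g z ρ L) atTop - ε / 2 < limsup (fun L : ℝ => g z ρ L) atTop
      by linarith)
  obtain ⟨b, hb1, hb2⟩ := (f.and_eventually (almost_mono h hρ (half_pos hε))).exists
  filter_upwards [u, hb2] with L a1 a2
  rw [Real.dist_eq, abs_lt]
  constructor <;> linarith

lemma g_zero (h : BlockSuper R0 C z) : (fun L : ℝ => g z 0 L) =ᶠ[atTop] fun _ => 0 := by
  filter_upwards [eventually_gt_atTop 0] with L hL
  unfold g
  rw [zero_mul, Nat.floor_zero, h.zero L hL, zero_div]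

theorem tendsto_sigma (h : BlockSuper R0 C z) {ρ : ℝ} (hρ : 0 ≤ ρ) :
    Tendsto (fun L : ℝ => z L ⌊ρ * L ^ 3⌋₊ / L ^ 3) atTop (𝓝 (sigma z ρ)) := by
  rcases hρ.eq_or_lt with rfl | hρ
  · exact tendsto_nhds_limUnder ⟨0, tendsto_const_nhds.congr' (g_zero h).symm⟩
  · exact tendsto_nhds_limUnder (exists_tendsto h hρ)

theorem sigma_zero (h : BlockSuper R0 C z) : sigma z 0 = 0 :=
  tendsto_nhds_unique (tendsto_sigma h le_rfl) (tendsto_const_nhds.congr' (g_zero h).symm)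

theorem sigma_le (h : BlockSuper R0 C z) {ρ : ℝ} (hρ : 0 < ρ) :
    sigma z ρ ≤ C * ρ - ρ * Real.log ρ := by
  have := le_of_tendsto_of_tendsto (tendsto_sigma h hρ.le) (upper_tendsto C hρ) (g_le h hρ)
  rw [Real.log_inv] at this
  linarith

/-- the combination at finite volume is a lower bound for the limit -/
theorem combo_le_sigma (h : BlockSuper R0 C z) {b ρ : ℝ} (hb : 0 < b)
    {n1 n2 : ℕ} (h1 : (n1 : ℝ) < ρ * (b + R0) ^ 3) (h2 : ρ * (b + R0) ^ 3 < n2) :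
    combo R0 z ρ b n1 n2 ≤ sigma z ρ := by
  have hR := h.R0_pos
  have hv : 0 < (b + R0) ^ 3 := by
    have : 0 < b + R0 := by linarith
    positivity
  have hρ : 0 ≤ ρ := by
    have : 0 < ρ * (b + R0) ^ 3 := lt_of_le_of_lt (Nat.cast_nonneg _) h1
    exact (pos_of_mul_pos_left this hv.le).le
  apply le_of_forall_pos_lt_add
  intro ε hε
  have := ge_of_tendsto (tendsto_sigma h hρ) (lower_combo h hb h1 h2 (half_pos hε))
  linarith

theorem sigma_combo (h : BlockSuper R0 C z) {ρ1 ρ ρ2 : ℝ} (h0 : 0 ≤ ρ1) (h1 : ρ1 < ρ)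
    (h2 : ρ < ρ2) :
    (ρ2 - ρ) / (ρ2 - ρ1) * sigma z ρ1 + (ρ - ρ1) / (ρ2 - ρ1) * sigma z ρ2 ≤ sigma z ρ := by
  have hR := h.R0_pos
  have hρ : 0 < ρ := by linarith
  have hρ2 : 0 ≤ ρ2 := by linarith
  have t := ((coef1_tendsto (R0 := R0) (ρ := ρ) h0 (h1.trans h2)).mul (tendsto_sigma h h0)).add
    ((coef2_tendsto (R0 := R0) (ρ := ρ) h0 (h1.trans h2)).mul (tendsto_sigma h hρ2))
  refine le_of_tendsto t ?_
  filter_upwards [eventually_lt_vol hR h0 h1.le hρ, eventually_vol_lt (R0 := R0) hρ2 h2,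
    eventually_gt_atTop 0] with b hb1 hb2 hb0
  have := combo_le_sigma h hb0 hb1 hb2
  rw [combo_eq z ρ ρ1 ρ2 hb0] at this
  exact this

theorem sigma_concaveOn (h : BlockSuper R0 C z) : ConcaveOn ℝ (Set.Ici 0) (sigma z) := by
  apply LinearOrder.concaveOn_of_lt (convex_Ici 0)
  intro x hx y hy hxy a c ha hc hac
  have hx0 : (0 : ℝ) ≤ x := hx
  have hyx : 0 < y - x := by linarith
  have e : a • x + c • y = a * x + c * y := by simp
  have hc' : c = 1 - a := by linarith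
  have l1 : x < a * x + c * y := by
    have : a * x + c * y - x = c * (y - x) := by rw [hc']; ring
    have : 0 < c * (y - x) := by positivity
    linarith
  have l2 : a * x + c * y < y := by
    have : y - (a * x + c * y) = a * (y - x) := by rw [hc']; ring
    have : 0 < a * (y - x) := by positivity
    linarith
  have key := sigma_combo h hx0 l1 l2
  rw [e]
  simp only [smul_eq_mul]
  refine le_trans (le_of_eq ?_) key
  have e1 : (y - (a * x + c * y)) / (y - x) = a := by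
    rw [div_eq_iff hyx.ne', hc']; ring
  have e2 : (a * x + c * y - x) / (y - x) = c := by
    rw [div_eq_iff hyx.ne', hc']; ring
  rw [e1, e2]

theorem sigma_continuousOn (h : BlockSuper R0 C z) : ContinuousOn (sigma z) (Set.Ioi 0) :=
  ConcaveOn.continuousOn isOpen_Ioi
    ((sigma_concaveOn h).subset Set.Ioi_subset_Ici_self (convex_Ioi 0))

/-- (S1) the finite-volume lower bound -/
theorem finite_le_sigma (h : BlockSuper R0 C z) {b : ℝ} (hb : 0 < b) (n : ℕ) :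
    z b n / (b + R0) ^ 3 ≤ sigma z (n / (b + R0) ^ 3) := by
  have hR := h.R0_pos
  have hv : 0 < (b + R0) ^ 3 := by
    have : 0 < b + R0 := by linarith
    positivity
  rcases Nat.eq_zero_or_pos n with rfl | hn
  · rw [h.zero b hb]
    simp [sigma_zero h]
  · have hnR : (0 : ℝ) < n := by exact_mod_cast hn
    set v := (b + R0) ^ 3 with hvdef
    have hρ : 0 < n / v := by positivity
    have c : ContinuousAt (sigma z) (n / v) :=
      (sigma_continuousOn h).continuousAt (Ioi_mem_nhds hρ)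
    have t1 : Tendsto (sigma z) (𝓝[>] (n / v)) (𝓝 (sigma z (n / v))) :=
      c.tendsto.mono_left nhdsWithin_le_nhds
    have t2 : Tendsto (fun ρ => combo R0 z ρ b n (n + 1)) (𝓝[>] (n / v))
        (𝓝 (combo R0 z (n / v) b n (n + 1))) := by
      have : Continuous (fun ρ => combo R0 z ρ b n (n + 1)) := by
        unfold combo
        fun_prop
      exact this.continuousAt.tendsto.mono_left nhdsWithin_le_nhds
    have e : combo R0 z (n / v) b n (n + 1) = z b n / v := by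
      unfold combo
      rw [← hvdef]
      have : (n : ℝ) / v * v = n := by field_simp
      rw [this]
      push_cast
      ring
    rw [e] at t2
    refine le_of_tendsto_of_tendsto t2 t1 ?_
    have : Set.Ioo (n / v) ((n + 1) / v) ∈ 𝓝[>] (n / v) :=
      Ioo_mem_nhdsGT (by gcongr; linarith)
    filter_upwards [this] with ρ hρ'
    refine combo_le_sigma h hb ?_ ?_
    · have := hρ'.1
      rw [div_lt_iff₀ hv] at this
      exact this
    · have := hρ'.2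
      rw [lt_div_iff₀ hv] at this
      push_cast
      exact this

end main

/-- convexity in a parameter is inherited by the limit -/
theorem sigma_convexOn {R0 : ℝ} {z : ℝ → ℝ → ℕ → ℝ} {s : Set ℝ} (hs : Convex ℝ s)
    (h : ∀ β ∈ s, ∃ C, BlockSuper R0 C (z β))
    (hconv : ∀ (L : ℝ) (n : ℕ), 0 < L → ConvexOn ℝ s (fun β => z β L n)) {ρ : ℝ} (hρ : 0 ≤ ρ) :
    ConvexOn ℝ s (fun β => sigma (z β) ρ) := by
  refine ⟨hs, ?_⟩
  intro x hx y hy a c ha hc hac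
  obtain ⟨Cx, hx'⟩ := h x hx
  obtain ⟨Cy, hy'⟩ := h y hy
  obtain ⟨Cz, hz'⟩ := h _ (hs hx hy ha hc hac)
  have tx := tendsto_sigma hx' hρ
  have ty := tendsto_sigma hy' hρ
  have tz := tendsto_sigma hz' hρ
  refine le_of_tendsto_of_tendsto tz ((tx.const_smul a).add (ty.const_smul c)) ?_
  filter_upwards [eventually_gt_atTop 0] with L hL
  have := (hconv L ⌊ρ * L ^ 3⌋₊ hL).2 hx hy ha hc hac
  simp only [smul_eq_mul] at this ⊢
  have hL3 : 0 < L ^ 3 := by positivity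
  calc z (a * x + c * y) L ⌊ρ * L ^ 3⌋₊ / L ^ 3
      ≤ (a * z x L ⌊ρ * L ^ 3⌋₊ + c * z y L ⌊ρ * L ^ 3⌋₊) / L ^ 3 :=
        div_le_div_of_nonneg_right this hL3.le
    _ = _ := by ring

end Crest.Agent.R149.TLAbs
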