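import Crest.Agent.R149.Stmts
import Crest.Agent.R149.TLAbs

/-!
R149, module T: thermodynamic limit of the canonical free energy (`TLStmt`).
-/

set_option autoImplicit false

open MeasureTheory Crest.ProbabilityR.Continuum Filter Topology
open scoped ENNReal

namespace Crest.Agent.R149

open TLAbs

theorem blockSuper_LZ (hSA : SuperAddStmt) (hLZ : LZPropsStmt) {c α : ℝ → ℝ} {B β : ℝ}
    (hc : CoreOK c) (hα : AttrOK α) (hS : Stab c α B) (hβ : 0 < β) :
    BlockSuper 2 (1 + β * B) (LZ c α β) := by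
  have P := hLZ c α B β hc hα hS hβ
  refine ⟨by norm_num, ?_, fun L _ => P.zero L, ?_⟩
  · intro b L k hb hk n
    rcases Nat.eq_zero_or_pos k with rfl | hk0
    · have : IsEmpty (Fin (0 ^ 3)) := ⟨fun i => by
        have := i.isLt
        norm_num at this⟩
      have e : ∀ f : Fin (0 ^ 3) → ℝ, ∑ c, f c = 0 := by
        intro f; exact Finset.sum_of_isEmpty _
      have e' : ∀ f : Fin (0 ^ 3) → ℕ, ∑ c, f c = 0 := by
        intro f; exact Finset.sum_of_isEmpty _
      rw [e, e', P.zero]
    · have key := hSA c α B β hc hα hS hβ b k hb hk0 (fun v => n (finFunctionFinEquiv v))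
      have e1 : ∑ v : Fin 3 → Fin k, LZ c α β b (n (finFunctionFinEquiv v))
          = ∑ i, LZ c α β b (n i) :=
        Equiv.sum_comp (finFunctionFinEquiv (m := k) (n := 3)) (fun i => LZ c α β b (n i))
      have e2 : ∑ v : Fin 3 → Fin k, n (finFunctionFinEquiv v) = ∑ i, n i :=
        Equiv.sum_comp (finFunctionFinEquiv (m := k) (n := 3)) n
      rw [e1, e2] at key
      refine key.trans (P.mono _ _ _ ?_ ?_)
      · have : (1 : ℝ) ≤ k := by exact_mod_cast hk0
        nlinarith
      · linarith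
  · intro L n hL hn
    have hnR : (0 : ℝ) < n := by exact_mod_cast hn
    have hL3 : 0 < L ^ 3 := by positivity
    have h1 := P.upper L n (Real.log (n / L ^ 3) - β * B) hL
    have e1 : Real.log (n / L ^ 3) - β * B + β * B = Real.log (n / L ^ 3) := by ring
    rw [e1, Real.exp_log (by positivity)] at h1
    have e2 : L ^ 3 * (n / L ^ 3) = n := by field_simp
    rw [e2] at h1
    have e3 : Real.log (L ^ 3 / n) = - Real.log (n / L ^ 3) := by
      rw [← Real.log_inv, inv_div]
    rw [e3]
    nlinarith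

theorem tl (hSA : SuperAddStmt) (hLZ : LZPropsStmt) (hC : LZConvStmt) : TLStmt := by
  intro c α B hc hα hS
  have hBS : ∀ β, 0 < β → BlockSuper 2 (1 + β * B) (LZ c α β) := fun β hβ =>
    blockSuper_LZ hSA hLZ hc hα hS hβ
  refine ⟨fun β ρ => - sigma (LZ c α β) ρ, ?_, ?_, ?_, ?_, ?_, ?_⟩
  · intro ρ hρ β hβ
    have := (tendsto_sigma (hBS β hβ) hρ).neg
    refine this.congr fun L => ?_
    ring
  · intro β hβ
    simp [sigma_zero (hBS β hβ)]
  · intro β hβ
    exact (sigma_concaveOn (hBS β hβ)).neg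
  · intro r hr
    refine ConvexOn.neg ?_
    exact sigma_convexOn (R0 := 2) (convex_Ioi 0) (fun β hβ => ⟨_, hBS β hβ⟩)
      (fun L n hL => hC c α B hc hα hS L n hL) hr
  · intro β hβ r hr h
    have P := hLZ c α B β hc hα hS hβ
    have hbdd : BddAbove (Set.range fun q : ℕ × ℕ =>
        (h * q.2 + LZ c α β ((q.1 : ℝ) + 1) q.2) / ((q.1 : ℝ) + 3) ^ 3) := by
      refine ⟨Real.exp (h + β * B), ?_⟩
      rintro _ ⟨q, rfl⟩
      have hq : (0 : ℝ) < (q.1 : ℝ) + 1 := by positivity
      have := P.upper ((q.1 : ℝ) + 1) q.2 h hq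
      have h3 : (0 : ℝ) < ((q.1 : ℝ) + 3) ^ 3 := by positivity
      simp only
      rw [div_le_iff₀ h3]
      refine this.trans ?_
      have : ((q.1 : ℝ) + 1) ^ 3 ≤ ((q.1 : ℝ) + 3) ^ 3 := by gcongr; norm_num
      have he := Real.exp_pos (h + β * B)
      nlinarith
    have hnat : Tendsto (fun m : ℕ => (m : ℝ) + 1) atTop atTop :=
      tendsto_atTop_add_const_right _ 1 tendsto_natCast_atTop_atTop
    have t1 := (tendsto_sigma (hBS β hβ) hr).comp hnat
    have t2 := (floor_cube_tendsto hr).comp hnat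
    have t3 := (vol_ratio_tendsto 2).comp hnat
    have t := ((t2.const_mul h).add t1).div t3 one_ne_zero
    rw [div_one] at t
    show h * r - -sigma (LZ c α β) r ≤ _
    rw [sub_neg_eq_add]
    refine le_of_tendsto t (Eventually.of_forall fun m => ?_)
    have := le_ciSup hbdd (m, ⌊r * ((m : ℝ) + 1) ^ 3⌋₊)
    refine le_trans (le_of_eq ?_) this
    have hm : (0 : ℝ) < (m : ℝ) + 1 := by positivity
    simp only [Pi.div_apply, Function.comp]
    have e : (m : ℝ) + 1 + 2 = m + 3 := by ring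
    rw [e]
    field_simp
  · intro β hβ h y hy
    apply ciSup_le
    rintro ⟨m, n⟩
    have hm : (0 : ℝ) < (m : ℝ) + 1 := by positivity
    have s1 := finite_le_sigma (hBS β hβ) hm n
    have e : (m : ℝ) + 1 + 2 = m + 3 := by ring
    rw [e] at s1
    have hm3 : (0 : ℝ) < ((m : ℝ) + 3) ^ 3 := by positivity
    have := hy (n / ((m : ℝ) + 3) ^ 3) (by positivity)
    simp only
    rw [add_div]
    have e2 : h * (n / ((m : ℝ) + 3) ^ 3) = h * n / ((m : ℝ) + 3) ^ 3 := by ring
    rw [e2] at this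
    linarith

end Crest.Agent.R149
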