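import Crest.Agent.R149.Final
import Crest.Agent.R149.Main
import Crest.Agent.R149.AbsSplit
import Crest.Agent.R149.AbsTriple
import Crest.Agent.R149.TL
import Crest.Agent.R149.PrProps
import Crest.Agent.R149.LPLower
import Crest.Agent.R149.LPUpper
import Crest.Agent.R149.Lim
import Crest.Agent.R149.BaseLower
import Crest.Agent.R149.BaseUpper
import Crest.Agent.R149.KGeom
import Crest.Agent.R149.SuperStab
import Crest.Agent.R149.AttrProps
import Crest.Agent.R149.Attraction
import Crest.Agent.R149.Packing
import Crest.Agent.R149.Cores12
import Crest.Agent.R149.Kink
import Crest.Agent.R149.SuperAdd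

/-!
# Row 149: everything except the induction part of the abstract theorem
-/

set_option autoImplicit false

namespace Crest.Agent.R149

theorem mainStmt_of (h : AbsIndStmt) : MainStmt :=
  main_of (abs_of h absTriple) (tl superAdd lzProps (lzConv lzProps)) (prProps lzProps)
    (lpLower kernelProps (Attraction.e1 kernelProps) superAdd lzProps (prProps lzProps))
    LPU.lpUpper (lim lzProps SuperStab.superStab)
    (BaseLower.baseLower lzProps) (BaseUpper.baseUpper superAdd partitionStmt) coreK
    SuperStab.superStab (attrProps (Attraction.e2 kernelProps))

end Crest.Agent.R149
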