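import Crest.Agent.R149.Final
import Crest.Agent.R149.Main
import Crest.Agent.R149.AbsInd
import Crest.Agent.R149.AbsTriple
import Crest.Agent.R149.AbsSplit
import Crest.Agent.R149.SuperAdd
import Crest.Agent.R149.LZProps
import Crest.Agent.R149.PrProps
import Crest.Agent.R149.LPLower
import Crest.Agent.R149.LPUpper
import Crest.Agent.R149.Lim
import Crest.Agent.R149.Kernel
import Crest.Agent.R149.AttrProps
import Crest.Agent.R149.KGeom
import Crest.Agent.R149.Cores12
import Crest.Agent.R149.Packing
import Crest.Agent.R149.Kink
import Crest.Agent.R149.BaseLower
import Crest.Agent.R149.BaseUpper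
import Crest.Agent.R149.SuperStab
import Crest.Agent.R149.Attraction
import Crest.Agent.R149.TL

/-!
# Row 149: assembling all modules.
-/

set_option autoImplicit false

namespace Crest.Agent.R149

theorem attrPropsStmt_holds : AttrPropsStmt := attrProps (Attraction.e2 kernelProps)

theorem mainStmt_holds : MainStmt :=
  main_of (absMain absTriple)
    (tl superAdd lzProps (lzConv lzProps))
    (prProps lzProps)
    (lpLower kernelProps (Attraction.e1 kernelProps) superAdd lzProps (prProps lzProps))
    LPU.lpUpper
    (lim lzProps SuperStab.superStab)
    (BaseLower.baseLower lzProps)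
    (BaseUpper.baseUpper superAdd partitionStmt)
    coreK
    SuperStab.superStab
    attrPropsStmt_holds

end Crest.Agent.R149
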