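import Mathlib
import Crest.Prelude.Def_PairPotential
import Crest.Prelude.Def_UnitPacking

/-!
# Row 149: common definitions (multi-scale Kac potentials)

`Pt = EuclideanSpace ℝ (Fin 3)`.  Configurations are `x : ι → Pt` with `ι : Type` a `Fintype`.
-/

set_option autoImplicit false

open MeasureTheory Crest.ProbabilityR.Continuum
open scoped ENNReal

namespace Crest.Agent.R149

/-- Full double sum (diagonal included) of a pair kernel. -/
noncomputable def SQ (q : Pt → Pt → ℝ) {ι : Type} [Fintype ι] (x : ι → Pt) : ℝ :=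
  ∑ i, ∑ j, q (x i) (x j)

/-- Full double sum (diagonal included) of a radial function. -/
noncomputable def SS (g : ℝ → ℝ) {ι : Type} [Fintype ι] (x : ι → Pt) : ℝ :=
  ∑ i, ∑ j, g (dist (x i) (x j))

/-- Core energy: each unordered pair of distinct indices once. -/
noncomputable def U (c : ℝ → ℝ) {ι : Type} [Fintype ι] (x : ι → Pt) : ℝ :=
  (SS c x - Fintype.card ι * c 0) / 2

/-- Attractive energy with self energies: `1/2 ∑_{i,j} α(|x_i-x_j|)`. -/
noncomputable def A (α : ℝ → ℝ) {ι : Type} [Fintype ι] (x : ι → Pt) : ℝ :=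
  SS α x / 2

/-- Hamiltonian: core minus attraction. -/
noncomputable def Ham (c α : ℝ → ℝ) {ι : Type} [Fintype ι] (x : ι → Pt) : ℝ :=
  U c x - A α x

/-- A family of functionals of finite configurations. -/
abbrev Fam : Type 1 := ∀ (ι : Type) [Fintype ι], (ι → Pt) → ℝ

/-- Partition sum with Boltzmann weight `exp F` on the region `S` with `n` particles. -/
noncomputable def ZF (F : Fam) (S : Set Pt) (n : ℕ) : ℝ≥0∞ :=
  (n.factorial : ℝ≥0∞)⁻¹ *
    ∫⁻ x in Set.pi Set.univ (fun _ : Fin n => S), ENNReal.ofReal (Real.exp (F (Fin n) x))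

/-- Measurability and relabelling invariance of a family. -/
structure FamOK (F : Fam) : Prop where
  meas : ∀ (ι : Type) [Fintype ι], Measurable (F ι)
  perm : ∀ (ι κ : Type) [Fintype ι] [Fintype κ] (e : ι ≃ κ) (x : κ → Pt),
    F ι (fun i => x (e i)) = F κ x

/-- The family `-β * Ham`. -/
noncomputable def HF (c α : ℝ → ℝ) (β : ℝ) : Fam := fun _ _ x => -β * Ham c α x

/-- Logarithm of the canonical partition function of the cube `[0,L]^3`, with self energies. -/
noncomputable def LZ (c α : ℝ → ℝ) (β L : ℝ) (n : ℕ) : ℝ :=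
  Real.log (ZF (HF c α β) (cube L) n).toReal

/-- The pressure: supremum over integer boxes `L = q.1 + 1` (period `q.1 + 3`) and `n = q.2`. -/
noncomputable def Pr (c α : ℝ → ℝ) (β h : ℝ) : ℝ :=
  ⨆ q : ℕ × ℕ, (h * q.2 + LZ c α β ((q.1 : ℝ) + 1) q.2) / ((q.1 : ℝ) + 3) ^ 3

/-- Grid cell (side `s`, shift `z`) of a point. -/
noncomputable def cell (s : ℝ) (z : Fin 3 → ℝ) (y : Pt) : Fin 3 → ℤ :=
  fun k => ⌊(y k + z k) / s⌋

open Classical in
/-- Sum over cells of the squared occupation number: number of ordered pairs in the same cell. -/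
noncomputable def N2 (s : ℝ) (z : Fin 3 → ℝ) {ι : Type} [Fintype ι] (x : ι → Pt) : ℝ :=
  ∑ i, ∑ j, if cell s z (x i) = cell s z (x j) then (1 : ℝ) else 0

open Classical in
/-- Double sum of a radial function restricted to pairs in the same cell (diagonal included). -/
noncomputable def SC (g : ℝ → ℝ) (s : ℝ) (z : Fin 3 → ℝ) {ι : Type} [Fintype ι]
    (x : ι → Pt) : ℝ :=
  ∑ i, ∑ j, if cell s z (x i) = cell s z (x j) then g (dist (x i) (x j)) else 0

/-- Volume of the ball of radius `R`. -/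
noncomputable def vB (R : ℝ) : ℝ := (volume (Metric.closedBall (0 : Pt) R)).toReal

/-- Normalised autocorrelation of the ball of radius `R`. -/
noncomputable def wk (R r : ℝ) : ℝ :=
  (volume (Metric.closedBall (0 : Pt) R ∩
    Metric.closedBall (EuclideanSpace.single (0 : Fin 3) r : Pt) R)).toReal / (vB R) ^ 2

/-- Admissible core. -/
structure CoreOK (c : ℝ → ℝ) : Prop where
  meas : Measurable c
  nonneg : ∀ r, 0 ≤ c r
  far : ∀ r, 2 ≤ r → c r = 0
  int : ∫⁻ y : Pt, ENNReal.ofReal (c ‖y‖) ≠ ⊤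

/-- Admissible attraction. -/
structure AttrOK (α : ℝ → ℝ) : Prop where
  meas : Measurable α
  nonneg : ∀ r, 0 ≤ α r
  bdd : ∃ C : ℝ, ∀ r, α r ≤ C

/-- Stability: the attraction is dominated by a quarter of the core energy. -/
def Stab (c α : ℝ → ℝ) (B : ℝ) : Prop :=
  0 ≤ B ∧ ∀ (ι : Type) [Fintype ι] (x : ι → Pt), A α x ≤ (1 / 4) * U c x + B * Fintype.card ι

/-- Any `K+1` points with mutual distances `< 1` contain a pair with core energy `≥ M`. -/
def CoreK (c : ℝ → ℝ) (K : ℕ) (M : ℝ) : Prop :=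
  ∀ x : Fin (K + 1) → Pt, (∀ i j, dist (x i) (x j) < 1) → ∃ i j, i ≠ j ∧ M ≤ c (dist (x i) (x j))

/-- The attraction is dominated by `a` times the sum of squared occupation numbers of cells of
side `1/2`. -/
def AttrBound (α : ℝ → ℝ) (a : ℝ) : Prop :=
  0 ≤ a ∧ ∀ (ι : Type) [Fintype ι] (x : ι → Pt), A α x ≤ a * N2 (1 / 2) 0 x

/-- The geometric data: `K` points with mutual distances in `(θ₂, θ₃)` exist, `K+1` points with
mutual distances in `(1/2, 1)` do not. -/
structure KGeom (K : ℕ) (θ₂ θ₃ : ℝ) : Prop where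
  two_le : 2 ≤ K
  h12 : 1 / 2 < θ₂
  h23 : θ₂ < θ₃
  h31 : θ₃ < 1
  ex : ∃ y : Fin K → Pt, ∀ i j, i ≠ j → θ₂ < dist (y i) (y j) ∧ dist (y i) (y j) < θ₃
  nex : ∀ y : Fin (K + 1) → Pt, ¬ ∀ i j, i ≠ j → 1 / 2 < dist (y i) (y j) ∧ dist (y i) (y j) < 1

/-- Core of the special shape used in the base model. -/
structure CoreType (c : ℝ → ℝ) (θ₂ θ₃ ξ δ M : ℝ) : Prop extends CoreOK c where
  hξ : 0 < ξ
  hξ1 : ξ ≤ 1
  hδ : 0 < δ
  hδ1 : δ ≤ 1 / 4
  hM : 0 ≤ M
  far' : ∀ r, 1 + ξ ≤ r → c r = 0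
  win : ∀ r, θ₂ * δ ≤ r → r ≤ θ₃ * δ → c r = 0
  big1 : ∀ r, 0 ≤ r → r ≤ δ / 2 → M ≤ c r
  big2 : ∀ r, δ ≤ r → r < 1 → M ≤ c r

/-- Mean-field pressure of the (scaled) base model. -/
noncomputable def MF0 (p : ℝ) (K : ℕ) (h : ℝ) : ℝ :=
  max 0 (max (p * h) (p * (K * h - (K - 1))))

end Crest.Agent.R149
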