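import Crest.Agent.R149.Stmts
import Crest.Agent.R149.LZProps

/-!
# Row 149: the two final statements (S0209, S0210) from the module statements.
-/

set_option autoImplicit false

open MeasureTheory Crest.ProbabilityR.Continuum Filter Topology
open scoped ENNReal

namespace Crest.Agent.R149

namespace Final

/-- The canonical free energy of the statement from the limit of `LZ`. -/
theorem tendsto_free {c α : ℝ → ℝ} {B : ℝ} {G : ℝ → ℝ → ℝ} (hP : PartitionStmt) (hc : CoreOK c)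
    (hα : AttrOK α) (hS : Stab c α B) (hG : TLProps c α G) {r : ℝ} (hr : 0 ≤ r) {β : ℝ}
    (hβ : 0 < β) :
    Tendsto (fun L : ℝ => -(1 / (β * L ^ 3)) *
        Real.log (partitionFn (fun t => c t - α t) L ⌊r * L ^ 3⌋₊ β)) atTop
      (𝓝 (G β r / β + r * α 0 / 2)) := by
  have h1 := (hG.lim r hr β hβ).div_const β
  have h3 : Tendsto (fun L : ℝ => L ^ 3) atTop atTop := tendsto_pow_atTop (by norm_num)
  have h2 : Tendsto (fun L : ℝ => (⌊r * L ^ 3⌋₊ : ℝ) / L ^ 3) atTop (𝓝 r) :=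
    (tendsto_nat_floor_mul_div_atTop hr).comp h3
  have h4 := h1.add ((h2.mul_const (α 0)).div_const 2)
  refine h4.congr' ?_
  filter_upwards [eventually_gt_atTop 0] with L hL
  rw [hP c α B hc hα hS β L _ hβ hL]
  have hL3 : L ^ 3 ≠ 0 := by positivity
  field_simp
  ring

/-- One-sided derivatives of `G β r / β + const`. -/
theorem deriv_free {G : ℝ → ℝ} {βc C Dl Dr : ℝ} (hβ : 0 < βc)
    (hl : HasDerivWithinAt G Dl (Set.Iio βc) βc) (hr : HasDerivWithinAt G Dr (Set.Ioi βc) βc)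
    (h : Dr < Dl) : ∃ Dl' Dr' : ℝ,
      HasDerivWithinAt (fun β => G β / β + C) Dl' (Set.Iio βc) βc ∧
      HasDerivWithinAt (fun β => G β / β + C) Dr' (Set.Ioi βc) βc ∧ Dr' < Dl' := by
  refine ⟨(Dl * βc - G βc * 1) / βc ^ 2, (Dr * βc - G βc * 1) / βc ^ 2,
    (hl.div (hasDerivWithinAt_id _ _) hβ.ne').add_const C,
    (hr.div (hasDerivWithinAt_id _ _) hβ.ne').add_const C, ?_⟩
  apply div_lt_div_of_pos_right _ (by positivity)
  nlinarith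

theorem stable_energy {c α : ℝ → ℝ} {B : ℝ} (hc : CoreOK c) (hα : AttrOK α) (hS : Stab c α B)
    {n : ℕ} (x : Fin n → Pt) : -B * n ≤ energy (fun t => c t - α t) x := by
  rw [LZ.energy_eq]
  have h1 := LZ.Ham_lower hc.nonneg hS x
  have h2 := hα.nonneg 0
  simp only [Fintype.card_fin] at h1
  have h3 : 0 ≤ (n : ℝ) * α 0 / 2 := by positivity
  linarith

/-- `S0209` from the module statements. -/
theorem s0209_of (hMain : MainStmt) (hPack : PackingStmt) (hKG : KGeomStmt) (hC : Core1Stmt)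
    (hAP : AttrPropsStmt) (hP : PartitionStmt) (hK : KinkStmt) :
    ∃ φ : ℝ → ℝ, Continuous φ ∧ (∃ M : ℝ, ∀ r : ℝ, |φ r| ≤ M) ∧
      (∃ B : ℝ, ∀ (N : ℕ) (x : Fin N → Pt), -B * N ≤ energy φ x) ∧
      (∃ C : ℝ, ∀ r : ℝ, 1 ≤ r → |φ r| ≤ C * r ^ (-(3 + 1 / 32 : ℝ))) ∧
      ∃ p η βc : ℝ, 0 < p ∧
        Tendsto (fun L : ℝ => (packingNumber L : ℝ) / L ^ 3) atTop (𝓝 p) ∧
        0 < η ∧ η ≤ 5 * p / 3 ∧ 7 / 8 ≤ βc ∧ βc ≤ 9 / 8 ∧
        ∃ f : ℝ → ℝ → ℝ,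
          (∀ ρ : ℝ, 5 * p / 3 - η < ρ → ρ < 5 * p / 3 + η → ∀ β : ℝ, 0 < β →
            Tendsto (fun L : ℝ => -(1 / (β * L ^ 3)) *
                Real.log (partitionFn φ L ⌊ρ * L ^ 3⌋₊ β)) atTop (𝓝 (f β ρ))) ∧
          (∀ ρ : ℝ, 5 * p / 3 - η < ρ → ρ < 5 * p / 3 + η → ∃ Dl Dr : ℝ,
            HasDerivWithinAt (fun β => f β ρ) Dl (Set.Iio βc) βc ∧
            HasDerivWithinAt (fun β => f β ρ) Dr (Set.Ioi βc) βc ∧ Dr < Dl) := by
  obtain ⟨p, hp, hp8, hlim⟩ := hPack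
  obtain ⟨K, θ₂, θ₃, hKG⟩ := hKG
  obtain ⟨ξ, δ, M, hξ, hξ1, hδ, hδ1, hM, hmain⟩ := hMain K θ₂ θ₃ p hKG hp hp8 hlim
  obtain ⟨c, hct, hcc, hcM⟩ := hC θ₂ θ₃ ξ δ M hKG.h12 hKG.h23 hKG.h31 hξ hξ1 hδ hδ1 hM
  obtain ⟨N, a0, B, G, βc, hc, e, ρ, hN, ha0, hS, hG, hβ7, hβ9, hT, hρ0, hρp, hρ2⟩ := hmain c hct
  have AP := hAP N a0 hN ha0
  have hcore : CoreOK c := hct.toCoreOK
  have hKr : (2 : ℝ) ≤ K := by exact_mod_cast hKG.two_le
  have hβ0 : 0 < βc := by linarith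
  obtain ⟨A₀, hA₀⟩ := AP.ok.bdd
  have hA₀0 : 0 ≤ A₀ := (AP.ok.nonneg 0).trans (hA₀ 0)
  have hbd : ∀ r, |c r - αi N a0 r| ≤ M + A₀ := fun r => by
    rw [abs_le]
    have h1 := hcore.nonneg r
    have h2 := hcM r
    have h3 := AP.ok.nonneg r
    have h4 := hA₀ r
    constructor <;> linarith
  refine ⟨fun r => c r - αi N a0 r, hcc.sub AP.cont, ⟨M + A₀, hbd⟩,
    ⟨B, fun n x => stable_energy hcore AP.ok hS x⟩, ?_, p, p / 12, βc, hp, hlim, by linarith,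
    by linarith, hβ7.le, hβ9.le, fun β r => G β r / β + r * αi N a0 0 / 2, ?_, ?_⟩
  · obtain ⟨C, hC⟩ := AP.decay
    have h2pos : (0 : ℝ) < 2 ^ (-(3 + 1 / 32 : ℝ)) := Real.rpow_pos_of_pos (by norm_num) _
    have hC0 : 0 ≤ C := by
      have h1 := (AP.ok.nonneg 1).trans (hC 1 le_rfl)
      rwa [Real.one_rpow, mul_one] at h1
    refine ⟨C + M / 2 ^ (-(3 + 1 / 32 : ℝ)), fun r hr => ?_⟩
    have hr0 : 0 < r := by linarith
    have hrp : 0 < r ^ (-(3 + 1 / 32 : ℝ)) := Real.rpow_pos_of_pos hr0 _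
    have h1 : |c r| ≤ M / 2 ^ (-(3 + 1 / 32 : ℝ)) * r ^ (-(3 + 1 / 32 : ℝ)) := by
      rcases le_or_gt 2 r with h2 | h2
      · rw [hcore.far r h2, abs_zero]; positivity
      · rw [abs_of_nonneg (hcore.nonneg r)]
        have h3 : (2 : ℝ) ^ (-(3 + 1 / 32 : ℝ)) ≤ r ^ (-(3 + 1 / 32 : ℝ)) :=
          Real.rpow_le_rpow_of_nonpos hr0 h2.le (by norm_num)
        calc c r ≤ M := hcM r
          _ = M / 2 ^ (-(3 + 1 / 32 : ℝ)) * 2 ^ (-(3 + 1 / 32 : ℝ)) := by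
              field_simp
          _ ≤ M / 2 ^ (-(3 + 1 / 32 : ℝ)) * r ^ (-(3 + 1 / 32 : ℝ)) := by gcongr
    have h2 : |αi N a0 r| ≤ C * r ^ (-(3 + 1 / 32 : ℝ)) := by
      rw [abs_of_nonneg (AP.ok.nonneg r)]; exact hC r hr
    calc |c r - αi N a0 r| ≤ |c r| + |αi N a0 r| := abs_sub _ _
      _ ≤ _ := by rw [add_mul]; linarith
  · intro r hr1 hr2 β hβ
    exact tendsto_free hP hcore AP.ok hS hG (by linarith) hβ
  · intro r hr1 hr2
    obtain ⟨Dl, Dr, h1, h2, h3⟩ := hK G (Pr c (αi N a0)) βc hc e ρ hβ0 hρ0 hG.conv hG.conc hG.pr1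
      hG.pr2 hT r (by linarith) (by nlinarith)
    exact deriv_free hβ0 h1 h2 h3

/-- `S0210` from the module statements. -/
theorem s0210_of (hMain : MainStmt) (hPack : PackingStmt) (hKG : KGeomStmt) (hC : Core2Stmt)
    (hAP : AttrPropsStmt) (hP : PartitionStmt) (hK : KinkStmt) :
    ∃ φ : ℝ → ℝ, Measurable φ ∧
      (∀ a b : ℝ, 0 < a → a ≤ b → ∃ M : ℝ, ∀ r : ℝ, a ≤ r → r ≤ b → |φ r| ≤ M) ∧
      Tendsto φ (𝓝[>] 0) atTop ∧
      (∃ r₁ r₂ a : ℝ, 0 < r₁ ∧ r₁ < r₂ ∧ 0 < a ∧ ∀ r : ℝ, r₁ ≤ r → r ≤ r₂ → φ r ≤ -a) ∧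
      (∃ R : ℝ, 0 < R ∧ IntegrableOn (fun r : ℝ => r ^ 2 * |φ r|) (Set.Ioi R)) ∧
      Tendsto (fun r : ℝ => r ^ 3 * φ r) atTop (𝓝 0) ∧
      (∃ B : ℝ, ∀ (N : ℕ) (x : Fin N → Pt), Function.Injective x → -B * N ≤ energy φ x) ∧
      ∃ f : ℝ → ℝ → ℝ,
        (∀ ρ : ℝ, 0 < ρ → ∀ β : ℝ, 0 < β →
          Tendsto (fun L : ℝ => -(1 / (β * L ^ 3)) *
              Real.log (partitionFn φ L ⌊ρ * L ^ 3⌋₊ β)) atTop (𝓝 (f β ρ))) ∧
        ∃ ρ₁ ρ₂ βc : ℝ, 0 ≤ ρ₁ ∧ ρ₁ < ρ₂ ∧ 1 / 2 < βc ∧ βc < 3 / 2 ∧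
          ∀ ρ : ℝ, ρ₁ < ρ → ρ < ρ₂ → ∃ Dl Dr : ℝ,
            HasDerivWithinAt (fun β => f β ρ) Dl (Set.Iio βc) βc ∧
            HasDerivWithinAt (fun β => f β ρ) Dr (Set.Ioi βc) βc ∧ Dr < Dl := by
  obtain ⟨p, hp, hp8, hlim⟩ := hPack
  obtain ⟨K, θ₂, θ₃, hKG⟩ := hKG
  obtain ⟨ξ, δ, M, hξ, hξ1, hδ, hδ1, hM, hmain⟩ := hMain K θ₂ θ₃ p hKG hp hp8 hlim
  obtain ⟨c, hct, hc0, hcb⟩ := hC θ₂ θ₃ ξ δ M hKG.h12 hKG.h23 hKG.h31 hξ hξ1 hδ hδ1 hM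
  obtain ⟨N, a0, B, G, βc, hc, e, ρ, hN, ha0, hS, hG, hβ7, hβ9, hT, hρ0, hρp, hρ2⟩ := hmain c hct
  have AP := hAP N a0 hN ha0
  have hcore : CoreOK c := hct.toCoreOK
  have hKr : (2 : ℝ) ≤ K := by exact_mod_cast hKG.two_le
  have hβ0 : 0 < βc := by linarith
  obtain ⟨A₀, hA₀⟩ := AP.ok.bdd
  have hA₀0 : 0 ≤ A₀ := (AP.ok.nonneg 0).trans (hA₀ 0)
  have hmeas : Measurable (fun r => c r - αi N a0 r) := hcore.meas.sub AP.ok.meas
  obtain ⟨C, hCd⟩ := AP.decay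
  -- decay beyond `2`
  have hdec : ∀ r : ℝ, 2 ≤ r → |c r - αi N a0 r| ≤ C * r ^ (-(3 + 1 / 32 : ℝ)) := fun r hr => by
    rw [hcore.far r hr, zero_sub, abs_neg, abs_of_nonneg (AP.ok.nonneg r)]
    exact hCd r (by linarith)
  refine ⟨fun r => c r - αi N a0 r, hmeas, ?_, ?_, ?_, ?_, ?_,
    ⟨B, fun n x _ => stable_energy hcore AP.ok hS x⟩,
    fun β r => G β r / β + r * αi N a0 0 / 2, ?_,
    p / 4, K * p - p / 4, βc, by linarith, by nlinarith, by linarith, by linarith, ?_⟩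
  · intro a b ha hab
    obtain ⟨C', hC'⟩ := hcb a b ha hab
    refine ⟨C' + A₀, fun r hr1 hr2 => ?_⟩
    rw [abs_le]
    have h1 := hcore.nonneg r
    have h2 := hC' r hr1 hr2
    have h3 := AP.ok.nonneg r
    have h4 := hA₀ r
    constructor <;> linarith
  · have h1 : Tendsto (fun r => c r + (-A₀)) (𝓝[>] 0) atTop := tendsto_atTop_add_const_right _ _ hc0
    refine tendsto_atTop_mono (fun r => ?_) h1
    have := hA₀ r
    linarith
  · obtain ⟨a, ha, hpos⟩ := AP.pos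
    refine ⟨2, 3, a, by norm_num, by norm_num, ha, fun r h1 h2 => ?_⟩
    have h3 := hpos r h1 h2
    have h4 := hcore.far r h1
    simp only
    linarith
  · refine ⟨2, by norm_num, ?_⟩
    have hint : IntegrableOn (fun r : ℝ => C * r ^ (-(1 + 1 / 32 : ℝ))) (Set.Ioi 2) :=
      (integrableOn_Ioi_rpow_of_lt (by norm_num) (by norm_num)).const_mul C
    refine Integrable.mono' hint ?_ ?_
    · exact ((measurable_id.pow_const 2).mul
        (by simpa [Real.norm_eq_abs] using hmeas.norm)).aestronglyMeasurable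
    · refine (ae_restrict_iff' measurableSet_Ioi).2 (Eventually.of_forall fun r hr => ?_)
      have hr2 : (2 : ℝ) ≤ r := (Set.mem_Ioi.1 hr).le
      have hr0 : 0 < r := by linarith
      rw [Real.norm_eq_abs, abs_of_nonneg (by positivity)]
      calc r ^ 2 * |c r - αi N a0 r| ≤ r ^ 2 * (C * r ^ (-(3 + 1 / 32 : ℝ))) := by
            gcongr; exact hdec r hr2
        _ = C * r ^ (-(1 + 1 / 32 : ℝ)) := by
            have : r ^ (-(1 + 1 / 32 : ℝ)) = r ^ (2 : ℝ) * r ^ (-(3 + 1 / 32 : ℝ)) := by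
              rw [← Real.rpow_add hr0]; norm_num
            rw [this, Real.rpow_two]; ring
  · have h0 : Tendsto (fun r : ℝ => C * r ^ (-(1 / 32 : ℝ))) atTop (𝓝 (C * 0)) :=
      (tendsto_rpow_neg_atTop (by norm_num)).const_mul C
    rw [mul_zero] at h0
    refine squeeze_zero_norm' ?_ h0
    filter_upwards [eventually_ge_atTop 2] with r hr
    have hr0 : 0 < r := by linarith
    rw [Real.norm_eq_abs, abs_mul, abs_of_nonneg (by positivity : (0 : ℝ) ≤ r ^ 3)]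
    calc r ^ 3 * |c r - αi N a0 r| ≤ r ^ 3 * (C * r ^ (-(3 + 1 / 32 : ℝ))) := by
          gcongr; exact hdec r hr
      _ = C * r ^ (-(1 / 32 : ℝ)) := by
          have : r ^ (-(1 / 32 : ℝ)) = r ^ (3 : ℝ) * r ^ (-(3 + 1 / 32 : ℝ)) := by
            rw [← Real.rpow_add hr0]; norm_num
          rw [this, show r ^ (3 : ℝ) = r ^ (3 : ℕ) by
            rw [← Real.rpow_natCast]; norm_num]
          ring
  · intro r hr β hβ
    exact tendsto_free hP hcore AP.ok hS hG hr.le hβ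
  · intro r hr1 hr2
    obtain ⟨Dl, Dr, h1, h2, h3⟩ := hK G (Pr c (αi N a0)) βc hc e ρ hβ0 hρ0 hG.conv hG.conc hG.pr1
      hG.pr2 hT r (by linarith) (by linarith)
    exact deriv_free hβ0 h1 h2 h3

end Final

end Crest.Agent.R149
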