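import Mathlib
import Crest.Agent.R149.Stmts

/-!
# LPUpper, part C5: the volume limit
-/

set_option autoImplicit false

open MeasureTheory Crest.ProbabilityR.Continuum Filter Topology
open scoped ENNReal

namespace Crest.Agent.R149.LPU

theorem pr_le_of_volume_bound (hSA : SuperAddStmt) {c α : ℝ → ℝ} {B β : ℝ} (hc : CoreOK c)
    (hα : AttrOK α) (hs : Stab c α B) (hβ : 0 < β) (h X D : ℝ) (ℓ : ℕ) (hℓ : 1 ≤ ℓ) (hX : 0 ≤ X)
    (Hb : ∀ L : ℝ, 0 < L → ∀ N : ℕ,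
      h * N + LZ c α β L N ≤ D + ((⌊L / ℓ⌋₊ : ℝ) + 2) ^ 3 * X) :
    Pr c α β h ≤ X / (ℓ : ℝ) ^ 3 := by
  have hℓ0 : (0 : ℝ) < ℓ := by exact_mod_cast hℓ
  refine ciSup_le fun q => ?_
  set b : ℝ := (q.1 : ℝ) + 1 with hb
  set n : ℕ := q.2 with hn
  have hb0 : 0 < b := by positivity
  have hb3 : (q.1 : ℝ) + 3 = b + 2 := by rw [hb]; ring
  rw [hb3, div_le_iff₀ (by positivity)]
  -- bound with `j ^ 3` copies
  have key : ∀ j : ℕ, 1 ≤ j → h * n + LZ c α β b n ≤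
      D * (1 / (j : ℝ)) ^ 3 + ((b + 2) / ℓ + 2 * (1 / (j : ℝ))) ^ 3 * X := by
    intro j hj
    have hj0 : (0 : ℝ) < j := by exact_mod_cast hj
    have hj1 : (1 : ℝ) ≤ j := by exact_mod_cast hj
    have h1 := hSA c α B β hc hα hs hβ b j hb0 hj (fun _ => n)
    simp only [Finset.sum_const, Finset.card_univ, Fintype.card_fun, Fintype.card_fin,
      nsmul_eq_mul, smul_eq_mul, Nat.cast_pow] at h1
    have hL : 0 < (j : ℝ) * (b + 2) - 2 := by nlinarith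
    have h2 := Hb ((j : ℝ) * (b + 2) - 2) hL (j ^ 3 * n)
    have h3 : (⌊((j : ℝ) * (b + 2) - 2) / ℓ⌋₊ : ℝ) ≤ (j : ℝ) * ((b + 2) / ℓ) := by
      refine (Nat.floor_le (by positivity)).trans ?_
      rw [← mul_div_assoc]
      exact div_le_div_of_nonneg_right (by linarith) hℓ0.le
    have h4 : ((⌊((j : ℝ) * (b + 2) - 2) / ℓ⌋₊ : ℝ) + 2) ^ 3 * X ≤
        ((j : ℝ) * ((b + 2) / ℓ) + 2) ^ 3 * X :=
      mul_le_mul_of_nonneg_right (pow_le_pow_left₀ (by positivity) (by linarith) 3) hX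
    push_cast at h2
    have h5 : (j : ℝ) ^ 3 * (h * n + LZ c α β b n) ≤ D + ((j : ℝ) * ((b + 2) / ℓ) + 2) ^ 3 * X := by
      nlinarith [h1, h2, h4]
    have h6 : (j : ℝ) ^ 3 * (h * n + LZ c α β b n) ≤ (j : ℝ) ^ 3 *
        (D * (1 / (j : ℝ)) ^ 3 + ((b + 2) / ℓ + 2 * (1 / (j : ℝ))) ^ 3 * X) := by
      refine h5.trans (le_of_eq ?_)
      field_simp
    exact le_of_mul_le_mul_left h6 (by positivity)
  have hlim : Tendsto (fun j : ℕ => D * (1 / ((j : ℝ) + 1)) ^ 3 +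
      ((b + 2) / ℓ + 2 * (1 / ((j : ℝ) + 1))) ^ 3 * X) atTop
      (𝓝 (D * 0 ^ 3 + ((b + 2) / ℓ + 2 * 0) ^ 3 * X)) := by
    have h0 := tendsto_one_div_add_atTop_nhds_zero_nat (𝕜 := ℝ)
    exact ((h0.pow 3).const_mul D).add
      (((tendsto_const_nhds.add (h0.const_mul 2)).pow 3).mul_const X)
  have := ge_of_tendsto' hlim fun j => by
    have := key (j + 1) (by omega)
    push_cast at this
    exact this
  refine this.trans (le_of_eq ?_)
  field_simp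
  ring

end Crest.Agent.R149.LPU
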